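import Crest.Agent.Lib.EG.Winding

/-!
# From closed lists to walks, and the conclusion of S0064 from a decomposition
-/

namespace Crest.Agent.Lib.EG.Winding

open List SimpleGraph

variable {V : Type*} (G : SimpleGraph V)

theorem isChain_of_chainArcs (l : List V) (h : ∀ p ∈ chainArcs l, G.Adj p.1 p.2) :
    l.IsChain G.Adj := by
  induction l with
  | nil => simp
  | cons a l ih =>
    cases l with
    | nil => simp
    | cons b l =>
      refine List.isChain_cons_cons.2 ⟨h (a, b) (by simp), ih ?_⟩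
      intro p hp
      exact h p (by simp [hp])

theorem edges_eq_chainArcs_support {u v : V} (w : G.Walk u v) :
    w.edges = (chainArcs w.support).map (fun p => s(p.1, p.2)) := by
  induction w with
  | nil => simp
  | cons h p ih =>
    rw [Walk.edges_cons, ih, Walk.support_cons, ← Walk.cons_tail_support p]
    simp only [chainArcs_cons_cons, List.map_cons]

theorem edges_ofSupport (l : List V) (hne : l ≠ []) (hc : l.IsChain G.Adj) :
    (Walk.ofSupport l hne hc).edges = (chainArcs l).map (fun p => s(p.1, p.2)) := by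
  rw [edges_eq_chainArcs_support, Walk.support_ofSupport]

/-- A simple closed list with valid arcs is a cycle of `G`. -/
theorem exists_cycle_of_trail (t : List V) (hne : t ≠ []) (hnd : t.Nodup)
    (hadj : ∀ p ∈ arcs t, G.Adj p.1 p.2) (hA : (arcs t).Nodup)
    (hrev : ∀ p ∈ arcs t, (p.2, p.1) ∉ arcs t) :
    ∃ (u : V) (w : G.Walk u u), w.IsCycle ∧ w.edges = (arcs t).map (fun p => s(p.1, p.2)) := by
  obtain ⟨a, m, rfl⟩ := List.exists_cons_of_ne_nil hne
  have harcs : arcs (a :: m) = chainArcs (a :: m ++ [a]) := by simp [arcs]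
  rw [harcs] at hadj hA hrev ⊢
  have hl : (a :: m ++ [a]) ≠ [] := by simp
  have hc := isChain_of_chainArcs G (a :: m ++ [a]) hadj
  have h1 : (a :: m ++ [a]).head hl = a := by simp
  have h2 : (a :: m ++ [a]).getLast hl = a := by simp
  refine ⟨a, (Walk.ofSupport (a :: m ++ [a]) hl hc).copy h1 h2, ?_, ?_⟩
  · rw [Walk.isCycle_def]
    have hedges : ((Walk.ofSupport (a :: m ++ [a]) hl hc).copy h1 h2).edges
        = (chainArcs (a :: m ++ [a])).map (fun p => s(p.1, p.2)) := by
      rw [Walk.edges_copy, edges_ofSupport]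
    refine ⟨?_, ?_, ?_⟩
    · rw [Walk.isTrail_def, hedges]
      refine List.Nodup.map_on ?_ hA
      intro x hx y hy hxy
      rcases Sym2.eq_iff.1 hxy with ⟨h3, h4⟩ | ⟨h3, h4⟩
      · exact Prod.ext h3 h4
      · exact absurd (by
          have : ((x.2, x.1) : V × V) = y := Prod.ext h4 h3
          rwa [this]) (hrev x hx)
    · intro hnil
      have hE : ((Walk.ofSupport (a :: m ++ [a]) hl hc).copy h1 h2).edges = [] := by
        rw [hnil]; rfl
      rw [hedges] at hE
      cases m with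
      | nil =>
        have := hadj (a, a) (by simp)
        exact G.loopless.irrefl a this
      | cons b m => simp at hE
    · rw [Walk.support_copy, Walk.support_ofSupport]
      have : (a :: m ++ [a]).tail = m ++ [a] := by simp
      rw [this]
      exact (List.perm_append_singleton a m).nodup_iff.2 hnd
  · rw [Walk.edges_copy, edges_ofSupport]

/-- The conclusion of S0064 from an indexed family of classes. -/
theorem conclusion_of_family {V : Type} [Fintype V] (G : SimpleGraph V) (I : Type) [Fintype I]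
    [Nonempty I] (E : I → Set (Sym2 V)) (hdisj : ∀ i j, i ≠ j → Disjoint (E i) (E j))
    (hcover : ∀ e ∈ G.edgeSet, ∃ i, e ∈ E i) (hsub : ∀ i, E i ⊆ G.edgeSet)
    (hform : ∀ i, E i = ∅ ∨ (∃ e ∈ G.edgeSet, E i = {e}) ∨
      ∃ (u : V) (w : G.Walk u u), w.IsCycle ∧ {e | e ∈ w.edges} = E i) :
    ∃ (m : ℕ) (f : Sym2 V → Fin m), m = Fintype.card I ∧
      ∀ i : Fin m, G.edgeSet ∩ f ⁻¹' {i} = ∅ ∨
        (∃ e ∈ G.edgeSet, G.edgeSet ∩ f ⁻¹' {i} = {e}) ∨
        (∃ (u : V) (w : G.Walk u u), w.IsCycle ∧ {e | e ∈ w.edges} = G.edgeSet ∩ f ⁻¹' {i}) := by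
  classical
  let eqv : I ≃ Fin (Fintype.card I) := Fintype.equivFin I
  let i0 : I := Classical.arbitrary I
  let g : Sym2 V → I := fun e => if h : ∃ i, e ∈ E i then h.choose else i0
  refine ⟨Fintype.card I, fun e => eqv (g e), rfl, ?_⟩
  have hfib : ∀ i : I, G.edgeSet ∩ (fun e => eqv (g e)) ⁻¹' {eqv i} = E i := by
    intro i
    ext e
    simp only [Set.mem_inter_iff, Set.mem_preimage, Set.mem_singleton_iff,
      EmbeddingLike.apply_eq_iff_eq]
    constructor
    · rintro ⟨he, hgi⟩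
      have hex := hcover e he
      have : g e = hex.choose := dif_pos hex
      rw [← hgi, this]
      exact hex.choose_spec
    · intro hei
      refine ⟨hsub i hei, ?_⟩
      have hex : ∃ i, e ∈ E i := ⟨i, hei⟩
      have h1 : g e = hex.choose := dif_pos hex
      rw [h1]
      by_contra hne
      exact Set.disjoint_left.1 (hdisj _ _ hne) hex.choose_spec hei
  intro i
  obtain ⟨j, rfl⟩ := eqv.surjective i
  rw [hfib j]
  exact hform j

/-- Output format of the whole decomposition: cycles given as simple closed lists (all arcs distinct,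
no arc with its reverse) and single edges; the conclusion of S0064 follows with `m ≤ #lists + #singles + 1`. -/
theorem conclusion_of_lists {V : Type} [Fintype V] [DecidableEq V] (G : SimpleGraph V)
    (Cs : List (List V)) (Ss : List (Sym2 V))
    (hCs : ∀ t ∈ Cs, t ≠ [] ∧ t.Nodup)
    (hadj : ∀ p ∈ allArcs Cs, G.Adj p.1 p.2)
    (hnd : (allArcs Cs).Nodup) (hrev : ∀ p ∈ allArcs Cs, (p.2, p.1) ∉ allArcs Cs)
    (hSs : ∀ e ∈ Ss, e ∈ G.edgeSet) (hSnd : Ss.Nodup)
    (hdis : ∀ p ∈ allArcs Cs, s(p.1, p.2) ∉ Ss)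
    (hcov : ∀ e ∈ G.edgeSet, e ∈ Ss ∨ ∃ p ∈ allArcs Cs, s(p.1, p.2) = e) :
    ∃ (m : ℕ) (f : Sym2 V → Fin m), m ≤ Cs.length + Ss.length + 1 ∧
      ∀ i : Fin m, G.edgeSet ∩ f ⁻¹' {i} = ∅ ∨
        (∃ e ∈ G.edgeSet, G.edgeSet ∩ f ⁻¹' {i} = {e}) ∨
        (∃ (u : V) (w : G.Walk u u), w.IsCycle ∧ {e | e ∈ w.edges} = G.edgeSet ∩ f ⁻¹' {i}) := by
  classical
  -- index set: option of (position in Cs or position in Ss)
  let I := Option (Fin Cs.length ⊕ Fin Ss.length)
  let arcE : List V → Set (Sym2 V) := fun t => {e | ∃ p ∈ arcs t, s(p.1, p.2) = e}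
  let E : I → Set (Sym2 V) := fun i => match i with
    | none => ∅
    | some (Sum.inl k) => arcE (Cs.get k)
    | some (Sum.inr k) => {Ss.get k}
  have hmem : ∀ k : Fin Cs.length, ∀ p ∈ arcs (Cs.get k), p ∈ allArcs Cs := by
    intro k p hp
    exact List.mem_flatMap.2 ⟨Cs.get k, List.get_mem _ _, hp⟩
  -- arcs of different trails are disjoint and each trail is nodup
  have hdisjArcs : ∀ k l : Fin Cs.length, k ≠ l → ∀ p, p ∈ arcs (Cs.get k) → p ∉ arcs (Cs.get l) := by
    intro k l hkl p hp hq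
    have hpw : (Cs.map arcs).Pairwise List.Disjoint := (List.nodup_flatMap.1 (by simpa [allArcs] using hnd)).2 |> fun h => by
      simpa [List.pairwise_map] using h
    have hpw' := List.pairwise_iff_get.1 hpw
    rcases lt_or_gt_of_ne (Fin.val_ne_of_ne hkl) with h | h
    · have := hpw' ⟨k, by simp⟩ ⟨l, by simp⟩ h
      simp only [List.get_eq_getElem, List.getElem_map] at this
      exact this (by simpa using hp) (by simpa using hq)
    · have := hpw' ⟨l, by simp⟩ ⟨k, by simp⟩ h
      simp only [List.get_eq_getElem, List.getElem_map] at this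
      exact this (by simpa using hq) (by simpa using hp)
  have hsymm : ∀ p q, p ∈ allArcs Cs → q ∈ allArcs Cs → s(p.1, p.2) = s(q.1, q.2) → p = q := by
    intro p q hp hq hpq
    rcases Sym2.eq_iff.1 hpq with ⟨h3, h4⟩ | ⟨h3, h4⟩
    · exact Prod.ext h3 h4
    · exact absurd (by
        have : ((p.2, p.1) : V × V) = q := Prod.ext h4 h3
        rwa [this]) (hrev p hp)
  have h1 : ∀ i j, i ≠ j → Disjoint (E i) (E j) := by
    intro i j hij
    rw [Set.disjoint_left]
    rintro e hi hj
    rcases i with _ | k | k <;> rcases j with _ | l | l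
    · exact hi
    · exact hi
    · exact hi
    · exact hj
    · obtain ⟨p, hp, rfl⟩ := hi
      obtain ⟨q, hq, hpq⟩ := hj
      have hkl : k ≠ l := fun h => hij (by rw [h])
      have : q = p := hsymm q p (hmem l q hq) (hmem k p hp) hpq
      exact hdisjArcs k l hkl p hp (this ▸ hq)
    · obtain ⟨p, hp, rfl⟩ := hi
      have : s(p.1, p.2) = Ss.get l := hj
      exact hdis p (hmem k p hp) (this ▸ List.get_mem _ _)
    · exact hj
    · obtain ⟨p, hp, rfl⟩ := hj
      have : s(p.1, p.2) = Ss.get k := hi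
      exact hdis p (hmem l p hp) (this ▸ List.get_mem _ _)
    · have hk : e = Ss.get k := hi
      have hl : e = Ss.get l := hj
      have : k = l := by
        have := hk.symm.trans hl
        exact (List.Nodup.get_inj_iff hSnd).1 this
      exact hij (by rw [this])
  have h2 : ∀ e ∈ G.edgeSet, ∃ i, e ∈ E i := by
    intro e he
    rcases hcov e he with h | ⟨p, hp, rfl⟩
    · obtain ⟨k, hk⟩ := List.mem_iff_get.1 h
      exact ⟨some (Sum.inr k), hk.symm⟩
    · obtain ⟨t, ht, hpt⟩ := List.mem_flatMap.1 hp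
      obtain ⟨k, rfl⟩ := List.mem_iff_get.1 ht
      exact ⟨some (Sum.inl k), p, hpt, rfl⟩
  have h3 : ∀ i, E i ⊆ G.edgeSet := by
    rintro (_ | k | k) e he
    · exact he.elim
    · obtain ⟨p, hp, rfl⟩ := he
      exact hadj p (hmem k p hp)
    · have : e = Ss.get k := he
      rw [this]
      exact hSs _ (List.get_mem _ _)
  have h4 : ∀ i, E i = ∅ ∨ (∃ e ∈ G.edgeSet, E i = {e}) ∨
      ∃ (u : V) (w : G.Walk u u), w.IsCycle ∧ {e | e ∈ w.edges} = E i := by
    rintro (_ | k | k)
    · exact Or.inl rfl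
    · right; right
      have hget := hCs (Cs.get k) (List.get_mem _ _)
      have hAnd : (arcs (Cs.get k)).Nodup := by
        have hl : (Cs.flatMap arcs).Nodup := hnd
        exact (List.nodup_flatMap.1 hl).1 _ (List.get_mem _ _)
      obtain ⟨u, w, hw, hedges⟩ := exists_cycle_of_trail G (Cs.get k) hget.1 hget.2
        (fun p hp => hadj p (hmem k p hp)) hAnd
        (fun p hp hq => hrev p (hmem k p hp) (hmem k _ hq))
      refine ⟨u, w, hw, ?_⟩
      ext e
      simp only [Set.mem_ofPred_eq, hedges, List.mem_map]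
      rfl
    · right; left
      exact ⟨Ss.get k, hSs _ (List.get_mem _ _), rfl⟩
  obtain ⟨m, f, hm, hf⟩ := conclusion_of_family G I E h1 h2 h3 h4
  refine ⟨m, f, ?_, hf⟩
  rw [hm]
  simp [I]

/-- S0064 from a linear bound on a decomposition into simple closed lists and single edges. -/
theorem s0064_of_bound (C : ℕ)
    (h : ∀ (V : Type) [Fintype V] [DecidableEq V] (G : SimpleGraph V),
      ∃ (Cs : List (List V)) (Ss : List (Sym2 V)),
        (∀ t ∈ Cs, t ≠ [] ∧ t.Nodup) ∧ (∀ p ∈ allArcs Cs, G.Adj p.1 p.2) ∧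
        (allArcs Cs).Nodup ∧ (∀ p ∈ allArcs Cs, (p.2, p.1) ∉ allArcs Cs) ∧
        (∀ e ∈ Ss, e ∈ G.edgeSet) ∧ Ss.Nodup ∧ (∀ p ∈ allArcs Cs, s(p.1, p.2) ∉ Ss) ∧
        (∀ e ∈ G.edgeSet, e ∈ Ss ∨ ∃ p ∈ allArcs Cs, s(p.1, p.2) = e) ∧
        Cs.length + Ss.length ≤ C * Fintype.card V) :
    ∃ C : ℝ, ∀ (V : Type) [Fintype V] (G : SimpleGraph V),
      ∃ (m : ℕ) (f : Sym2 V → Fin m), (m : ℝ) ≤ C * Fintype.card V ∧
        ∀ i : Fin m, G.edgeSet ∩ f ⁻¹' {i} = ∅ ∨
          (∃ e ∈ G.edgeSet, G.edgeSet ∩ f ⁻¹' {i} = {e}) ∨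
          (∃ (u : V) (w : G.Walk u u), w.IsCycle ∧ {e | e ∈ w.edges} = G.edgeSet ∩ f ⁻¹' {i}) := by
  classical
  refine ⟨(C : ℝ) + 1, ?_⟩
  intro V _ G
  by_cases hV : Nonempty V
  · obtain ⟨Cs, Ss, h1, h2, h3, h4, h5, h6, h7, h8, h9⟩ := h V G
    obtain ⟨m, f, hm, hf⟩ := conclusion_of_lists G Cs Ss h1 h2 h3 h4 h5 h6 h7 h8
    refine ⟨m, f, ?_, hf⟩
    have hc : 1 ≤ Fintype.card V := Fintype.card_pos_iff.2 hV
    have : m ≤ (C + 1) * Fintype.card V := by
      have : (C + 1) * Fintype.card V = C * Fintype.card V + Fintype.card V := by ring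
      omega
    exact_mod_cast this
  · have hE : IsEmpty V := not_nonempty_iff.1 hV
    have hS : IsEmpty (Sym2 V) := ⟨fun e => Sym2.inductionOn e (fun a _ => hE.false a)⟩
    refine ⟨0, fun e => (hS.false e).elim, ?_, fun i => i.elim0⟩
    simp [Fintype.card_eq_zero]

end Crest.Agent.Lib.EG.Winding
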