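import Mathlib

/-!
# The `T`-core of a graph (row 45)

`core G T` is the largest vertex set in which every vertex has at least `T` neighbours.
It is antitone in `T`, and at most `T * |V|` edges of `G` are not inside it.
-/

namespace Crest.Agent.Lib.EG.Core

open Finset

variable {V : Type*} [Fintype V] [DecidableEq V] (G : SimpleGraph V)

/-- Neighbours of `v` inside `S`. -/
noncomputable def nbrIn (S : Finset V) (v : V) : Finset V := by
  classical exact S.filter (fun u => G.Adj v u)

lemma mem_nbrIn {S : Finset V} {v u : V} : u ∈ nbrIn G S v ↔ u ∈ S ∧ G.Adj v u := by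
  classical simp [nbrIn]

lemma nbrIn_mono {S S' : Finset V} (h : S ⊆ S') (v : V) : nbrIn G S v ⊆ nbrIn G S' v := by
  intro u hu
  rw [mem_nbrIn] at hu ⊢
  exact ⟨h hu.1, hu.2⟩

/-- Every vertex of `S` has at least `T` neighbours in `S`. -/
def Dense (T : ℕ) (S : Finset V) : Prop := ∀ v ∈ S, T ≤ (nbrIn G S v).card

/-- The `T`-core: union of all `T`-dense sets. -/
noncomputable def core (T : ℕ) : Finset V := by
  classical exact univ.filter (fun v => ∃ S : Finset V, Dense G T S ∧ v ∈ S)

lemma mem_core {T : ℕ} {v : V} : v ∈ core G T ↔ ∃ S : Finset V, Dense G T S ∧ v ∈ S := by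
  classical simp [core]

lemma subset_core {T : ℕ} {S : Finset V} (hS : Dense G T S) : S ⊆ core G T := by
  intro v hv
  exact (mem_core G).2 ⟨S, hS, hv⟩

/-- The core is dense. -/
lemma dense_core (T : ℕ) : Dense G T (core G T) := by
  intro v hv
  obtain ⟨S, hS, hvS⟩ := (mem_core G).1 hv
  exact (hS v hvS).trans (card_le_card (nbrIn_mono G (subset_core G hS) v))

lemma Dense.mono {T T' : ℕ} (h : T ≤ T') {S : Finset V} (hS : Dense G T' S) : Dense G T S :=
  fun v hv => h.trans (hS v hv)

/-- The core is antitone in `T`. -/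
lemma core_anti {T T' : ℕ} (h : T ≤ T') : core G T' ⊆ core G T :=
  subset_core G ((dense_core G T').mono G h)

variable [DecidableRel G.Adj]

/-- Edges of `G` with both endpoints in `S`. -/
def edgesIn (S : Finset V) : Finset (Sym2 V) :=
  G.edgeFinset.filter (fun e => ∀ x ∈ e, x ∈ S)

lemma mem_edgesIn {S : Finset V} {e : Sym2 V} :
    e ∈ edgesIn G S ↔ e ∈ G.edgeFinset ∧ ∀ x ∈ e, x ∈ S := by
  simp [edgesIn]

/-- Peeling: the edges inside `S ⊇ core` not inside the core number at most `T * |S \ core|`. -/
lemma card_edgesIn_sdiff_le (T : ℕ) (Z : Finset V) (hZ : Z = core G T) :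
    ∀ (k : ℕ) (S : Finset V), Z ⊆ S → (S \ Z).card = k →
      (edgesIn G S \ edgesIn G Z).card ≤ T * k := by
  intro k
  induction k with
  | zero =>
    intro S hS hk
    have : S \ Z = ∅ := card_eq_zero.1 hk
    have hSZ : S ⊆ Z := sdiff_eq_empty_iff_subset.1 this
    have : S = Z := Subset.antisymm hSZ hS
    subst this
    simp
  | succ k ih =>
    intro S hS hk
    -- `S` is not dense, otherwise it lies in the core
    have hnd : ¬ Dense G T S := by
      intro hd
      have hsub : S ⊆ Z := hZ ▸ subset_core G hd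
      have : S \ Z = ∅ := sdiff_eq_empty_iff_subset.2 hsub
      simp [this] at hk
    unfold Dense at hnd
    push_neg at hnd
    obtain ⟨v, hvS, hv⟩ := hnd
    have hvZ : v ∉ Z := by
      intro hvZ
      have h1 := dense_core G T v (hZ ▸ hvZ)
      have h2 := card_le_card (nbrIn_mono G (show core G T ⊆ S from hZ ▸ hS) v)
      omega
    set S' := S.erase v with hS'
    have hZS' : Z ⊆ S' := by
      intro x hx
      refine mem_erase.2 ⟨?_, hS hx⟩
      rintro rfl
      exact hvZ hx
    have hk' : (S' \ Z).card = k := by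
      have : S \ Z = insert v (S' \ Z) := by
        ext x
        simp only [mem_sdiff, mem_insert, hS', mem_erase]
        constructor
        · rintro ⟨h1, h2⟩
          by_cases hxv : x = v
          · exact Or.inl hxv
          · exact Or.inr ⟨⟨hxv, h1⟩, h2⟩
        · rintro (rfl | ⟨⟨_, h1⟩, h2⟩)
          · exact ⟨hvS, hvZ⟩
          · exact ⟨h1, h2⟩
      rw [this, card_insert_of_notMem (by simp [hS'])] at hk
      omega
    have hih := ih S' hZS' hk'
    -- edges inside `S` not inside `S'` contain `v`: injection from the neighbours of `v`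
    have hcover : edgesIn G S \ edgesIn G Z ⊆
        (edgesIn G S' \ edgesIn G Z) ∪ (nbrIn G S v).image (fun u => s(v, u)) := by
      intro e he
      rw [mem_sdiff, mem_edgesIn, mem_edgesIn] at he
      obtain ⟨⟨he1, he2⟩, he3⟩ := he
      by_cases hv' : v ∈ e
      · apply mem_union_right
        obtain ⟨u, rfl⟩ := Sym2.mem_iff_exists.1 hv' |>.imp (fun u hu => hu.symm)
        refine mem_image.2 ⟨u, ?_, rfl⟩
        rw [mem_nbrIn]
        exact ⟨he2 u (by simp), by simpa using he1⟩
      · apply mem_union_left
        rw [mem_sdiff, mem_edgesIn, mem_edgesIn]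
        refine ⟨⟨he1, ?_⟩, fun h => he3 ⟨h.1, h.2⟩⟩
        intro x hx
        refine mem_erase.2 ⟨?_, he2 x hx⟩
        rintro rfl
        exact hv' hx
    calc (edgesIn G S \ edgesIn G Z).card
        ≤ ((edgesIn G S' \ edgesIn G Z) ∪ (nbrIn G S v).image (fun u => s(v, u))).card :=
          card_le_card hcover
      _ ≤ (edgesIn G S' \ edgesIn G Z).card + ((nbrIn G S v).image (fun u => s(v, u))).card :=
          card_union_le _ _
      _ ≤ T * k + (nbrIn G S v).card := add_le_add hih card_image_le
      _ ≤ T * k + T := by omega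
      _ = T * (k + 1) := by ring

/-- At most `T * |V|` edges of `G` are not inside the `T`-core. -/
theorem card_edges_outside_core_le (T : ℕ) :
    (G.edgeFinset.filter (fun e => ¬ ∀ x ∈ e, x ∈ core G T)).card ≤ T * Fintype.card V := by
  have h := card_edgesIn_sdiff_le G T (core G T) rfl _ univ (subset_univ _) rfl
  have hsub : G.edgeFinset.filter (fun e => ¬ ∀ x ∈ e, x ∈ core G T) ⊆
      edgesIn G univ \ edgesIn G (core G T) := by
    intro e he
    rw [mem_filter] at he
    rw [mem_sdiff, mem_edgesIn, mem_edgesIn]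
    exact ⟨⟨he.1, fun _ _ => mem_univ _⟩, fun h' => he.2 h'.2⟩
  calc _ ≤ _ := card_le_card hsub
    _ ≤ T * (univ \ core G T).card := h
    _ ≤ T * Fintype.card V := by
      apply Nat.mul_le_mul_left
      exact (card_le_card (subset_univ _)).trans_eq card_univ

end Crest.Agent.Lib.EG.Core
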