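/-
  Row 45 (S0064), scheme independent tool, no reference to any statement.

  TRACE LEMMA (Foster).  In `EuclideanSpace ℝ E`, `E` finite: let `U` be a subspace, `P` the orthogonal
  projection on `U`.

  * `sum_norm_proj_unit` : `∑ e, ‖P 1_e‖² = finrank U` (Foster: the sum of the leverages is the rank).
  * `expect_norm_proj_sq` : if `σ` is a random vector on a finite weighted space with
    `E[σ_e σ_f] = 0` for `e ≠ f`, then `E ‖P σ‖² = ∑ e, E[σ_e²] ‖P 1_e‖²`.
  * `expect_norm_proj_sq_le` : hence `E ‖P σ‖² ≤ s * finrank U` if `E[σ_e²] ≤ s`.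
  * `finrank_orthogonal_ker_le` : the orthogonal complement of the kernel of a linear map to `V → ℝ` has
    dimension at most `|V|` (the cut space of a graph is the orthogonal complement of the kernel
    of the boundary map).

  Nothing here depends on the structure of the graph.
-/
import Mathlib

set_option autoImplicit false
set_option linter.unusedSectionVars false

open Finset
open scoped InnerProductSpace RealInnerProductSpace

namespace Crest.Agent.Lib.EG.Trace

variable {E : Type*} [Fintype E] [DecidableEq E]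

/-- The unit vector at `e`. -/
noncomputable def unit (e : E) : EuclideanSpace ℝ E := EuclideanSpace.single e (1 : ℝ)

lemma inner_unit (e : E) (x : EuclideanSpace ℝ E) : ⟪unit e, x⟫_ℝ = x e := by
  simp [unit, EuclideanSpace.inner_single_left]

lemma inner_unit_right (e : E) (x : EuclideanSpace ℝ E) : ⟪x, unit e⟫_ℝ = x e := by
  rw [real_inner_comm, inner_unit]

lemma norm_sq_eq_sum (x : EuclideanSpace ℝ E) : ‖x‖ ^ 2 = ∑ e, x e ^ 2 := by
  rw [EuclideanSpace.norm_sq_eq]
  simp

lemma inner_eq_sum (x y : EuclideanSpace ℝ E) : ⟪x, y⟫_ℝ = ∑ e, x e * y e := by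
  rw [PiLp.inner_apply]
  refine Finset.sum_congr rfl fun e _ => ?_
  simp [mul_comm]

/-- `‖P x‖² = ∑ᵢ ⟨bᵢ, x⟩²` for an orthonormal basis of `U`. -/
lemma norm_proj_sq (U : Submodule ℝ (EuclideanSpace ℝ E)) (x : EuclideanSpace ℝ E) :
    ‖U.starProjection x‖ ^ 2
      = ∑ i, ⟪((stdOrthonormalBasis ℝ U) i : EuclideanSpace ℝ E), x⟫_ℝ ^ 2 := by
  set b := stdOrthonormalBasis ℝ U
  have h1 : ‖U.starProjection x‖ = ‖U.orthogonalProjectionOnto x‖ := rfl
  rw [h1, ← b.sum_sq_inner_right]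
  refine Finset.sum_congr rfl fun i _ => ?_
  rw [Submodule.inner_orthogonalProjectionOnto_eq_of_mem_left]

/-- The coordinates of a unit vector of an orthonormal basis. -/
lemma sum_sq_coord_basis (U : Submodule ℝ (EuclideanSpace ℝ E))
    (i : Fin (Module.finrank ℝ U)) :
    ∑ e, (((stdOrthonormalBasis ℝ U) i : EuclideanSpace ℝ E) e) ^ 2 = 1 := by
  rw [← norm_sq_eq_sum]
  have h := (stdOrthonormalBasis ℝ U).orthonormal.1 i
  simp only [Submodule.coe_norm] at h
  rw [h]; norm_num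

/-- The leverage of `e`, in an orthonormal basis of `U`. -/
lemma norm_proj_unit_sq (U : Submodule ℝ (EuclideanSpace ℝ E)) (e : E) :
    ‖U.starProjection (unit e)‖ ^ 2
      = ∑ i, (((stdOrthonormalBasis ℝ U) i : EuclideanSpace ℝ E) e) ^ 2 := by
  simp_rw [norm_proj_sq, inner_unit_right]

/-- FOSTER. The sum of the leverages of the unit vectors is the dimension. -/
theorem sum_norm_proj_unit (U : Submodule ℝ (EuclideanSpace ℝ E)) :
    ∑ e, ‖U.starProjection (unit e)‖ ^ 2 = Module.finrank ℝ U := by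
  simp_rw [norm_proj_unit_sq]
  rw [Finset.sum_comm]
  simp_rw [sum_sq_coord_basis]
  simp

/-- Leverages are at most one. -/
lemma norm_proj_unit_sq_le_one (U : Submodule ℝ (EuclideanSpace ℝ E)) (e : E) :
    ‖U.starProjection (unit e)‖ ^ 2 ≤ 1 := by
  have h := Submodule.norm_starProjection_apply_le U (unit e)
  have h1 : ‖unit e‖ = 1 := by simp [unit]
  rw [h1] at h
  have h0 := norm_nonneg (U.starProjection (unit e))
  nlinarith

variable {Ω : Type*} [Fintype Ω]

/-- Second moment of a linear form of pairwise uncorrelated coordinates. -/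
lemma expect_inner_sq (w : Ω → ℝ) (σ : Ω → EuclideanSpace ℝ E)
    (hun : ∀ e f, e ≠ f → ∑ ω, w ω * (σ ω e * σ ω f) = 0) (u : EuclideanSpace ℝ E) :
    ∑ ω, w ω * ⟪u, σ ω⟫_ℝ ^ 2 = ∑ e, u e ^ 2 * ∑ ω, w ω * σ ω e ^ 2 := by
  have h1 : ∀ ω, w ω * ⟪u, σ ω⟫_ℝ ^ 2
      = ∑ e, ∑ f, u e * u f * (w ω * (σ ω e * σ ω f)) := by
    intro ω
    rw [inner_eq_sum, sq, Finset.sum_mul_sum, Finset.mul_sum]
    refine Finset.sum_congr rfl fun e _ => ?_
    rw [Finset.mul_sum]
    refine Finset.sum_congr rfl fun f _ => ?_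
    ring
  simp_rw [h1]
  rw [Finset.sum_comm]
  refine Finset.sum_congr rfl fun e _ => ?_
  rw [Finset.sum_comm]
  rw [Finset.sum_eq_single e]
  · rw [← Finset.mul_sum]
    have : u e * u e = u e ^ 2 := by ring
    rw [this]
    congr 1
    refine Finset.sum_congr rfl fun ω _ => ?_
    ring
  · intro f _ hf
    rw [← Finset.mul_sum, hun e f (Ne.symm hf), mul_zero]
  · simp

/-- THE TRACE LEMMA, exact form. If the coordinates are pairwise uncorrelated then
`E ‖P σ‖² = ∑ e, E[σ_e²] ‖P 1_e‖²`. No independence, no structure of `U`. -/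
theorem expect_norm_proj_sq (U : Submodule ℝ (EuclideanSpace ℝ E)) (w : Ω → ℝ)
    (σ : Ω → EuclideanSpace ℝ E)
    (hun : ∀ e f, e ≠ f → ∑ ω, w ω * (σ ω e * σ ω f) = 0) :
    ∑ ω, w ω * ‖U.starProjection (σ ω)‖ ^ 2
      = ∑ e, (∑ ω, w ω * σ ω e ^ 2) * ‖U.starProjection (unit e)‖ ^ 2 := by
  simp_rw [norm_proj_sq, Finset.mul_sum]
  rw [Finset.sum_comm]
  simp_rw [← Finset.mul_sum]
  have h1 : ∀ i, ∑ ω, w ω *
      ⟪((stdOrthonormalBasis ℝ U) i : EuclideanSpace ℝ E), σ ω⟫_ℝ ^ 2
      = ∑ e, (((stdOrthonormalBasis ℝ U) i : EuclideanSpace ℝ E) e) ^ 2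
          * ∑ ω, w ω * σ ω e ^ 2 := fun i => expect_inner_sq w σ hun _
  simp_rw [h1, inner_unit_right]
  rw [Finset.sum_comm]
  refine Finset.sum_congr rfl fun e _ => ?_
  rw [Finset.mul_sum]
  refine Finset.sum_congr rfl fun i _ => ?_
  ring

/-- THE TRACE LEMMA, bound. -/
theorem expect_norm_proj_sq_le (U : Submodule ℝ (EuclideanSpace ℝ E)) (w : Ω → ℝ)
    (σ : Ω → EuclideanSpace ℝ E) (s : ℝ)
    (hun : ∀ e f, e ≠ f → ∑ ω, w ω * (σ ω e * σ ω f) = 0)
    (hs : ∀ e, ∑ ω, w ω * σ ω e ^ 2 ≤ s) :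
    ∑ ω, w ω * ‖U.starProjection (σ ω)‖ ^ 2 ≤ s * Module.finrank ℝ U := by
  rw [expect_norm_proj_sq U w σ hun, ← sum_norm_proj_unit U, Finset.mul_sum]
  refine Finset.sum_le_sum fun e _ => ?_
  exact mul_le_mul_of_nonneg_right (hs e) (by positivity)

/-- The rank of the orthogonal complement of a kernel. -/
theorem finrank_orthogonal_ker_le {V : Type*} [Fintype V]
    (B : EuclideanSpace ℝ E →ₗ[ℝ] (V → ℝ)) :
    Module.finrank ℝ (LinearMap.ker B)ᗮ ≤ Fintype.card V := by
  have h1 := Submodule.finrank_add_finrank_orthogonal (LinearMap.ker B)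
  have h2 := LinearMap.finrank_range_add_finrank_ker B
  have h3 : Module.finrank ℝ (LinearMap.range B) ≤ Module.finrank ℝ (V → ℝ) :=
    Submodule.finrank_le _
  rw [Module.finrank_fintype_fun_eq_card] at h3
  omega

/-- `P_{Kᗮ} x = x - P_K x`. -/
lemma starProjection_orthogonal_apply (K : Submodule ℝ (EuclideanSpace ℝ E))
    (x : EuclideanSpace ℝ E) : Kᗮ.starProjection x = x - K.starProjection x := by
  rw [Submodule.starProjection_orthogonal']
  simp

end Crest.Agent.Lib.EG.Trace
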