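/-
  Row 45 (S0064), scheme independent tool, no reference to any statement.

  DELETION LEMMA (lead, finding #2339).  `Z` a subspace of `ℝ^E` (the circulations), `σ` a vector with
  `|σ e| ≤ 1`.  For a set `B` of coordinates let `Z_B` be the vectors of `Z` supported on `B`, and
  `y^B = σ|_B - P_{Z_B} σ`.  So `σ|_B - y^B` is an exact element of `Z` supported on `B`.
  Delete coordinates while some `|y^B e| > τ`.  Every deletion raises `‖y^B‖²` by at least `τ² - 2τ`.

  The conclusion, `deletion_lemma`: there is a set `O` of coordinates, with `B = Oᶜ`, such that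
    (i)   `|y^B e| ≤ τ` for all `e`;
    (ii)  `(τ² - 2τ) |O| ≤ ‖y^B‖² - ‖y^E‖²`;
    (iii) `‖y^B‖² = ‖y^E‖² - ‖σ|_O‖² + ‖P_Z σ‖² - ‖P_{Z_B} σ‖²`, and the last difference is `‖P_W σ‖²` with
          `W = Z ⊓ (Z_B)ᗮ`, a subspace which depends only on `O` and has dimension at most `|O|`.
-/
import Crest.Agent.Lib.EG.Trace

set_option autoImplicit false
set_option linter.unusedSectionVars false

open Finset
open scoped InnerProductSpace RealInnerProductSpace

namespace Crest.Agent.Lib.EG.Deletion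

open Crest.Agent.Lib.EG.Trace

variable {E : Type*} [Fintype E] [DecidableEq E]

/-- The vectors of `Z` supported on `B`. -/
noncomputable def ZB (Z : Submodule ℝ (EuclideanSpace ℝ E)) (B : Finset E) :
    Submodule ℝ (EuclideanSpace ℝ E) :=
  Z ⊓ { carrier := {x | ∀ e, e ∉ B → x e = 0}
        add_mem' := by
          intro a b ha hb e he
          simp [ha e he, hb e he]
        zero_mem' := by
          intro e _
          simp
        smul_mem' := by
          intro c x hx e he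
          simp [hx e he] }

lemma mem_ZB {Z : Submodule ℝ (EuclideanSpace ℝ E)} {B : Finset E} {x : EuclideanSpace ℝ E} :
    x ∈ ZB Z B ↔ x ∈ Z ∧ ∀ e, e ∉ B → x e = 0 := Iff.rfl

lemma ZB_univ (Z : Submodule ℝ (EuclideanSpace ℝ E)) : ZB Z Finset.univ = Z := by
  ext x
  simp [mem_ZB]

lemma ZB_mono (Z : Submodule ℝ (EuclideanSpace ℝ E)) {B C : Finset E} (h : B ⊆ C) :
    ZB Z B ≤ ZB Z C := by
  intro x hx
  rw [mem_ZB] at hx ⊢
  exact ⟨hx.1, fun e he => hx.2 e fun hB => he (h hB)⟩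

lemma proj_ZB_univ (Z : Submodule ℝ (EuclideanSpace ℝ E)) (σ : EuclideanSpace ℝ E) :
    (ZB Z Finset.univ).starProjection σ = Z.starProjection σ := by
  have hmem : Z.starProjection σ ∈ ZB Z Finset.univ := by
    rw [ZB_univ]; exact Submodule.starProjection_apply_mem _ _
  exact Submodule.eq_starProjection_of_mem_of_inner_eq_zero hmem
    (fun w hw => Submodule.starProjection_inner_eq_zero σ w (by rwa [ZB_univ] at hw))

/-- The restriction of a vector to `B`. -/
noncomputable def res (B : Finset E) (σ : EuclideanSpace ℝ E) : EuclideanSpace ℝ E :=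
  WithLp.toLp 2 (fun e => if e ∈ B then σ e else 0)

@[simp] lemma res_apply (B : Finset E) (σ : EuclideanSpace ℝ E) (e : E) :
    res B σ e = if e ∈ B then σ e else 0 := rfl

/-- `y^B = σ|_B - P_{Z_B} σ`. -/
noncomputable def yB (Z : Submodule ℝ (EuclideanSpace ℝ E)) (B : Finset E)
    (σ : EuclideanSpace ℝ E) : EuclideanSpace ℝ E :=
  res B σ - (ZB Z B).starProjection σ

lemma proj_apply_not_mem (Z : Submodule ℝ (EuclideanSpace ℝ E)) (B : Finset E)
    (σ : EuclideanSpace ℝ E) (e : E) (he : e ∉ B) : (ZB Z B).starProjection σ e = 0 :=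
  (mem_ZB.1 (Submodule.starProjection_apply_mem (ZB Z B) σ)).2 e he

lemma yB_apply (Z : Submodule ℝ (EuclideanSpace ℝ E)) (B : Finset E)
    (σ : EuclideanSpace ℝ E) (e : E) :
    yB Z B σ e = (if e ∈ B then σ e else 0) - (ZB Z B).starProjection σ e := by
  simp [yB]

/-- The exact element: `σ|_B - y^B = P_{Z_B} σ` lies in `Z` and is supported on `B`. -/
lemma res_sub_yB_mem (Z : Submodule ℝ (EuclideanSpace ℝ E)) (B : Finset E)
    (σ : EuclideanSpace ℝ E) : res B σ - yB Z B σ ∈ ZB Z B := by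
  have : res B σ - yB Z B σ = (ZB Z B).starProjection σ := by simp [yB]
  rw [this]
  exact Submodule.starProjection_apply_mem _ _

lemma yB_apply_not_mem (Z : Submodule ℝ (EuclideanSpace ℝ E)) (B : Finset E)
    (σ : EuclideanSpace ℝ E) (e : E) (he : e ∉ B) : yB Z B σ e = 0 := by
  rw [yB_apply, if_neg he, proj_apply_not_mem Z B σ e he]; simp

/-- `σ - σ|_B` is orthogonal to `Z_B`. -/
lemma inner_sub_res (Z : Submodule ℝ (EuclideanSpace ℝ E)) (B : Finset E)
    (σ x : EuclideanSpace ℝ E) (hx : x ∈ ZB Z B) : ⟪σ - res B σ, x⟫_ℝ = 0 := by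
  rw [inner_eq_sum]
  refine Finset.sum_eq_zero fun e _ => ?_
  by_cases he : e ∈ B
  · simp [he]
  · rw [(mem_ZB.1 hx).2 e he, mul_zero]

/-- `‖σ|_B‖² = ∑_{e ∈ B} σ_e²`. -/
lemma norm_res_sq (B : Finset E) (σ : EuclideanSpace ℝ E) :
    ‖res B σ‖ ^ 2 = ∑ e ∈ B, σ e ^ 2 := by
  rw [norm_sq_eq_sum, ← Finset.sum_filter_add_sum_filter_not Finset.univ (· ∈ B)]
  have h1 : ∑ x ∈ Finset.univ.filter (· ∈ B), res B σ x ^ 2 = ∑ e ∈ B, σ e ^ 2 := by
    have : Finset.univ.filter (· ∈ B) = B := by ext; simp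
    rw [this]
    exact Finset.sum_congr rfl fun e he => by simp [he]
  have h2 : ∑ x ∈ Finset.univ.filter (fun x => ¬ x ∈ B), res B σ x ^ 2 = 0 := by
    refine Finset.sum_eq_zero fun e he => ?_
    have : e ∉ B := by simpa using he
    simp [this]
  rw [h1, h2, add_zero]

/-- The energy formula: `‖y^B‖² = ‖σ|_B‖² - ‖P_{Z_B} σ‖²`. -/
lemma norm_yB_sq (Z : Submodule ℝ (EuclideanSpace ℝ E)) (B : Finset E)
    (σ : EuclideanSpace ℝ E) :
    ‖yB Z B σ‖ ^ 2 = ∑ e ∈ B, σ e ^ 2 - ‖(ZB Z B).starProjection σ‖ ^ 2 := by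
  set p := (ZB Z B).starProjection σ with hp
  have hpmem : p ∈ ZB Z B := Submodule.starProjection_apply_mem _ _
  have h1 : ⟪σ - p, p⟫_ℝ = 0 := Submodule.starProjection_inner_eq_zero σ p hpmem
  have h2 : ⟪σ - res B σ, p⟫_ℝ = 0 := inner_sub_res Z B σ p hpmem
  have h3 : ⟪res B σ - p, p⟫_ℝ = 0 := by
    have : res B σ - p = (σ - p) - (σ - res B σ) := by abel
    rw [this, inner_sub_left, h1, h2, sub_zero]
  have h4 : ‖res B σ‖ ^ 2 = ‖res B σ - p‖ ^ 2 + ‖p‖ ^ 2 := by
    have : res B σ = (res B σ - p) + p := by abel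
    conv_lhs => rw [this]
    rw [@norm_add_sq_real, h3]
    ring
  have : yB Z B σ = res B σ - p := rfl
  rw [this, ← norm_res_sq]
  linarith

/-- Projection on a smaller subspace: `‖P_{Z'} σ‖² ≤ ‖P_Z σ‖² - (P_Z σ)_e²` if vectors of `Z'` vanish at `e`. -/
lemma norm_proj_smaller (Z Z' : Submodule ℝ (EuclideanSpace ℝ E)) (h : Z' ≤ Z)
    (σ : EuclideanSpace ℝ E) (e : E) (he : ∀ x ∈ Z', x e = 0) :
    ‖Z'.starProjection σ‖ ^ 2 + (Z.starProjection σ e) ^ 2 ≤ ‖Z.starProjection σ‖ ^ 2 := by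
  set v := Z.starProjection σ with hv
  have h1 : Z'.starProjection σ = Z'.starProjection v := by
    have := Submodule.starProjection_comp_starProjection_of_le h
    have h2 : (Z'.starProjection ∘L Z.starProjection) σ = Z'.starProjection σ := by rw [this]
    rw [← h2]; rfl
  set q := Z'.starProjection v with hq
  have hqmem : q ∈ Z' := Submodule.starProjection_apply_mem _ _
  have h3 : ⟪v - q, q⟫_ℝ = 0 := Submodule.starProjection_inner_eq_zero v q hqmem
  have h4 : ‖v‖ ^ 2 = ‖v - q‖ ^ 2 + ‖q‖ ^ 2 := by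
    have : v = (v - q) + q := by abel
    conv_lhs => rw [this]
    rw [@norm_add_sq_real, h3]
    ring
  have h5 : (v e) ^ 2 ≤ ‖v - q‖ ^ 2 := by
    rw [norm_sq_eq_sum]
    have h6 : (v - q) e = v e := by
      simp [he q hqmem]
    calc (v e) ^ 2 = ((v - q) e) ^ 2 := by rw [h6]
      _ ≤ ∑ f, ((v - q) f) ^ 2 :=
        Finset.single_le_sum (f := fun f => ((v - q) f) ^ 2) (fun _ _ => by positivity)
          (Finset.mem_univ e)
  rw [h1]
  linarith

/-- One deletion raises the energy by at least `τ² - 2τ`. -/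
lemma energy_step (Z : Submodule ℝ (EuclideanSpace ℝ E)) (σ : EuclideanSpace ℝ E)
    (hσ : ∀ e, |σ e| ≤ 1) (τ : ℝ) (hτ : 1 ≤ τ) (B : Finset E) (e : E) (he : e ∈ B)
    (hy : τ < |yB Z B σ e|) :
    ‖yB Z B σ‖ ^ 2 + (τ ^ 2 - 2 * τ) ≤ ‖yB Z (B.erase e) σ‖ ^ 2 := by
  have h1 := norm_proj_smaller (ZB Z B) (ZB Z (B.erase e))
    (ZB_mono Z (Finset.erase_subset e B)) σ e
    (fun x hx => (mem_ZB.1 hx).2 e (by simp))
  rw [norm_yB_sq, norm_yB_sq]
  have h2 : ∑ f ∈ B, σ f ^ 2 = ∑ f ∈ B.erase e, σ f ^ 2 + σ e ^ 2 := by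
    rw [Finset.sum_erase_add _ _ he]
  have h3 : σ e ^ 2 ≤ 1 := by
    have := hσ e
    have h4 := abs_nonneg (σ e)
    rw [← sq_abs]; nlinarith
  set r := (ZB Z B).starProjection σ e with hr
  have h5 : yB Z B σ e = σ e - r := by rw [yB_apply, if_pos he]
  have h6 : (τ - 1) ^ 2 ≤ r ^ 2 := by
    rw [h5] at hy
    have h7 : |σ e - r| ≤ |σ e| + |r| := abs_sub _ _
    have h8 := hσ e
    have h9 : τ - 1 ≤ |r| := by linarith
    rw [← sq_abs r]
    exact pow_le_pow_left₀ (by linarith) h9 2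
  nlinarith

/-- Iterated deletion. -/
lemma deletion_aux (Z : Submodule ℝ (EuclideanSpace ℝ E)) (σ : EuclideanSpace ℝ E)
    (hσ : ∀ e, |σ e| ≤ 1) (τ : ℝ) (hτ : 1 ≤ τ) (n : ℕ) (B : Finset E) (hn : B.card = n) :
    ∃ B' ⊆ B, (∀ e, |yB Z B' σ e| ≤ τ) ∧
      ‖yB Z B σ‖ ^ 2 + (τ ^ 2 - 2 * τ) * ((B \ B').card : ℝ) ≤ ‖yB Z B' σ‖ ^ 2 := by
  induction n generalizing B with
  | zero =>
    refine ⟨B, subset_rfl, ?_, by simp⟩
    have hB : B = ∅ := Finset.card_eq_zero.1 hn
    intro e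
    rw [yB_apply_not_mem Z B σ e (by simp [hB])]
    simp; linarith
  | succ n ih =>
    by_cases hall : ∀ e, |yB Z B σ e| ≤ τ
    · exact ⟨B, subset_rfl, hall, by simp⟩
    · push_neg at hall
      obtain ⟨e, he⟩ := hall
      have heB : e ∈ B := by
        by_contra h
        rw [yB_apply_not_mem Z B σ e h] at he
        simp at he; linarith
      obtain ⟨B', hB', hall', hen⟩ := ih (B.erase e) (by
        rw [Finset.card_erase_of_mem heB, hn]; rfl)
      refine ⟨B', hB'.trans (Finset.erase_subset e B), hall', ?_⟩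
      have hstep := energy_step Z σ hσ τ hτ B e heB he
      have hcard : ((B \ B').card : ℝ) = ((B.erase e \ B').card : ℝ) + 1 := by
        have h1 : B \ B' = insert e (B.erase e \ B') := by
          ext f
          simp only [Finset.mem_sdiff, Finset.mem_insert, Finset.mem_erase]
          constructor
          · rintro ⟨hf, hf'⟩
            by_cases hfe : f = e
            · exact Or.inl hfe
            · exact Or.inr ⟨⟨hfe, hf⟩, hf'⟩
          · rintro (rfl | ⟨⟨_, hf⟩, hf'⟩)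
            · exact ⟨heB, fun h => by simpa using hB' h⟩
            · exact ⟨hf, hf'⟩
        rw [h1, Finset.card_insert_of_notMem (by simp)]
        push_cast; ring
      rw [hcard]
      nlinarith

/-- The subspace `W = Z ⊖ Z_B`. -/
noncomputable def WW (Z : Submodule ℝ (EuclideanSpace ℝ E)) (O : Finset E) :
    Submodule ℝ (EuclideanSpace ℝ E) :=
  Z ⊓ (ZB Z Oᶜ)ᗮ

/-- The dimension of `Z ⊖ Z_{Oᶜ}` is at most `|O|`. -/
theorem finrank_WW_le (Z : Submodule ℝ (EuclideanSpace ℝ E)) (O : Finset E) :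
    Module.finrank ℝ (WW Z O) ≤ O.card := by
  -- restriction to `O` is injective on `W`
  let ρ : (WW Z O) →ₗ[ℝ] (O → ℝ) :=
    { toFun := fun x e => (x : EuclideanSpace ℝ E) e
      map_add' := by intro x y; ext e; simp
      map_smul' := by intro c x; ext e; simp }
  have hinj : Function.Injective ρ := by
    rw [← LinearMap.ker_eq_bot, LinearMap.ker_eq_bot']
    intro x hx
    have hx0 : ∀ e ∈ O, (x : EuclideanSpace ℝ E) e = 0 := by
      intro e he
      exact congrFun hx ⟨e, he⟩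
    have hxZ : (x : EuclideanSpace ℝ E) ∈ ZB Z Oᶜ := by
      refine mem_ZB.2 ⟨x.2.1, fun e he => hx0 e ?_⟩
      simpa using he
    have hxperp := x.2.2
    have h0 : (x : EuclideanSpace ℝ E) = 0 := by
      have := (Submodule.mem_orthogonal _ _).1 hxperp _ hxZ
      simpa using this
    exact Subtype.ext h0
  have := LinearMap.finrank_le_finrank_of_injective hinj
  simpa using this

/-- Pythagoras for the two nested projections: `‖P_Z σ‖² - ‖P_{Z_B} σ‖² = ‖P_W σ‖²`. -/
theorem norm_proj_WW_sq (Z : Submodule ℝ (EuclideanSpace ℝ E)) (O : Finset E)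
    (σ : EuclideanSpace ℝ E) :
    ‖(WW Z O).starProjection σ‖ ^ 2
      = ‖Z.starProjection σ‖ ^ 2 - ‖(ZB Z Oᶜ).starProjection σ‖ ^ 2 := by
  set Z' := ZB Z Oᶜ with hZ'
  have hle : Z' ≤ Z := by
    intro x hx; exact (mem_ZB.1 hx).1
  set v := Z.starProjection σ with hv
  set q := Z'.starProjection σ with hq
  have hqv : q = Z'.starProjection v := by
    have := Submodule.starProjection_comp_starProjection_of_le hle
    have h2 : (Z'.starProjection ∘L Z.starProjection) σ = Z'.starProjection σ := by rw [this]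
    rw [hq, ← h2]; rfl
  have hqmem : q ∈ Z' := Submodule.starProjection_apply_mem _ _
  have hvmem : v ∈ Z := Submodule.starProjection_apply_mem _ _
  have hwW : v - q ∈ WW Z O := by
    refine ⟨Z.sub_mem hvmem (hle hqmem), ?_⟩
    show v - q ∈ (ZB Z Oᶜ)ᗮ
    rw [Submodule.mem_orthogonal]
    intro u hu
    rw [real_inner_comm, hqv]
    exact Submodule.starProjection_inner_eq_zero v u hu
  have hP : (WW Z O).starProjection σ = v - q := by
    refine Submodule.eq_starProjection_of_mem_of_inner_eq_zero hwW ?_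
    intro w hw
    have h1 : ⟪σ - v, w⟫_ℝ = 0 := Submodule.starProjection_inner_eq_zero σ w hw.1
    have h2 : ⟪q, w⟫_ℝ = 0 := by
      have := (Submodule.mem_orthogonal _ _).1 hw.2 q hqmem
      exact this
    have : σ - (v - q) = (σ - v) + q := by abel
    rw [this, inner_add_left, h1, h2, add_zero]
  have h3 : ⟪v - q, q⟫_ℝ = 0 := by
    rw [hqv]
    exact Submodule.starProjection_inner_eq_zero v _ (by rw [← hqv]; exact hqmem)
  have h4 : ‖v‖ ^ 2 = ‖v - q‖ ^ 2 + ‖q‖ ^ 2 := by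
    have : v = (v - q) + q := by abel
    conv_lhs => rw [this]
    rw [@norm_add_sq_real, h3]
    ring
  rw [hP]
  linarith

/-- THE DELETION LEMMA (#2339). -/
theorem deletion_lemma (Z : Submodule ℝ (EuclideanSpace ℝ E)) (σ : EuclideanSpace ℝ E)
    (hσ : ∀ e, |σ e| ≤ 1) (τ : ℝ) (hτ : 1 ≤ τ) :
    ∃ O : Finset E,
      (∀ e, |yB Z Oᶜ σ e| ≤ τ) ∧
      (τ ^ 2 - 2 * τ) * (O.card : ℝ) + ∑ e ∈ O, σ e ^ 2
        ≤ ‖(WW Z O).starProjection σ‖ ^ 2 ∧
      ‖yB Z Oᶜ σ‖ ^ 2 = ‖Zᗮ.starProjection σ‖ ^ 2 - ∑ e ∈ O, σ e ^ 2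
        + ‖(WW Z O).starProjection σ‖ ^ 2 := by
  obtain ⟨B', _, hall, hen⟩ := deletion_aux Z σ hσ τ hτ _ Finset.univ rfl
  have hcompl : (Finset.univ \ B') = B'ᶜ := by ext; simp
  rw [hcompl] at hen
  have hB : B'ᶜᶜ = B' := compl_compl B'
  have hsum : ∑ e, σ e ^ 2 = ∑ e ∈ B', σ e ^ 2 + ∑ e ∈ B'ᶜ, σ e ^ 2 :=
    (Finset.sum_add_sum_compl B' _).symm
  have h0 : ‖yB Z Finset.univ σ‖ ^ 2 = ‖Zᗮ.starProjection σ‖ ^ 2 := by
    rw [Trace.starProjection_orthogonal_apply]
    congr 2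
    unfold yB
    rw [proj_ZB_univ]
    congr 1
    ext e
    simp
  have h1 := norm_yB_sq Z B' σ
  have h2 := norm_yB_sq Z Finset.univ σ
  rw [proj_ZB_univ] at h2
  have h3 := norm_proj_WW_sq Z B'ᶜ σ
  rw [hB] at h3
  refine ⟨B'ᶜ, ?_, ?_, ?_⟩
  · rw [hB]; exact hall
  · rw [h3]
    rw [h0] at hen
    rw [h0] at h2
    nlinarith
  · rw [hB, h3, h1, ← h0, h2]
    linarith

end Crest.Agent.Lib.EG.Deletion
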