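import Mathlib
import Crest.Agent.Lib.EG.Trace
import Crest.Agent.Lib.EG.Deletion
set_option autoImplicit false
set_option linter.unusedSectionVars false
set_option linter.unusedSimpArgs false
set_option linter.unusedVariables false
open Finset
open scoped InnerProductSpace RealInnerProductSpace

namespace Crest.Agent.Lib.EG.FreezeGraph

variable {V : Type*} [Fintype V] [DecidableEq V]

/-- Forward sign of an arc under labels. -/
noncomputable def sigma {L : ℕ} (j : V → ZMod L) (e : V × V) : ℝ :=
  (if j e.2 = j e.1 + 1 then 1 else 0) - (if j e.1 = j e.2 + 1 then 1 else 0)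

lemma sigma_abs_le {L : ℕ} (j : V → ZMod L) (e : V × V) : |sigma j e| ≤ 1 := by
  unfold sigma
  split_ifs <;> simp

lemma sigma_sq_le {L : ℕ} (j : V → ZMod L) (e : V × V) :
    sigma j e ^ 2 ≤ (if j e.2 = j e.1 + 1 then 1 else 0) + (if j e.1 = j e.2 + 1 then 1 else 0) := by
  unfold sigma
  split_ifs <;> norm_num

section sumUpdate
variable {X : Type*} [Fintype X] [DecidableEq X]

/-- Averaging over one coordinate. -/
lemma sum_sum_update (u : V) (F : (V → X) → ℝ) :
    ∑ j : V → X, ∑ a : X, F (Function.update j u a) = Fintype.card X * ∑ j : V → X, F j := by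
  classical
  -- fibres of `restriction` have size `card X`
  have key : ∀ j : V → X, ∑ a : X, F (Function.update j u a)
      = ∑ j' : V → X, if (∀ v, v ≠ u → j' v = j v) then F j' else 0 := by
    intro j
    rw [← Finset.sum_filter]
    refine Finset.sum_bij (fun a _ => Function.update j u a) ?_ ?_ ?_ ?_
    · intro a _
      simp only [mem_filter, mem_univ, true_and]
      intro v hv
      simp [Function.update_of_ne hv]
    · intro a _ b _ h
      have := congrFun h u
      simpa using this
    · intro j' hj'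
      simp only [mem_filter, mem_univ, true_and] at hj'
      refine ⟨j' u, mem_univ _, ?_⟩
      funext v
      by_cases hv : v = u
      · subst hv; simp
      · simp [Function.update_of_ne hv, hj' v hv]
    · intro a _; rfl
  simp_rw [key]
  rw [Finset.sum_comm]
  rw [Finset.mul_sum]
  refine Finset.sum_congr rfl fun j' _ => ?_
  have : (∑ j : V → X, if (∀ v, v ≠ u → j' v = j v) then F j' else 0)
      = ∑ a : X, F j' := by
    rw [← Finset.sum_filter]
    symm
    refine Finset.sum_bij (fun a _ => Function.update j' u a) ?_ ?_ ?_ ?_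
    · intro a _
      simp only [mem_filter, mem_univ, true_and]
      intro v hv
      simp [Function.update_of_ne hv]
    · intro a _ b _ h
      have := congrFun h u
      simpa using this
    · intro j hj
      simp only [mem_filter, mem_univ, true_and] at hj
      refine ⟨j u, mem_univ _, ?_⟩
      funext v
      by_cases hv : v = u
      · subst hv; simp
      · simp [Function.update_of_ne hv, hj v hv]
    · intro a _; rfl
  rw [this]
  simp

/-- If averaging over one coordinate vanishes, the whole sum vanishes. -/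
lemma sum_eq_zero_of_update (u : V) (F : (V → X) → ℝ) (hX : 0 < Fintype.card X)
    (h : ∀ j, ∑ a : X, F (Function.update j u a) = 0) : ∑ j : V → X, F j = 0 := by
  have h1 := sum_sum_update u F
  simp_rw [h] at h1
  simp only [sum_const_zero] at h1
  have h2 : (Fintype.card X : ℝ) ≠ 0 := by positivity
  exact (mul_eq_zero.mp h1.symm).resolve_left h2

end sumUpdate

variable {L : ℕ} [NeZero L]

lemma sum_ite_eq_add_one (x : ZMod L) : ∑ a : ZMod L, (if a = x + 1 then (1 : ℝ) else 0) = 1 := by
  simp

lemma sum_ite_eq_add_one' (x : ZMod L) : ∑ a : ZMod L, (if x = a + 1 then (1 : ℝ) else 0) = 1 := by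
  have : ∀ a : ZMod L, (x = a + 1) ↔ (a = x - 1) := by
    intro a
    constructor
    · intro h; rw [h]; ring
    · intro h; rw [h]; ring
  simp_rw [this]
  simp

/-- Zero mean when one endpoint is resampled. -/
lemma sum_sigma_update_snd (j : V → ZMod L) (e : V × V) (he : e.1 ≠ e.2) :
    ∑ a : ZMod L, sigma (Function.update j e.2 a) e = 0 := by
  unfold sigma
  have h1 : ∀ a : ZMod L, Function.update j e.2 a e.1 = j e.1 := fun a => by
    simp [Function.update_of_ne he]
  have h2 : ∀ a : ZMod L, Function.update j e.2 a e.2 = a := fun a => by simp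
  simp_rw [h1, h2]
  rw [Finset.sum_sub_distrib, sum_ite_eq_add_one, sum_ite_eq_add_one']
  simp

lemma sum_sigma_update_fst (j : V → ZMod L) (e : V × V) (he : e.1 ≠ e.2) :
    ∑ a : ZMod L, sigma (Function.update j e.1 a) e = 0 := by
  unfold sigma
  have h1 : ∀ a : ZMod L, Function.update j e.1 a e.2 = j e.2 := fun a => by
    simp [Function.update_of_ne he.symm]
  have h2 : ∀ a : ZMod L, Function.update j e.1 a e.1 = a := fun a => by simp
  simp_rw [h1, h2]
  rw [Finset.sum_sub_distrib, sum_ite_eq_add_one', sum_ite_eq_add_one]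
  simp

/-- Labels only matter at endpoints. -/
lemma sigma_congr {j j' : V → ZMod L} {e : V × V} (h1 : j e.1 = j' e.1) (h2 : j e.2 = j' e.2) :
    sigma j e = sigma j' e := by
  unfold sigma
  rw [h1, h2]

/-- Second moment. -/
lemma sum_sigma_sq_le (e : V × V) (he : e.1 ≠ e.2) :
    ∑ j : V → ZMod L, sigma j e ^ 2 ≤ (2 / (L : ℝ)) * (L : ℝ) ^ Fintype.card V := by
  classical
  have hL : (0 : ℝ) < L := by exact_mod_cast Nat.pos_of_ne_zero (NeZero.ne L)
  have h1 := sum_sum_update (X := ZMod L) e.2 (fun j => (if j e.2 = j e.1 + 1 then (1:ℝ) else 0) + (if j e.1 = j e.2 + 1 then 1 else 0))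
  have h2 : ∀ j : V → ZMod L, ∑ a : ZMod L, ((if (Function.update j e.2 a) e.2 = (Function.update j e.2 a) e.1 + 1 then (1:ℝ) else 0)
      + (if (Function.update j e.2 a) e.1 = (Function.update j e.2 a) e.2 + 1 then 1 else 0)) = 2 := by
    intro j
    have h3 : ∀ a : ZMod L, Function.update j e.2 a e.1 = j e.1 := fun a => by
      simp [Function.update_of_ne he]
    have h4 : ∀ a : ZMod L, Function.update j e.2 a e.2 = a := fun a => by simp
    simp_rw [h3, h4]
    rw [Finset.sum_add_distrib, sum_ite_eq_add_one, sum_ite_eq_add_one']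
    norm_num
  simp_rw [h2] at h1
  simp only [sum_const, card_univ, Fintype.card_pi, prod_const, ZMod.card, nsmul_eq_mul, Nat.cast_pow, mul_comm] at h1
  have h5 : ∑ j : V → ZMod L, sigma j e ^ 2 ≤ ∑ j : V → ZMod L, ((if j e.2 = j e.1 + 1 then (1:ℝ) else 0) + (if j e.1 = j e.2 + 1 then 1 else 0)) :=
    Finset.sum_le_sum fun j _ => sigma_sq_le j e
  refine h5.trans ?_
  have h6 : (∑ j : V → ZMod L, ((if j e.2 = j e.1 + 1 then (1:ℝ) else 0) + (if j e.1 = j e.2 + 1 then 1 else 0))) * L = 2 * (L:ℝ) ^ Fintype.card V := by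
    have := h1
    linarith
  rw [div_mul_eq_mul_div, le_div_iff₀ hL]
  linarith

/-- Two arcs with different unordered pairs are uncorrelated. -/
lemma sum_sigma_mul_eq_zero (e f : V × V) (he : e.1 ≠ e.2) (hf : f.1 ≠ f.2)
    (hne : ∃ u, (u = e.1 ∨ u = e.2) ∧ u ≠ f.1 ∧ u ≠ f.2) :
    ∑ j : V → ZMod L, sigma j e * sigma j f = 0 := by
  classical
  obtain ⟨u, hu, hu1, hu2⟩ := hne
  have hcard : 0 < Fintype.card (ZMod L) := by
    rw [ZMod.card]; exact Nat.pos_of_ne_zero (NeZero.ne L)
  refine sum_eq_zero_of_update u _ hcard ?_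
  intro j
  have hf' : ∀ a : ZMod L, sigma (Function.update j u a) f = sigma j f := by
    intro a
    refine sigma_congr ?_ ?_
    · simp [Function.update_of_ne (Ne.symm hu1)]
    · simp [Function.update_of_ne (Ne.symm hu2)]
  simp_rw [hf']
  rw [← Finset.sum_mul]
  rcases hu with rfl | rfl
  · rw [sum_sigma_update_fst j e he, zero_mul]
  · rw [sum_sigma_update_snd j e he, zero_mul]


/-! ### The graph instance -/

section graph

/-- Position of a vertex in the order `ord`. -/
noncomputable def tpos (ord : V → ℕ) (v : V) : ℕ := (univ.filter (fun u => ord u < ord v)).card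

lemma tpos_lt_card (ord : V → ℕ) (v : V) : tpos ord v < Fintype.card V := by
  unfold tpos
  rw [← Finset.card_univ]
  refine Finset.card_lt_card ?_
  refine ⟨Finset.subset_univ _, fun h => ?_⟩
  have := h (mem_univ v)
  simp at this

lemma tpos_strictMono (ord : V → ℕ) {u v : V} (h : ord u < ord v) : tpos ord u < tpos ord v := by
  unfold tpos
  refine Finset.card_lt_card ?_
  refine ⟨fun x hx => ?_, fun hs => ?_⟩
  · simp only [mem_filter, mem_univ, true_and] at hx ⊢
    omega
  · have := hs (show u ∈ univ.filter (fun w => ord w < ord v) by simp [h])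
    simp at this

lemma tpos_injective {ord : V → ℕ} (hord : Function.Injective ord) :
    Function.Injective (tpos ord) := by
  intro u v huv
  by_contra hne
  have h : ord u ≠ ord v := fun h => hne (hord h)
  rcases lt_or_gt_of_ne h with h | h
  · exact absurd huv (tpos_strictMono ord h).ne
  · exact absurd huv (tpos_strictMono ord h).ne'

/-- Time of an arc: position of its later endpoint. -/
noncomputable def etime (ord : V → ℕ) (e : V × V) : ℕ := max (tpos ord e.1) (tpos ord e.2)

lemma etime_lt_card (ord : V → ℕ) (e : V × V) : etime ord e < Fintype.card V :=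
  max_lt (tpos_lt_card ord e.1) (tpos_lt_card ord e.2)

variable (arcs : Finset (V × V)) (ord : V → ℕ)

/-- The increment at time `k`. -/
noncomputable def Hvec (k : ℕ) (j : V → ZMod L) : EuclideanSpace ℝ arcs :=
  WithLp.toLp 2 (fun e : arcs => if etime ord e.1 = k then sigma j e.1 else 0)

lemma Hvec_apply (k : ℕ) (j : V → ZMod L) (e : arcs) :
    Hvec arcs ord k j e = if etime ord e.1 = k then sigma j e.1 else 0 := rfl

/-- Circulations on `arcs`, as the kernel of the boundary map. -/
noncomputable def bdryMap : EuclideanSpace ℝ arcs →ₗ[ℝ] (V → ℝ) where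
  toFun x v := (∑ e : arcs, if e.1.2 = v then x e else 0) - (∑ e : arcs, if e.1.1 = v then x e else 0)
  map_add' x y := by
    funext v
    simp only [Pi.add_apply, PiLp.add_apply]
    have h1 : ∀ p : arcs → Prop, ∀ [DecidablePred p],
        (∑ e : arcs, if p e then x e + y e else 0)
          = (∑ e : arcs, if p e then x e else 0) + ∑ e : arcs, if p e then y e else 0 := by
      intro p _
      rw [← Finset.sum_add_distrib]
      refine Finset.sum_congr rfl fun e _ => ?_
      split_ifs <;> simp
    rw [h1, h1]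
    ring
  map_smul' c x := by
    funext v
    simp only [Pi.smul_apply, PiLp.smul_apply, RingHom.id_apply, smul_eq_mul]
    rw [mul_sub, Finset.mul_sum, Finset.mul_sum]
    congr 1 <;> refine Finset.sum_congr rfl fun e _ => ?_ <;> split_ifs <;> simp

lemma mem_circ_iff (x : EuclideanSpace ℝ arcs) :
    x ∈ LinearMap.ker (bdryMap arcs) ↔
      ∀ v, (∑ e : arcs, if e.1.2 = v then x e else 0) = ∑ e : arcs, if e.1.1 = v then x e else 0 := by
  rw [LinearMap.mem_ker]
  constructor
  · intro h v
    have := congrFun h v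
    simp only [bdryMap, LinearMap.coe_mk, AddHom.coe_mk, Pi.zero_apply] at this
    linarith
  · intro h
    funext v
    simp only [bdryMap, LinearMap.coe_mk, AddHom.coe_mk, Pi.zero_apply]
    linarith [h v]

variable {arcs ord}

lemma sum_apply_euclid {ι : Type*} (s : Finset ι) (f : ι → EuclideanSpace ℝ arcs) (e : arcs) :
    (∑ k ∈ s, f k) e = ∑ k ∈ s, f k e := by
  classical
  induction s using Finset.induction_on with
  | empty => simp
  | insert a s ha ih => rw [Finset.sum_insert ha, Finset.sum_insert ha, PiLp.add_apply, ih]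

lemma Hvec_norm_sq_le {μ : ℕ} (hμ : ∀ k, (univ.filter (fun e : arcs => etime ord e.1 = k)).card ≤ μ)
    (k : ℕ) (j : V → ZMod L) : ‖Hvec arcs ord k j‖ ^ 2 ≤ μ := by
  rw [Trace.norm_sq_eq_sum]
  simp_rw [Hvec_apply]
  calc (∑ e : arcs, (if etime ord e.1 = k then sigma j e.1 else 0) ^ 2)
      ≤ ∑ e : arcs, (if etime ord e.1 = k then (1:ℝ) else 0) := by
        refine Finset.sum_le_sum fun e _ => ?_
        split_ifs
        · have := sigma_abs_le j e.1
          have h0 : sigma j e.1 ^ 2 = |sigma j e.1| ^ 2 := (sq_abs _).symm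
          have h1 := abs_nonneg (sigma j e.1)
          rw [h0]; nlinarith
        · simp
    _ = (univ.filter (fun e : arcs => etime ord e.1 = k)).card := by
        rw [Finset.card_filter]; push_cast; rfl
    _ ≤ μ := by exact_mod_cast hμ k

/-- Distinct arcs (no reversals, no loops) give uncorrelated increments. -/
lemma Hvec_uncorr (hloop : ∀ e ∈ arcs, e.1 ≠ e.2) (hrev : ∀ e ∈ arcs, (e.2, e.1) ∉ arcs)
    (k : ℕ) (e f : arcs) (hef : e ≠ f) :
    ∑ j : V → ZMod L, (1:ℝ) * (Hvec arcs ord k j e * Hvec arcs ord k j f) = 0 := by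
  simp_rw [one_mul, Hvec_apply]
  by_cases h1 : etime ord e.1 = k
  · by_cases h2 : etime ord f.1 = k
    · simp only [h1, h2, if_true]
      have he := hloop e.1 e.2
      have hf := hloop f.1 f.2
      refine sum_sigma_mul_eq_zero e.1 f.1 he hf ?_
      -- some endpoint of `e` is not an endpoint of `f`
      by_contra hcon
      push Not at hcon
      have h11 := hcon e.1.1 (Or.inl rfl)
      have h22 := hcon e.1.2 (Or.inr rfl)
      have hne : e.1 ≠ f.1 := fun h => hef (Subtype.ext h)
      by_cases ha : e.1.1 = f.1.1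
      · have hb : e.1.2 = f.1.2 := by
          by_contra hb
          have : e.1.2 = f.1.1 := by
            by_contra hc
            exact hb (h22 hc)
          exact he (ha.trans this.symm)
        exact hne (Prod.ext ha hb)
      · have ha' : e.1.1 = f.1.2 := h11 ha
        have hb : e.1.2 = f.1.1 := by
          by_contra hc
          have : e.1.2 = f.1.2 := h22 hc
          exact he (ha'.trans this.symm)
        have : (e.1.2, e.1.1) = f.1 := Prod.ext hb ha'
        apply hrev e.1 e.2
        rw [this]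
        exact f.2
    · simp [h2]
  · simp [h1]

/-- Second moment of the increments, summed over time. -/
theorem sum_Hvec_proj_le (hloop : ∀ e ∈ arcs, e.1 ≠ e.2) (hrev : ∀ e ∈ arcs, (e.2, e.1) ∉ arcs)
    (U : Submodule ℝ (EuclideanSpace ℝ arcs)) :
    ∑ k ∈ Finset.range (Fintype.card V), ∑ j : V → ZMod L, ‖U.starProjection (Hvec arcs ord k j)‖ ^ 2
      ≤ (2 / (L : ℝ)) * (L : ℝ) ^ Fintype.card V * Module.finrank ℝ U := by
  have hL : (0 : ℝ) ≤ (2 / (L : ℝ)) * (L : ℝ) ^ Fintype.card V := by positivity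
  have h1 : ∀ k, ∑ j : V → ZMod L, ‖U.starProjection (Hvec arcs ord k j)‖ ^ 2
      ≤ ∑ e : arcs, (if etime ord e.1 = k then (2 / (L : ℝ)) * (L : ℝ) ^ Fintype.card V else 0)
          * ‖U.starProjection (Trace.unit e)‖ ^ 2 := by
    intro k
    have h2 := Trace.expect_norm_proj_sq U (fun _ : V → ZMod L => (1:ℝ)) (Hvec arcs ord k)
      (fun e f hef => Hvec_uncorr hloop hrev k e f hef)
    simp only [one_mul] at h2
    rw [h2]
    refine Finset.sum_le_sum fun e _ => ?_
    refine mul_le_mul_of_nonneg_right ?_ (by positivity)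
    simp_rw [Hvec_apply]
    split_ifs with h
    · exact sum_sigma_sq_le e.1 (hloop e.1 e.2)
    · simp
  calc ∑ k ∈ Finset.range (Fintype.card V), ∑ j : V → ZMod L, ‖U.starProjection (Hvec arcs ord k j)‖ ^ 2
      ≤ ∑ k ∈ Finset.range (Fintype.card V), ∑ e : arcs,
          (if etime ord e.1 = k then (2 / (L : ℝ)) * (L : ℝ) ^ Fintype.card V else 0)
            * ‖U.starProjection (Trace.unit e)‖ ^ 2 :=
        Finset.sum_le_sum fun k _ => h1 k
    _ = ∑ e : arcs, (2 / (L : ℝ)) * (L : ℝ) ^ Fintype.card V * ‖U.starProjection (Trace.unit e)‖ ^ 2 := by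
        rw [Finset.sum_comm]
        refine Finset.sum_congr rfl fun e _ => ?_
        rw [← Finset.sum_mul]
        congr 1
        rw [Finset.sum_ite_eq]
        simp [etime_lt_card]
    _ = (2 / (L : ℝ)) * (L : ℝ) ^ Fintype.card V * Module.finrank ℝ U := by
        rw [← Finset.mul_sum, Trace.sum_norm_proj_unit]

/-- The increments sum to `sigma`. -/
lemma sum_Hvec_apply (j : V → ZMod L) (e : arcs) :
    (∑ k ∈ Finset.range (Fintype.card V), Hvec arcs ord k j) e = sigma j e.1 := by
  rw [sum_apply_euclid]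
  simp_rw [Hvec_apply]
  rw [Finset.sum_ite_eq]
  simp [etime_lt_card]

/-- The martingale difference property: labels before time `k` fixed, sum over the label at `k`. -/
lemma Hvec_update_sum (hloop : ∀ e ∈ arcs, e.1 ≠ e.2) (hord : Function.Injective ord)
    (k : ℕ) (u : V) (hu : tpos ord u = k) (j : V → ZMod L) (e : arcs) :
    ∑ a : ZMod L, Hvec arcs ord k (Function.update j u a) e = 0 := by
  simp_rw [Hvec_apply]
  by_cases h : etime ord e.1 = k
  · simp only [h, if_true]
    have he := hloop e.1 e.2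
    unfold etime at h
    rcases max_choice (tpos ord e.1.1) (tpos ord e.1.2) with hm | hm
    · rw [hm, ← hu] at h
      have := tpos_injective hord h
      rw [← this]
      exact sum_sigma_update_fst j e.1 he
    · rw [hm, ← hu] at h
      have := tpos_injective hord h
      rw [← this]
      exact sum_sigma_update_snd j e.1 he
  · simp [h]

/-- `Hvec k` depends only on the labels of positions `≤ k`. -/
lemma Hvec_congr (k : ℕ) {j j' : V → ZMod L} (h : ∀ u, tpos ord u ≤ k → j u = j' u) :
    Hvec arcs ord k j = Hvec arcs ord k j' := by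
  ext e
  simp_rw [Hvec_apply]
  split_ifs with he
  · refine sigma_congr (h _ ?_) (h _ ?_)
    · rw [← he]; exact le_max_left _ _
    · rw [← he]; exact le_max_right _ _
  · rfl

/-- Martingale difference: any `a` depending only on positions `< k` is orthogonal to `Hvec k`. -/
lemma Hvec_md (hloop : ∀ e ∈ arcs, e.1 ≠ e.2) (hord : Function.Injective ord)
    (k : ℕ) (a : (V → ZMod L) → EuclideanSpace ℝ arcs)
    (ha : ∀ j j', (∀ u, tpos ord u < k → j u = j' u) → a j = a j') :
    ∑ j : V → ZMod L, inner ℝ (a j) (Hvec arcs ord k j) = 0 := by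
  classical
  by_cases hex : ∃ u, tpos ord u = k
  · obtain ⟨u, hu⟩ := hex
    have hcard : 0 < Fintype.card (ZMod L) := by
      rw [ZMod.card]; exact Nat.pos_of_ne_zero (NeZero.ne L)
    refine sum_eq_zero_of_update u _ hcard ?_
    intro j
    have h1 : ∀ x : ZMod L, a (Function.update j u x) = a j := by
      intro x
      refine ha _ _ fun w hw => ?_
      have : w ≠ u := by
        rintro rfl
        omega
      simp [Function.update_of_ne this]
    simp_rw [h1]
    rw [← inner_sum]
    have h2 : ∑ x : ZMod L, Hvec arcs ord k (Function.update j u x) = 0 := by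
      ext e
      rw [sum_apply_euclid, Hvec_update_sum hloop hord k u hu j e]
      rfl
    rw [h2, inner_zero_right]
  · -- no vertex at position `k`: the increment vanishes
    have h0 : ∀ j : V → ZMod L, Hvec arcs ord k j = 0 := by
      intro j
      ext e
      rw [Hvec_apply]
      split_ifs with he
      · exfalso
        apply hex
        unfold etime at he
        rcases max_choice (tpos ord e.1.1) (tpos ord e.1.2) with hm | hm
        · exact ⟨_, hm ▸ he⟩
        · exact ⟨_, hm ▸ he⟩
      · rfl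
    simp [h0]

end graph

/-! ### The freezing recursion (direct proof, specialised to `Hvec`) -/

section freeze

open Crest.Agent.Lib.EG.Deletion

variable {arcs : Finset (V × V)} {ord : V → ℕ}

local notation "W" => EuclideanSpace ℝ arcs

variable (Z : Submodule ℝ (EuclideanSpace ℝ arcs)) (T : ℝ)

/-- The frozen arcs of a vector. -/
noncomputable def frozen (x : EuclideanSpace ℝ arcs) : Finset arcs := by
  classical exact univ.filter (fun e => T / 2 ≤ |x e|)

lemma mem_frozen {x : EuclideanSpace ℝ arcs} {e : arcs} : e ∈ frozen T x ↔ T / 2 ≤ |x e| := by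
  classical simp [frozen]

/-- Free space: vectors of `Z` vanishing on the frozen arcs. -/
noncomputable def freeSp (x : EuclideanSpace ℝ arcs) : Submodule ℝ (EuclideanSpace ℝ arcs) :=
  ZB Z (frozen T x)ᶜ

lemma mem_freeSp_apply {x y : EuclideanSpace ℝ arcs} (hy : y ∈ freeSp Z T x) {e : arcs}
    (he : e ∈ frozen T x) : y e = 0 := by
  have := (mem_ZB.1 hy).2 e
  exact this (by simpa using he)

/-- The recursion. -/
noncomputable def gRec (Z : Submodule ℝ (EuclideanSpace ℝ arcs)) (T : ℝ) (ord : V → ℕ) :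
    ℕ → (V → ZMod L) → EuclideanSpace ℝ arcs
  | 0, _ => 0
  | k + 1, j => gRec Z T ord k j +
      (freeSp Z T (gRec Z T ord k j)).starProjection (Hvec arcs ord k j)

lemma gRec_succ (k : ℕ) (j : V → ZMod L) : gRec Z T ord (k + 1) j = gRec Z T ord k j +
      (freeSp Z T (gRec Z T ord k j)).starProjection (Hvec arcs ord k j) := rfl

lemma gRec_mem (k : ℕ) (j : V → ZMod L) : gRec Z T ord k j ∈ Z := by
  induction k with
  | zero => exact Z.zero_mem
  | succ k ih =>
    rw [gRec_succ]
    refine Z.add_mem ih ?_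
    exact (mem_ZB.1 (Submodule.starProjection_apply_mem _ _)).1

lemma gRec_congr (k : ℕ) {j j' : V → ZMod L} (h : ∀ u, tpos ord u < k → j u = j' u) :
    gRec Z T ord k j = gRec Z T ord k j' := by
  induction k with
  | zero => rfl
  | succ k ih =>
    rw [gRec_succ, gRec_succ, ih (fun u hu => h u (by omega))]
    rw [Hvec_congr k (fun u hu => h u (by omega))]

/-- Frozen coordinates never change. -/
lemma gRec_succ_of_frozen (k : ℕ) (j : V → ZMod L) {e : arcs}
    (he : e ∈ frozen T (gRec Z T ord k j)) :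
    gRec Z T ord (k + 1) j e = gRec Z T ord k j e := by
  rw [gRec_succ, PiLp.add_apply, mem_freeSp_apply Z T (Submodule.starProjection_apply_mem _ _) he]
  simp

lemma frozen_mono_succ (k : ℕ) (j : V → ZMod L) :
    frozen T (gRec Z T ord k j) ⊆ frozen T (gRec Z T ord (k + 1) j) := by
  intro e he
  rw [mem_frozen] at he ⊢
  rw [gRec_succ_of_frozen Z T k j ((mem_frozen T).2 he)]
  exact he

lemma frozen_mono {k m : ℕ} (h : k ≤ m) (j : V → ZMod L) :
    frozen T (gRec Z T ord k j) ⊆ frozen T (gRec Z T ord m j) := by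
  induction m, h using Nat.le_induction with
  | base => exact Finset.Subset.refl _
  | succ m _ ih => exact ih.trans (frozen_mono_succ Z T m j)

lemma abs_apply_le_norm (x : EuclideanSpace ℝ arcs) (e : arcs) : |x e| ≤ ‖x‖ := by
  have h1 : x e ^ 2 ≤ ‖x‖ ^ 2 := by
    rw [Trace.norm_sq_eq_sum]
    exact Finset.single_le_sum (f := fun e => x e ^ 2) (fun i _ => sq_nonneg _) (mem_univ e)
  exact abs_le_of_sq_le_sq h1 (norm_nonneg _)

/-- Capacity. -/
lemma gRec_abs_le {μ : ℕ} (hμ : ∀ k, (univ.filter (fun e : arcs => etime ord e.1 = k)).card ≤ μ)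
    (hT0 : 0 ≤ T) (hT : Real.sqrt μ ≤ T / 2) (k : ℕ) (j : V → ZMod L) (e : arcs) :
    |gRec Z T ord k j e| ≤ T := by
  induction k with
  | zero =>
    have h0 : gRec Z T ord 0 j = 0 := rfl
    rw [h0]
    simpa using hT0
  | succ k ih =>
    by_cases he : e ∈ frozen T (gRec Z T ord k j)
    · rw [gRec_succ_of_frozen Z T k j he]; exact ih
    · rw [mem_frozen, not_le] at he
      rw [gRec_succ, PiLp.add_apply]
      refine (abs_add_le _ _).trans ?_
      have h1 := abs_apply_le_norm
        ((freeSp Z T (gRec Z T ord k j)).starProjection (Hvec arcs ord k j)) e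
      have h2 := Submodule.norm_starProjection_apply_le
        (freeSp Z T (gRec Z T ord k j)) (Hvec arcs ord k j)
      have h3 : ‖Hvec arcs ord k j‖ ≤ Real.sqrt μ :=
        Real.le_sqrt_of_sq_le (Hvec_norm_sq_le hμ k j)
      linarith

/-- Partial sums of the increments. -/
noncomputable def xRec (ord : V → ℕ) (k : ℕ) (j : V → ZMod L) : EuclideanSpace ℝ arcs :=
  ∑ i ∈ Finset.range k, Hvec arcs ord i j

/-- The residual. -/
noncomputable def nRec (Z : Submodule ℝ (EuclideanSpace ℝ arcs)) (T : ℝ) (ord : V → ℕ) (k : ℕ)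
    (j : V → ZMod L) : EuclideanSpace ℝ arcs := xRec ord k j - gRec Z T ord k j

lemma nRec_congr (k : ℕ) {j j' : V → ZMod L} (h : ∀ u, tpos ord u < k → j u = j' u) :
    nRec Z T ord k j = nRec Z T ord k j' := by
  unfold nRec
  rw [gRec_congr Z T k h]
  congr 1
  unfold xRec
  refine Finset.sum_congr rfl fun i hi => ?_
  have hi' := Finset.mem_range.1 hi
  exact Hvec_congr i (fun u hu => h u (by omega))

/-- The residual projection of the increment. -/
noncomputable def rInc (Z : Submodule ℝ (EuclideanSpace ℝ arcs)) (T : ℝ) (ord : V → ℕ) (k : ℕ)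
    (j : V → ZMod L) : EuclideanSpace ℝ arcs :=
  Hvec arcs ord k j - (freeSp Z T (gRec Z T ord k j)).starProjection (Hvec arcs ord k j)

lemma nRec_succ (k : ℕ) (j : V → ZMod L) :
    nRec Z T ord (k + 1) j = nRec Z T ord k j + rInc Z T ord k j := by
  unfold nRec rInc xRec
  rw [Finset.sum_range_succ, gRec_succ]
  abel

/-- The energy identity. -/
lemma sum_norm_nRec_succ (hloop : ∀ e ∈ arcs, e.1 ≠ e.2) (hord : Function.Injective ord) (k : ℕ) :
    ∑ j : V → ZMod L, ‖nRec Z T ord (k + 1) j‖ ^ 2
      = ∑ j : V → ZMod L, ‖nRec Z T ord k j‖ ^ 2 + ∑ j : V → ZMod L, ‖rInc Z T ord k j‖ ^ 2 := by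
  classical
  -- the cross term vanishes
  let a : (V → ZMod L) → EuclideanSpace ℝ arcs := fun j =>
    nRec Z T ord k j - (freeSp Z T (gRec Z T ord k j)).starProjection (nRec Z T ord k j)
  have ha : ∀ j j', (∀ u, tpos ord u < k → j u = j' u) → a j = a j' := by
    intro j j' h
    simp only [a]
    rw [nRec_congr Z T k h, gRec_congr Z T k h]
  have hmd := Hvec_md hloop hord k a ha
  have hcross : ∀ j : V → ZMod L, inner ℝ (nRec Z T ord k j) (rInc Z T ord k j)
      = inner ℝ (a j) (Hvec arcs ord k j) := by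
    intro j
    simp only [a, rInc]
    rw [inner_sub_left, inner_sub_right]
    have : inner ℝ ((freeSp Z T (gRec Z T ord k j)).starProjection (nRec Z T ord k j)) (Hvec arcs ord k j)
        = inner ℝ (nRec Z T ord k j) ((freeSp Z T (gRec Z T ord k j)).starProjection (Hvec arcs ord k j)) :=
      Submodule.inner_starProjection_left_eq_right _ _ _
    rw [this]
  have h1 : ∀ j : V → ZMod L, ‖nRec Z T ord (k + 1) j‖ ^ 2
      = ‖nRec Z T ord k j‖ ^ 2 + 2 * inner ℝ (a j) (Hvec arcs ord k j) + ‖rInc Z T ord k j‖ ^ 2 := by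
    intro j
    rw [nRec_succ, ← hcross, @norm_add_sq_real]
  simp_rw [h1]
  rw [Finset.sum_add_distrib, Finset.sum_add_distrib, ← Finset.mul_sum, hmd]
  ring

/-- Unit vector: the increments are almost orthogonal to it. -/
lemma sum_inner_Hvec_sq_le {μ : ℕ}
    (hμ : ∀ k, (univ.filter (fun e : arcs => etime ord e.1 = k)).card ≤ μ) (j : V → ZMod L)
    (b : EuclideanSpace ℝ arcs) :
    ∑ k ∈ Finset.range (Fintype.card V), (inner ℝ b (Hvec arcs ord k j)) ^ 2 ≤ μ * ‖b‖ ^ 2 := by
  classical
  have h1 : ∀ k, (inner ℝ b (Hvec arcs ord k j)) ^ 2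
      ≤ μ * ∑ e : arcs, if etime ord e.1 = k then b e ^ 2 else 0 := by
    intro k
    have h2 : inner ℝ b (Hvec arcs ord k j)
        = ∑ e : arcs, (if etime ord e.1 = k then b e else 0) * Hvec arcs ord k j e := by
      rw [Trace.inner_eq_sum]
      refine Finset.sum_congr rfl fun e _ => ?_
      rw [Hvec_apply]
      split_ifs <;> simp
    rw [h2]
    refine (Finset.sum_mul_sq_le_sq_mul_sq _ _ _).trans ?_
    have h3 : ∑ e : arcs, (Hvec arcs ord k j e) ^ 2 ≤ μ := by
      rw [← Trace.norm_sq_eq_sum]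
      exact Hvec_norm_sq_le hμ k j
    have h4 : ∑ e : arcs, (if etime ord e.1 = k then b e else 0) ^ 2
        = ∑ e : arcs, if etime ord e.1 = k then b e ^ 2 else 0 := by
      refine Finset.sum_congr rfl fun e _ => ?_
      split_ifs <;> simp
    rw [h4, mul_comm]
    exact mul_le_mul_of_nonneg_right h3 (Finset.sum_nonneg fun e _ => by split_ifs <;> positivity)
  calc ∑ k ∈ Finset.range (Fintype.card V), (inner ℝ b (Hvec arcs ord k j)) ^ 2
      ≤ ∑ k ∈ Finset.range (Fintype.card V), μ * ∑ e : arcs, if etime ord e.1 = k then b e ^ 2 else 0 :=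
        Finset.sum_le_sum fun k _ => h1 k
    _ = μ * ∑ e : arcs, b e ^ 2 := by
        rw [← Finset.mul_sum, Finset.sum_comm]
        congr 1
        refine Finset.sum_congr rfl fun e _ => ?_
        rw [Finset.sum_ite_eq]
        simp [etime_lt_card]
    _ = μ * ‖b‖ ^ 2 := by rw [Trace.norm_sq_eq_sum]

/-- Bessel: `∑ₖ ‖P_U Hₖ‖² ≤ μ dim U`, pointwise. -/
lemma sum_proj_Hvec_sq_le {μ : ℕ}
    (hμ : ∀ k, (univ.filter (fun e : arcs => etime ord e.1 = k)).card ≤ μ) (j : V → ZMod L)
    (U : Submodule ℝ (EuclideanSpace ℝ arcs)) :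
    ∑ k ∈ Finset.range (Fintype.card V), ‖U.starProjection (Hvec arcs ord k j)‖ ^ 2
      ≤ μ * Module.finrank ℝ U := by
  simp_rw [Trace.norm_proj_sq]
  rw [Finset.sum_comm]
  calc ∑ i, ∑ k ∈ Finset.range (Fintype.card V),
        inner ℝ (((stdOrthonormalBasis ℝ U) i : EuclideanSpace ℝ arcs)) (Hvec arcs ord k j) ^ 2
      ≤ ∑ i : Fin (Module.finrank ℝ U), (μ : ℝ) := by
        refine Finset.sum_le_sum fun i _ => ?_
        refine (sum_inner_Hvec_sq_le hμ j _).trans ?_
        have h := (stdOrthonormalBasis ℝ U).orthonormal.1 i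
        simp only [Submodule.coe_norm] at h
        rw [h]; simp
    _ = μ * Module.finrank ℝ U := by simp [mul_comm]

/-- Monotonicity of the residual: a smaller free space gives a larger residual, and the
decomposition through `Z`. -/
lemma norm_rInc_le (k : ℕ) (hk : k ≤ Fintype.card V) (j : V → ZMod L) :
    ‖rInc Z T ord k j‖ ^ 2 ≤ ‖Zᗮ.starProjection (Hvec arcs ord k j)‖ ^ 2
      + ‖(WW Z (frozen T (gRec Z T ord (Fintype.card V) j))).starProjection (Hvec arcs ord k j)‖ ^ 2 := by
  set x := Hvec arcs ord k j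
  set O := frozen T (gRec Z T ord (Fintype.card V) j)
  have hsub : frozen T (gRec Z T ord k j) ⊆ O := frozen_mono Z T hk j
  -- the free space at time `k` contains `Z_O`
  have hle : ZB Z Oᶜ ≤ freeSp Z T (gRec Z T ord k j) := by
    refine ZB_mono Z ?_
    intro e he
    simp only [mem_compl] at he ⊢
    exact fun h => he (hsub h)
  have h1 : ‖rInc Z T ord k j‖ ^ 2
      = ‖x‖ ^ 2 - ‖(freeSp Z T (gRec Z T ord k j)).starProjection x‖ ^ 2 := by
    unfold rInc
    have := Submodule.norm_sq_eq_add_norm_sq_starProjection x (freeSp Z T (gRec Z T ord k j))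
    have h2 : ‖(freeSp Z T (gRec Z T ord k j))ᗮ.starProjection x‖
        = ‖x - (freeSp Z T (gRec Z T ord k j)).starProjection x‖ := by
      rw [Trace.starProjection_orthogonal_apply]
    rw [← h2]
    linarith
  have h3 : ‖(ZB Z Oᶜ).starProjection x‖ ^ 2
      ≤ ‖(freeSp Z T (gRec Z T ord k j)).starProjection x‖ ^ 2 := by
    have h4 : (ZB Z Oᶜ).starProjection x
        = (ZB Z Oᶜ).starProjection ((freeSp Z T (gRec Z T ord k j)).starProjection x) := by
      have := Submodule.starProjection_comp_starProjection_of_le hle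
      have h := congrArg (fun f => f x) this
      simpa using h.symm
    have h5 : ‖(ZB Z Oᶜ).starProjection x‖ ≤ ‖(freeSp Z T (gRec Z T ord k j)).starProjection x‖ := by
      rw [h4]
      exact Submodule.norm_starProjection_apply_le _ _
    have h6 := norm_nonneg ((ZB Z Oᶜ).starProjection x)
    nlinarith
  have h6 := norm_proj_WW_sq Z O x
  have h7 := Submodule.norm_sq_eq_add_norm_sq_starProjection x Z
  rw [h1, h6]
  linarith


/-- The energy bound: total residual energy telescopes. -/
lemma sum_norm_nRec (hloop : ∀ e ∈ arcs, e.1 ≠ e.2) (hord : Function.Injective ord) (k : ℕ) :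
    ∑ j : V → ZMod L, ‖nRec Z T ord k j‖ ^ 2
      = ∑ i ∈ Finset.range k, ∑ j : V → ZMod L, ‖rInc Z T ord i j‖ ^ 2 := by
  induction k with
  | zero =>
    have h0 : ∀ j : V → ZMod L, nRec Z T ord 0 j = 0 := by
      intro j
      unfold nRec xRec
      have : gRec Z T ord 0 j = 0 := rfl
      rw [this]
      simp
    simp [h0]
  | succ k ih =>
    rw [sum_norm_nRec_succ Z T hloop hord, ih, Finset.sum_range_succ]

/-- Frozen arcs cost `(T/2-1)²` each in the final residual. -/
lemma frozen_card_le (hT1 : 2 ≤ T) (j : V → ZMod L) :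
    ((frozen T (gRec Z T ord (Fintype.card V) j)).card : ℝ) * (T / 2 - 1) ^ 2
      ≤ ‖nRec Z T ord (Fintype.card V) j‖ ^ 2 := by
  classical
  set n := Fintype.card V
  set O := frozen T (gRec Z T ord n j) with hO
  rw [Trace.norm_sq_eq_sum]
  have h1 : ∀ e ∈ O, (T / 2 - 1) ^ 2 ≤ (nRec Z T ord n j) e ^ 2 := by
    intro e he
    have he' := (mem_frozen T).1 he
    have h2 : (nRec Z T ord n j) e = sigma j e.1 - gRec Z T ord n j e := by
      unfold nRec xRec
      rw [PiLp.sub_apply]
      rw [sum_Hvec_apply]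
    have h3 := sigma_abs_le j e.1
    have h4 : T / 2 - 1 ≤ |(nRec Z T ord n j) e| := by
      rw [h2, abs_sub_comm]
      have := abs_sub_abs_le_abs_sub (gRec Z T ord n j e) (sigma j e.1)
      linarith
    have h5 : 0 ≤ T / 2 - 1 := by linarith
    rw [← sq_abs ((nRec Z T ord n j) e)]
    exact pow_le_pow_left₀ h5 h4 2
  calc (O.card : ℝ) * (T / 2 - 1) ^ 2 = ∑ e ∈ O, (T / 2 - 1) ^ 2 := by simp
    _ ≤ ∑ e ∈ O, (nRec Z T ord n j) e ^ 2 := Finset.sum_le_sum h1
    _ ≤ ∑ e, (nRec Z T ord n j) e ^ 2 :=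
      Finset.sum_le_sum_of_subset_of_nonneg (Finset.subset_univ _) (fun _ _ _ => sq_nonneg _)

/-- The abstract bound on the residual energy. -/
theorem sum_norm_nRec_le {μ : ℕ} (hL : 0 < L)
    (hloop : ∀ e ∈ arcs, e.1 ≠ e.2) (hrev : ∀ e ∈ arcs, (e.2, e.1) ∉ arcs)
    (hord : Function.Injective ord)
    (hμ : ∀ k, (univ.filter (fun e : arcs => etime ord e.1 = k)).card ≤ μ)
    (hZ : Module.finrank ℝ Zᗮ ≤ Fintype.card V)
    (hT1 : 2 ≤ T) (hT2 : 2 * (μ : ℝ) ≤ (T / 2 - 1) ^ 2) :
    ∑ j : V → ZMod L, ‖nRec Z T ord (Fintype.card V) j‖ ^ 2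
      ≤ (4 / (L : ℝ)) * Fintype.card V * (L : ℝ) ^ Fintype.card V := by
  classical
  set n := Fintype.card V with hn
  set Q := ∑ j : V → ZMod L, ‖nRec Z T ord n j‖ ^ 2 with hQ
  have hL' : (0 : ℝ) < L := by exact_mod_cast hL
  have hP : (0 : ℝ) ≤ (2 / (L : ℝ)) * (L : ℝ) ^ n := by positivity
  -- energy identity
  have h1 : Q = ∑ i ∈ Finset.range n, ∑ j : V → ZMod L, ‖rInc Z T ord i j‖ ^ 2 :=
    sum_norm_nRec Z T hloop hord n
  -- pointwise decomposition
  have h2 : Q ≤ ∑ i ∈ Finset.range n, ∑ j : V → ZMod L,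
      (‖Zᗮ.starProjection (Hvec arcs ord i j)‖ ^ 2
        + ‖(WW Z (frozen T (gRec Z T ord n j))).starProjection (Hvec arcs ord i j)‖ ^ 2) := by
    rw [h1]
    refine Finset.sum_le_sum fun i hi => Finset.sum_le_sum fun j _ => ?_
    exact norm_rInc_le Z T i (Finset.mem_range.1 hi).le j
  -- first part
  have h3 : ∑ i ∈ Finset.range n, ∑ j : V → ZMod L, ‖Zᗮ.starProjection (Hvec arcs ord i j)‖ ^ 2
      ≤ (2 / (L : ℝ)) * (L : ℝ) ^ n * n := by
    refine (sum_Hvec_proj_le hloop hrev Zᗮ).trans ?_
    refine mul_le_mul_of_nonneg_left ?_ hP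
    exact_mod_cast hZ
  -- second part
  have h4 : ∑ i ∈ Finset.range n, ∑ j : V → ZMod L,
      ‖(WW Z (frozen T (gRec Z T ord n j))).starProjection (Hvec arcs ord i j)‖ ^ 2
      ≤ ∑ j : V → ZMod L, (μ : ℝ) * (frozen T (gRec Z T ord n j)).card := by
    rw [Finset.sum_comm]
    refine Finset.sum_le_sum fun j _ => ?_
    refine (sum_proj_Hvec_sq_le hμ j _).trans ?_
    refine mul_le_mul_of_nonneg_left ?_ (Nat.cast_nonneg _)
    exact_mod_cast finrank_WW_le Z _
  -- frozen arcs
  have h5 : ∑ j : V → ZMod L, (μ : ℝ) * (frozen T (gRec Z T ord n j)).card ≤ Q / 2 := by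
    rw [hQ, Finset.sum_div]
    refine Finset.sum_le_sum fun j _ => ?_
    have h6 := frozen_card_le Z T hT1 j (ord := ord)
    have h7 : (0:ℝ) ≤ (frozen T (gRec Z T ord n j)).card := Nat.cast_nonneg _
    have h8 : 2 * ((μ : ℝ) * (frozen T (gRec Z T ord n j)).card)
        ≤ (frozen T (gRec Z T ord n j)).card * (T / 2 - 1) ^ 2 := by
      calc 2 * ((μ : ℝ) * (frozen T (gRec Z T ord n j)).card)
          = (frozen T (gRec Z T ord n j)).card * (2 * μ) := by ring
        _ ≤ _ := mul_le_mul_of_nonneg_left hT2 h7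
    linarith
  rw [Finset.sum_congr rfl fun i _ => Finset.sum_add_distrib, Finset.sum_add_distrib] at h2
  have h9 : Q ≤ 2 * ((2 / (L : ℝ)) * (L : ℝ) ^ n * n) := by linarith
  calc Q ≤ 2 * ((2 / (L : ℝ)) * (L : ℝ) ^ n * n) := h9
    _ = (4 / (L : ℝ)) * n * (L : ℝ) ^ n := by ring

end freeze

/-- **The Freezing Circulation Lemma, graph instance.**  For a loopless, reversal-free arc set with
at most `μ` arcs per time, and `T ≥ 2 + 2√(2μ)`, there are circulations `g j`, bounded by `T` and
in the average close to the forward-sign vector `sigma j`. -/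
theorem freeze_graph (L : ℕ) [NeZero L] (E : Finset (V × V))
    (hloop : ∀ e ∈ E, e.1 ≠ e.2) (hrev : ∀ e ∈ E, (e.2, e.1) ∉ E)
    (ord : V → ℕ) (hord : Function.Injective ord) (μ : ℕ)
    (hμ : ∀ k, (E.filter (fun e => etime ord e = k)).card ≤ μ)
    (T : ℝ) (hT : 2 + 2 * Real.sqrt (2 * μ) ≤ T) :
    ∃ g : (V → ZMod L) → V × V → ℝ,
      (∀ j v, ∑ e ∈ E.filter (fun e => e.2 = v), g j e = ∑ e ∈ E.filter (fun e => e.1 = v), g j e) ∧
      (∀ j, ∀ e ∈ E, |g j e| ≤ T) ∧
      (∀ j e, e ∉ E → g j e = 0) ∧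
      ∑ j : V → ZMod L, ∑ e ∈ E, (sigma j e - g j e) ^ 2
        ≤ (4 / (L : ℝ)) * Fintype.card V * (L : ℝ) ^ Fintype.card V := by
  classical
  have hL : 0 < L := Nat.pos_of_ne_zero (NeZero.ne L)
  set n := Fintype.card V with hn
  set Z : Submodule ℝ (EuclideanSpace ℝ E) := LinearMap.ker (bdryMap E) with hZ
  have hs0 : 0 ≤ Real.sqrt (2 * μ) := Real.sqrt_nonneg _
  have hT1 : 2 ≤ T := by linarith
  have hss : Real.sqrt (2 * μ) ^ 2 = 2 * μ := Real.sq_sqrt (by positivity)
  have hT2 : 2 * (μ : ℝ) ≤ (T / 2 - 1) ^ 2 := by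
    have h1 : Real.sqrt (2 * μ) ≤ T / 2 - 1 := by linarith
    calc 2 * (μ : ℝ) = Real.sqrt (2 * μ) ^ 2 := hss.symm
      _ ≤ _ := pow_le_pow_left₀ hs0 h1 2
  have hT3 : Real.sqrt μ ≤ T / 2 := by
    have h1 : Real.sqrt μ ≤ Real.sqrt (2 * μ) := Real.sqrt_le_sqrt (by
      have : (0 : ℝ) ≤ μ := Nat.cast_nonneg _
      linarith)
    linarith
  have hμ' : ∀ k, (univ.filter (fun e : E => etime ord e.1 = k)).card ≤ μ := by
    intro k
    refine le_trans (le_of_eq ?_) (hμ k)
    rw [← Finset.card_map (Function.Embedding.subtype _)]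
    congr 1
    ext e
    simp [and_comm]
  have hfr : Module.finrank ℝ Zᗮ ≤ Fintype.card V := Trace.finrank_orthogonal_ker_le (bdryMap E)
  refine ⟨fun j e => if h : e ∈ E then gRec Z T ord n j ⟨e, h⟩ else 0, ?_, ?_, ?_, ?_⟩
  · intro j v
    have hmem := gRec_mem Z T (ord := ord) n j
    have hcirc := (mem_circ_iff E _).1 hmem v
    have hsum : ∀ p : V × V → Prop, ∀ [DecidablePred p],
        (∑ e ∈ E.filter p, (if h : e ∈ E then gRec Z T ord n j ⟨e, h⟩ else 0))
          = ∑ e : E, if p e.1 then gRec Z T ord n j e else 0 := by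
      intro p _
      rw [Finset.sum_filter, ← Finset.sum_coe_sort E]
      refine Finset.sum_congr rfl fun e _ => ?_
      simp
    rw [hsum, hsum]
    exact hcirc
  · intro j e he
    simp only [he, dite_true]
    exact gRec_abs_le Z T hμ' (by linarith) hT3 n j ⟨e, he⟩
  · intro j e he
    simp [he]
  · have hmain := sum_norm_nRec_le Z T (ord := ord) hL hloop hrev hord hμ' hfr hT1 hT2
    refine le_trans (le_of_eq ?_) hmain
    refine Finset.sum_congr rfl fun j _ => ?_
    rw [Trace.norm_sq_eq_sum, ← Finset.sum_coe_sort E]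
    refine Finset.sum_congr rfl fun e _ => ?_
    simp only [e.2, dite_true]
    congr 1
    unfold nRec xRec
    rw [PiLp.sub_apply, sum_Hvec_apply]

end Crest.Agent.Lib.EG.FreezeGraph
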