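/-
  Row 45 (S0064), scheme independent tool, no reference to any statement.

  INTEGRALITY OF CIRCULATIONS.  A finite digraph is given by `tail head : A → V`.
  A real circulation `f` (inflow = outflow at every vertex) can be rounded, arc by arc, to an
  integer circulation `g` with `⌊f a⌋ ≤ g a ≤ ⌈f a⌉`, without increasing a prescribed linear cost.
  The proof avoids cycle finding: the fractional arcs `F` touch at most `|F|` vertices
  (every touched vertex carries at least two fractional incidences), hence the boundary map on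
  `ℝ^F` has a nonzero kernel vector; pushing along it makes a new arc integral.

  Corollary `round_circulation_through`: the same, also rounding the through-flow at each vertex.
-/
import Mathlib

set_option autoImplicit false
set_option linter.unusedSectionVars false

open Finset

namespace Crest.Agent.Lib.EG.Round

variable {A V : Type*} [Fintype A] [Fintype V] [DecidableEq A] [DecidableEq V]

/-- Inflow minus outflow at `v`. -/
noncomputable def bdry (tail head : A → V) (f : A → ℝ) (v : V) : ℝ :=
  (∑ a, if head a = v then f a else 0) - (∑ a, if tail a = v then f a else 0)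

omit [DecidableEq A] in
lemma bdry_add (tail head : A → V) (f h : A → ℝ) (t : ℝ) (v : V) :
    bdry tail head (fun a => f a + t * h a) v = bdry tail head f v + t * bdry tail head h v := by
  classical
  unfold bdry
  have h1 : ∀ (p : A → Prop) [DecidablePred p],
      (∑ a, if p a then f a + t * h a else 0)
        = (∑ a, if p a then f a else 0) + t * ∑ a, if p a then h a else 0 := by
    intro p _
    rw [Finset.mul_sum, ← Finset.sum_add_distrib]
    refine Finset.sum_congr rfl fun a _ => ?_
    split_ifs <;> simp
  rw [h1 (fun a => head a = v), h1 (fun a => tail a = v)]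
  ring

omit [DecidableEq A] in
/-- The boundaries sum to zero. -/
lemma sum_bdry (tail head : A → V) (f : A → ℝ) : ∑ v, bdry tail head f v = 0 := by
  classical
  unfold bdry
  rw [Finset.sum_sub_distrib]
  have h1 : ∀ e : A → V, (∑ v, ∑ a, if e a = v then f a else 0) = ∑ a, f a := by
    intro e
    rw [Finset.sum_comm]
    refine Finset.sum_congr rfl fun a _ => ?_
    simp
  rw [h1 head, h1 tail, sub_self]

/-- The set of arcs with a non-integer value. -/
noncomputable def fracArcs (f : A → ℝ) : Finset A := by
  classical exact univ.filter (fun a => (⌊f a⌋ : ℝ) ≠ f a)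

omit [DecidableEq A] in
lemma mem_fracArcs {f : A → ℝ} {a : A} : a ∈ fracArcs f ↔ (⌊f a⌋ : ℝ) ≠ f a := by
  classical simp [fracArcs]

omit [DecidableEq A] in
/-- If the only fractional arc at `v`, counted with incidences, were a single one,
the boundary could not vanish. -/
lemma two_incidences (tail head : A → V) (f : A → ℝ)
    (hf : ∀ v, bdry tail head f v = 0) (v : V) :
    ((fracArcs f).filter (fun a => head a = v)).card
      + ((fracArcs f).filter (fun a => tail a = v)).card ≠ 1 := by
  classical
  intro hc
  -- fractional parts: the signed sum is an integer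
  set w : A → ℤ := fun a => (if head a = v then 1 else 0) - (if tail a = v then 1 else 0) with hw
  have hzero : ∑ a, (w a : ℝ) * f a = 0 := by
    have := hf v
    unfold bdry at this
    rw [← this, ← Finset.sum_sub_distrib]
    refine Finset.sum_congr rfl fun a _ => ?_
    simp only [hw]
    split_ifs <;> push_cast <;> ring
  have hfrac : ∑ a, (w a : ℝ) * (f a - ⌊f a⌋) = - ((∑ a, w a * ⌊f a⌋ : ℤ) : ℝ) := by
    push_cast
    rw [← Finset.sum_neg_distrib, ← sub_eq_zero, ← Finset.sum_sub_distrib]
    rw [← hzero]
    refine Finset.sum_congr rfl fun a _ => ?_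
    ring
  -- exactly one fractional arc with nonzero weight
  have hone : ∃ a0 ∈ fracArcs f, (w a0 = 1 ∨ w a0 = -1) ∧
      ∀ a ∈ fracArcs f, a ≠ a0 → w a = 0 := by
    have h01 : ((fracArcs f).filter (fun a => head a = v)).card = 1 ∧
          ((fracArcs f).filter (fun a => tail a = v)).card = 0 ∨
        ((fracArcs f).filter (fun a => head a = v)).card = 0 ∧
          ((fracArcs f).filter (fun a => tail a = v)).card = 1 := by omega
    rcases h01 with ⟨h1, h0⟩ | ⟨h0, h1⟩
    · obtain ⟨a0, ha0⟩ := Finset.card_eq_one.mp h1
      have hmem : a0 ∈ (fracArcs f).filter (fun a => head a = v) := by rw [ha0]; simp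
      rw [Finset.mem_filter] at hmem
      have htail : ∀ a ∈ fracArcs f, tail a ≠ v := by
        intro a ha hta
        have : a ∈ (fracArcs f).filter (fun a => tail a = v) := by simp [ha, hta]
        rw [Finset.card_eq_zero.mp h0] at this
        simp at this
      refine ⟨a0, hmem.1, Or.inl ?_, ?_⟩
      · simp [hw, hmem.2, htail a0 hmem.1]
      · intro a ha hne
        have hh : head a ≠ v := by
          intro hh
          have : a ∈ (fracArcs f).filter (fun a => head a = v) := by simp [ha, hh]
          rw [ha0] at this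
          exact hne (by simpa using this)
        simp [hw, hh, htail a ha]
    · obtain ⟨a0, ha0⟩ := Finset.card_eq_one.mp h1
      have hmem : a0 ∈ (fracArcs f).filter (fun a => tail a = v) := by rw [ha0]; simp
      rw [Finset.mem_filter] at hmem
      have hhead : ∀ a ∈ fracArcs f, head a ≠ v := by
        intro a ha hta
        have : a ∈ (fracArcs f).filter (fun a => head a = v) := by simp [ha, hta]
        rw [Finset.card_eq_zero.mp h0] at this
        simp at this
      refine ⟨a0, hmem.1, Or.inr ?_, ?_⟩
      · simp [hw, hmem.2, hhead a0 hmem.1]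
      · intro a ha hne
        have hh : tail a ≠ v := by
          intro hh
          have : a ∈ (fracArcs f).filter (fun a => tail a = v) := by simp [ha, hh]
          rw [ha0] at this
          exact hne (by simpa using this)
        simp [hw, hh, hhead a ha]
  obtain ⟨a0, ha0, hw0, hrest⟩ := hone
  have hsingle : ∑ a, (w a : ℝ) * (f a - ⌊f a⌋) = (w a0 : ℝ) * (f a0 - ⌊f a0⌋) := by
    rw [Finset.sum_eq_single a0]
    · intro a _ hne
      by_cases ha : a ∈ fracArcs f
      · simp [hrest a ha hne]
      · have : (⌊f a⌋ : ℝ) = f a := by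
          by_contra h; exact ha (mem_fracArcs.mpr h)
        simp [this]
    · simp
  have hlt1 : f a0 - ⌊f a0⌋ < 1 := by linarith [Int.lt_floor_add_one (f a0)]
  have hpos : 0 < f a0 - ⌊f a0⌋ := by
    have h1 := Int.floor_le (f a0)
    have h2 : (⌊f a0⌋ : ℝ) ≠ f a0 := mem_fracArcs.mp ha0
    exact sub_pos.mpr (lt_of_le_of_ne h1 h2)
  set N : ℤ := ∑ a, w a * ⌊f a⌋ with hN
  rw [hsingle] at hfrac
  rcases hw0 with h1 | h1
  · rw [h1] at hfrac
    have : f a0 - ⌊f a0⌋ = ((-N : ℤ) : ℝ) := by push_cast; push_cast at hfrac; linarith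
    rw [this] at hpos hlt1
    have h3 : (0 : ℤ) < -N := by exact_mod_cast hpos
    have h4 : -N < (1 : ℤ) := by exact_mod_cast hlt1
    omega
  · rw [h1] at hfrac
    have : f a0 - ⌊f a0⌋ = ((N : ℤ) : ℝ) := by push_cast at hfrac ⊢; linarith
    rw [this] at hpos hlt1
    have h3 : (0 : ℤ) < N := by exact_mod_cast hpos
    have h4 : N < (1 : ℤ) := by exact_mod_cast hlt1
    omega

/-- Touched vertices. -/
noncomputable def touched (tail head : A → V) (F : Finset A) : Finset V :=
  F.image tail ∪ F.image head

omit [DecidableEq A] in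
lemma mem_touched_iff (tail head : A → V) (F : Finset A) (v : V) :
    v ∈ touched tail head F ↔
      1 ≤ (F.filter (fun a => head a = v)).card + (F.filter (fun a => tail a = v)).card := by
  classical
  unfold touched
  rw [Finset.mem_union, Finset.mem_image, Finset.mem_image]
  constructor
  · rintro (⟨a, ha, h⟩ | ⟨a, ha, h⟩)
    · have : 0 < (F.filter (fun a => tail a = v)).card :=
        Finset.card_pos.mpr ⟨a, by simp [ha, h]⟩
      omega
    · have : 0 < (F.filter (fun a => head a = v)).card :=
        Finset.card_pos.mpr ⟨a, by simp [ha, h]⟩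
      omega
  · intro h
    by_cases h0 : (F.filter (fun a => head a = v)).card = 0
    · have : 0 < (F.filter (fun a => tail a = v)).card := by omega
      obtain ⟨a, ha⟩ := Finset.card_pos.mp this
      rw [Finset.mem_filter] at ha
      exact Or.inl ⟨a, ha.1, ha.2⟩
    · obtain ⟨a, ha⟩ := Finset.card_pos.mp (Nat.pos_of_ne_zero h0)
      rw [Finset.mem_filter] at ha
      exact Or.inr ⟨a, ha.1, ha.2⟩

omit [DecidableEq A] in
/-- `|T| ≤ |F|` for the fractional arcs of a circulation. -/
lemma card_touched_le (tail head : A → V) (f : A → ℝ)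
    (hf : ∀ v, bdry tail head f v = 0) :
    (touched tail head (fracArcs f)).card ≤ (fracArcs f).card := by
  classical
  have hdouble : ∀ e : A → V, ∑ v ∈ touched tail head (fracArcs f),
      ((fracArcs f).filter (fun a => e a = v)).card ≤ (fracArcs f).card := by
    intro e
    have : (fracArcs f).card = ∑ v, ((fracArcs f).filter (fun a => e a = v)).card :=
      Finset.card_eq_sum_card_fiberwise (fun a _ => Finset.mem_univ _)
    rw [this]
    exact Finset.sum_le_sum_of_subset_of_nonneg (Finset.subset_univ _) (fun _ _ _ => Nat.zero_le _)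
  have h2 : ∀ v ∈ touched tail head (fracArcs f), 2 ≤ ((fracArcs f).filter (fun a => head a = v)).card
      + ((fracArcs f).filter (fun a => tail a = v)).card := by
    intro v hv
    have h1 := (mem_touched_iff tail head (fracArcs f) v).mp hv
    have h3 := two_incidences tail head f hf v
    omega
  have h3 : 2 * (touched tail head (fracArcs f)).card ≤ 2 * (fracArcs f).card := by
    calc 2 * (touched tail head (fracArcs f)).card
        = ∑ v ∈ touched tail head (fracArcs f), 2 := by simp [mul_comm]
      _ ≤ ∑ v ∈ touched tail head (fracArcs f), (((fracArcs f).filter (fun a => head a = v)).card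
            + ((fracArcs f).filter (fun a => tail a = v)).card) := Finset.sum_le_sum h2
      _ = (∑ v ∈ touched tail head (fracArcs f), ((fracArcs f).filter (fun a => head a = v)).card)
            + ∑ v ∈ touched tail head (fracArcs f), ((fracArcs f).filter (fun a => tail a = v)).card :=
          Finset.sum_add_distrib
      _ ≤ (fracArcs f).card + (fracArcs f).card := add_le_add (hdouble head) (hdouble tail)
      _ = 2 * (fracArcs f).card := by ring
  omega

omit [DecidableEq A] in
/-- A nonzero vector supported on the fractional arcs with zero boundary. -/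
lemma exists_kernel (tail head : A → V) (f : A → ℝ)
    (hf : ∀ v, bdry tail head f v = 0) (hne : (fracArcs f).Nonempty) :
    ∃ h : A → ℝ, (∃ a, h a ≠ 0) ∧ (∀ a, a ∉ fracArcs f → h a = 0) ∧
      ∀ v, bdry tail head h v = 0 := by
  classical
  set F := fracArcs f with hF
  set T := touched tail head F with hT
  have hcard : T.card ≤ F.card := card_touched_le tail head f hf
  obtain ⟨a0, ha0⟩ := hne
  have hv0 : tail a0 ∈ T := by
    rw [hT]; unfold touched
    exact Finset.mem_union_left _ (Finset.mem_image_of_mem _ ha0)
  set T' := T.erase (tail a0) with hT'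
  have hcard' : T'.card < F.card := by
    rw [hT', Finset.card_erase_of_mem hv0]
    have : 0 < T.card := Finset.card_pos.mpr ⟨_, hv0⟩
    omega
  -- the linear map on ℝ^F
  let L : ({a // a ∈ F} → ℝ) →ₗ[ℝ] ({v // v ∈ T'} → ℝ) :=
    { toFun := fun h v =>
        ∑ a : {a // a ∈ F}, ((if head a.1 = v.1 then h a else 0) - (if tail a.1 = v.1 then h a else 0))
      map_add' := by
        intro x y
        funext v
        simp only [Pi.add_apply]
        rw [← Finset.sum_add_distrib]
        refine Finset.sum_congr rfl fun a _ => ?_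
        split_ifs <;> ring
      map_smul' := by
        intro r x
        funext v
        simp only [Pi.smul_apply, smul_eq_mul, RingHom.id_apply]
        rw [Finset.mul_sum]
        refine Finset.sum_congr rfl fun a _ => ?_
        split_ifs <;> ring }
  have hker : LinearMap.ker L ≠ ⊥ := by
    apply LinearMap.ker_ne_bot_of_finrank_lt
    simpa using hcard'
  obtain ⟨x, hxker, hx0⟩ := Submodule.exists_mem_ne_zero_of_ne_bot hker
  -- extend by zero
  let H : A → ℝ := fun a => if ha : a ∈ F then x ⟨a, ha⟩ else 0
  have Hzero : ∀ a, a ∉ F → H a = 0 := fun a ha => by simp [H, ha]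
  have Hval : ∀ a : {a // a ∈ F}, H a.1 = x a := fun a => by simp [H, a.2]
  have hbdry : ∀ v, bdry tail head H v =
      ∑ a : {a // a ∈ F}, ((if head a.1 = v then x a else 0) - (if tail a.1 = v then x a else 0)) := by
    intro v
    unfold bdry
    rw [← Finset.sum_sub_distrib]
    have h1 : ∑ a, ((if head a = v then H a else 0) - (if tail a = v then H a else 0))
        = ∑ a ∈ F, ((if head a = v then H a else 0) - (if tail a = v then H a else 0)) :=
      (Finset.sum_subset (Finset.subset_univ F) (fun a _ ha => by simp [Hzero a ha])).symm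
    rw [h1, ← Finset.sum_coe_sort F]
    refine Finset.sum_congr rfl fun a _ => ?_
    rw [Hval a]
  have hT'zero : ∀ v ∈ T', bdry tail head H v = 0 := by
    intro v hv
    rw [hbdry v]
    have := congrFun (LinearMap.mem_ker.mp hxker) ⟨v, hv⟩
    simpa [L] using this
  have hTout : ∀ v, v ∉ T → bdry tail head H v = 0 := by
    intro v hv
    rw [hbdry v]
    refine Finset.sum_eq_zero fun a _ => ?_
    have h1 : head a.1 ≠ v := by
      intro h
      apply hv
      rw [hT]; unfold touched
      exact Finset.mem_union_right _ (Finset.mem_image.mpr ⟨a.1, a.2, h⟩)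
    have h2 : tail a.1 ≠ v := by
      intro h
      apply hv
      rw [hT]; unfold touched
      exact Finset.mem_union_left _ (Finset.mem_image.mpr ⟨a.1, a.2, h⟩)
    simp [h1, h2]
  have hall : ∀ v, v ≠ tail a0 → bdry tail head H v = 0 := by
    intro v hne
    by_cases hv : v ∈ T
    · exact hT'zero v (Finset.mem_erase.mpr ⟨hne, hv⟩)
    · exact hTout v hv
  have hlast : bdry tail head H (tail a0) = 0 := by
    have hs := sum_bdry tail head H
    rw [Finset.sum_eq_single (tail a0) (fun v _ hv => hall v hv) (by simp)] at hs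
    exact hs
  refine ⟨H, ?_, Hzero, ?_⟩
  · by_contra hcon
    simp only [not_exists, not_not] at hcon
    apply hx0
    funext a
    have := hcon a.1
    rwa [Hval a] at this
  · intro v
    by_cases hv : v = tail a0
    · rw [hv]; exact hlast
    · exact hall v hv

/-- One pushing step: strictly fewer fractional arcs. -/
lemma exists_push (tail head : A → V) (f : A → ℝ) (c : A → ℝ)
    (hf : ∀ v, bdry tail head f v = 0) (hne : (fracArcs f).Nonempty) :
    ∃ f' : A → ℝ, (∀ v, bdry tail head f' v = 0) ∧
      (∀ a, (⌊f a⌋ : ℝ) ≤ f' a ∧ f' a ≤ (⌈f a⌉ : ℝ)) ∧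
      (∑ a, c a * f' a ≤ ∑ a, c a * f a) ∧
      (fracArcs f').card < (fracArcs f).card := by
  classical
  obtain ⟨h0, ⟨b, hb⟩, hsupp0, hker0⟩ := exists_kernel tail head f hf hne
  -- choose the sign
  obtain ⟨h, ⟨b, hb⟩, hsupp, hker, hcost⟩ : ∃ h : A → ℝ, (∃ a, h a ≠ 0) ∧
      (∀ a, a ∉ fracArcs f → h a = 0) ∧ (∀ v, bdry tail head h v = 0) ∧
      ∑ a, c a * h a ≤ 0 := by
    by_cases hs : ∑ a, c a * h0 a ≤ 0
    · exact ⟨h0, ⟨b, hb⟩, hsupp0, hker0, hs⟩
    · refine ⟨fun a => - h0 a, ⟨b, by simpa using hb⟩, fun a ha => by simp [hsupp0 a ha], ?_, ?_⟩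
      · intro v
        have := bdry_add tail head (fun _ => 0) h0 (-1) v
        have h00 : bdry tail head (fun _ : A => (0:ℝ)) v = 0 := by simp [bdry]
        simp only [h00, hker0 v] at this
        simpa using this
      · have : ∑ a, c a * (- h0 a) = - ∑ a, c a * h0 a := by
          rw [← Finset.sum_neg_distrib]
          exact Finset.sum_congr rfl fun a _ => by ring
        rw [this]; linarith
  -- step lengths
  let S : Finset A := univ.filter (fun a => h a ≠ 0)
  have hSne : S.Nonempty := ⟨b, by simp [S, hb]⟩
  let τ : A → ℝ := fun a =>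
    if 0 < h a then ((⌊f a⌋ : ℝ) + 1 - f a) / h a else (f a - (⌊f a⌋ : ℝ)) / (- h a)
  obtain ⟨m, hmS, hmin⟩ := Finset.exists_min_image S τ hSne
  have hfracS : ∀ a ∈ S, a ∈ fracArcs f := by
    intro a ha
    by_contra hcon
    have := hsupp a hcon
    simp [S, this] at ha
  have hposfr : ∀ a ∈ fracArcs f, 0 < f a - ⌊f a⌋ ∧ 0 < (⌊f a⌋ : ℝ) + 1 - f a := by
    intro a ha
    have h1 := Int.floor_le (f a)
    have h2 : (⌊f a⌋ : ℝ) ≠ f a := mem_fracArcs.mp ha
    have h3 := Int.lt_floor_add_one (f a)
    exact ⟨sub_pos.mpr (lt_of_le_of_ne h1 h2), by linarith⟩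
  have hτpos : ∀ a ∈ S, 0 < τ a := by
    intro a ha
    have hfr := hposfr a (hfracS a ha)
    have hne : h a ≠ 0 := by simpa [S] using ha
    simp only [τ]
    split_ifs with hp
    · exact div_pos hfr.2 hp
    · have : h a < 0 := lt_of_le_of_ne (not_lt.mp hp) hne
      exact div_pos hfr.1 (by linarith)
  set t := τ m with ht
  have htpos : 0 < t := hτpos m hmS
  refine ⟨fun a => f a + t * h a, ?_, ?_, ?_, ?_⟩
  · intro v
    rw [bdry_add, hf v, hker v]; ring
  · intro a
    by_cases ha : a ∈ fracArcs f
    · have hfr := hposfr a ha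
      have hceil : (⌈f a⌉ : ℝ) = ⌊f a⌋ + 1 := by
        have : ⌈f a⌉ = ⌊f a⌋ + 1 := by
          apply Int.ceil_eq_iff.mpr
          push_cast
          constructor <;> linarith
        rw [this]; push_cast; ring
      rw [hceil]
      by_cases h0a : h a = 0
      · simp only [h0a, mul_zero, add_zero]
        constructor <;> linarith
      · have haS : a ∈ S := by simp [S, h0a]
        have hle := hmin a haS
        show (⌊f a⌋ : ℝ) ≤ f a + t * h a ∧ f a + t * h a ≤ (⌊f a⌋ : ℝ) + 1
        simp only [τ] at hle
        split_ifs at hle with hp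
        · rw [le_div_iff₀ hp] at hle
          constructor
          · nlinarith [mul_pos htpos hp]
          · linarith
        · have hneg : h a < 0 := lt_of_le_of_ne (not_lt.mp hp) h0a
          rw [le_div_iff₀ (by linarith)] at hle
          constructor
          · nlinarith
          · nlinarith [mul_pos htpos (neg_pos.mpr hneg)]
    · have hi : (⌊f a⌋ : ℝ) = f a := by
        by_contra hcon; exact ha (mem_fracArcs.mpr hcon)
      have : h a = 0 := hsupp a ha
      simp only [this, mul_zero, add_zero]
      exact ⟨hi.le, Int.le_ceil _⟩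
  · have : ∑ a, c a * (f a + t * h a) = ∑ a, c a * f a + t * ∑ a, c a * h a := by
      rw [Finset.mul_sum, ← Finset.sum_add_distrib]
      exact Finset.sum_congr rfl fun a _ => by ring
    rw [this]
    nlinarith
  · -- the minimiser becomes integral, nothing new becomes fractional
    apply Finset.card_lt_card
    refine ⟨?_, ?_⟩
    · intro a ha
      rw [mem_fracArcs] at ha ⊢
      intro hi
      apply ha
      by_cases hh : a ∈ fracArcs f
      · exact absurd hi (mem_fracArcs.mp hh)
      · simp only [hsupp a hh, mul_zero, add_zero]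
        exact hi
    · intro hsub
      have hm : m ∈ fracArcs f := hfracS m hmS
      have := hsub hm
      rw [mem_fracArcs] at this
      apply this
      have hfr := hposfr m hm
      have hnem : h m ≠ 0 := by simpa [S] using hmS
      by_cases hp : 0 < h m
      · have hval : f m + t * h m = (⌊f m⌋ : ℝ) + 1 := by
          rw [ht]; simp only [τ, if_pos hp]
          field_simp
          ring
        rw [hval]
        have : ⌊(⌊f m⌋ : ℝ) + 1⌋ = ⌊f m⌋ + 1 := by
          have := Int.floor_intCast (R := ℝ) (⌊f m⌋ + 1)
          push_cast at this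
          exact this
        rw [this]; push_cast; ring
      · have hneg : h m < 0 := lt_of_le_of_ne (not_lt.mp hp) hnem
        have hval : f m + t * h m = (⌊f m⌋ : ℝ) := by
          rw [ht]; simp only [τ, if_neg hp]
          field_simp
          ring
        rw [hval, Int.floor_intCast]

/-- **Rounding a real circulation.** -/
theorem round_circulation (tail head : A → V) (f : A → ℝ)
    (hf : ∀ v, bdry tail head f v = 0) (c : A → ℝ) :
    ∃ g : A → ℤ, (∀ a, ⌊f a⌋ ≤ g a ∧ g a ≤ ⌈f a⌉) ∧
      (∀ v, bdry tail head (fun a => (g a : ℝ)) v = 0) ∧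
      ∑ a, c a * (g a : ℝ) ≤ ∑ a, c a * f a := by
  classical
  induction' hn : (fracArcs f).card using Nat.strong_induction_on with n ih generalizing f
  by_cases hne : (fracArcs f).Nonempty
  · obtain ⟨f', hf', hb, hc, hlt⟩ := exists_push tail head f c hf hne
    obtain ⟨g, hg1, hg2, hg3⟩ := ih _ (hn ▸ hlt) f' hf' rfl
    refine ⟨g, fun a => ⟨?_, ?_⟩, hg2, hg3.trans hc⟩
    · exact (Int.le_floor.mpr (hb a).1).trans (hg1 a).1
    · exact (hg1 a).2.trans (Int.ceil_le.mpr (hb a).2)
  · have hint : ∀ a, (⌊f a⌋ : ℝ) = f a := by
      intro a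
      by_contra hcon
      exact hne ⟨a, mem_fracArcs.mpr hcon⟩
    refine ⟨fun a => ⌊f a⌋, fun a => ⟨le_rfl, Int.floor_le_ceil _⟩, ?_, ?_⟩
    · intro v
      have : (fun a => ((⌊f a⌋ : ℤ) : ℝ)) = f := funext hint
      rw [this]; exact hf v
    · exact le_of_eq (Finset.sum_congr rfl fun a _ => by rw [hint a])

/-- Inflow at `v`. -/
noncomputable def inflow (head : A → V) (f : A → ℝ) (v : V) : ℝ :=
  ∑ a, if head a = v then f a else 0

/-- **Rounding with through-flows**: also the inflow at every vertex is rounded. -/
theorem round_circulation_through (tail head : A → V) (f : A → ℝ)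
    (hf : ∀ v, bdry tail head f v = 0) (c : A → ℝ) :
    ∃ g : A → ℤ, (∀ a, ⌊f a⌋ ≤ g a ∧ g a ≤ ⌈f a⌉) ∧
      (∀ v, bdry tail head (fun a => (g a : ℝ)) v = 0) ∧
      (∀ v, ((⌊inflow head f v⌋ : ℤ) : ℝ) ≤ inflow head (fun a => (g a : ℝ)) v ∧
        inflow head (fun a => (g a : ℝ)) v ≤ ((⌈inflow head f v⌉ : ℤ) : ℝ)) ∧
      ∑ a, c a * (g a : ℝ) ≤ ∑ a, c a * f a := by
  classical
  -- split graph
  let tail' : A ⊕ V → V × Bool := Sum.elim (fun a => (tail a, true)) (fun v => (v, false))
  let head' : A ⊕ V → V × Bool := Sum.elim (fun a => (head a, false)) (fun v => (v, true))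
  let f' : A ⊕ V → ℝ := Sum.elim f (inflow head f)
  let c' : A ⊕ V → ℝ := Sum.elim c (fun _ => 0)
  have key : ∀ (k : A ⊕ V → ℝ) (v : V),
      bdry tail' head' k (v, false)
        = (∑ a, if head a = v then k (Sum.inl a) else 0) - k (Sum.inr v) ∧
      bdry tail' head' k (v, true)
        = k (Sum.inr v) - (∑ a, if tail a = v then k (Sum.inl a) else 0) := by
    intro k v
    unfold bdry
    simp only [Fintype.sum_sum_type, tail', head', Sum.elim_inl, Sum.elim_inr, Prod.mk.injEq,
      Bool.false_eq_true, and_false, if_false, Finset.sum_const_zero, add_zero, zero_add,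
      Bool.true_eq_false, and_true]
    constructor
    · congr 1
      rw [Finset.sum_eq_single v] <;> simp +contextual [eq_comm]
    · congr 1
      rw [Finset.sum_eq_single v] <;> simp +contextual [eq_comm]
  have hf' : ∀ w, bdry tail' head' f' w = 0 := by
    rintro ⟨v, b⟩
    obtain ⟨h1, h2⟩ := key f' v
    cases b
    · rw [h1]
      simp only [f', Sum.elim_inl, Sum.elim_inr]
      unfold inflow
      ring
    · rw [h2]
      simp only [f', Sum.elim_inl, Sum.elim_inr]
      have := hf v
      unfold bdry at this
      unfold inflow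
      linarith
  obtain ⟨g', hg1, hg2, hg3⟩ := round_circulation tail' head' f' hf' c'
  refine ⟨fun a => g' (Sum.inl a), fun a => hg1 (Sum.inl a), ?_, ?_, ?_⟩
  · intro v
    have h1 := (key (fun w => (g' w : ℝ)) v).1
    have h2 := (key (fun w => (g' w : ℝ)) v).2
    rw [hg2 (v, false)] at h1
    rw [hg2 (v, true)] at h2
    unfold bdry
    linarith
  · intro v
    have h1 := (key (fun w => (g' w : ℝ)) v).1
    rw [hg2 (v, false)] at h1
    have heq : inflow head (fun a => (g' (Sum.inl a) : ℝ)) v = (g' (Sum.inr v) : ℝ) := by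
      unfold inflow; linarith
    rw [heq]
    have hb := hg1 (Sum.inr v)
    constructor
    · exact_mod_cast hb.1
    · exact_mod_cast hb.2
  · simpa [c', f'] using hg3

end Crest.Agent.Lib.EG.Round
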