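/-
  Row 45 (S0064), helper12.  From a real circulation `G` near `c * sigma` to an integer circulation `R`
  with few bad arcs and few uncovered vertices.  Deterministic (labels fixed).
-/
import Crest.Agent.Lib.EG.Round

set_option autoImplicit false
set_option linter.unusedSectionVars false

open Finset Crest.Agent.Lib.EG.Round

namespace Crest.Agent.Lib.EG.LevelRound

variable {V α : Type*} [Fintype V] [Fintype α] [DecidableEq V] [DecidableEq α]

/-- Cyclic forward sign of the arc `e`. -/
noncomputable def sgn (L : ℕ) (j : V → ℕ) (a b : α → V) (e : α) : ℝ :=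
  (if j (b e) = (j (a e) + 1) % L then 1 else 0) - (if j (a e) = (j (b e) + 1) % L then 1 else 0)

/-- `R` traverses `e` along a good direction: one step up in the natural numbers. -/
def goodDir (j : V → ℕ) (a b : α → V) (R : α → ℤ) (e : α) : Prop :=
  (R e = 1 ∧ j (b e) = j (a e) + 1) ∨ (R e = -1 ∧ j (a e) = j (b e) + 1)

/-- `R` has a good in-arc at `v`. -/
def hasGoodIn (j : V → ℕ) (a b : α → V) (R : α → ℤ) (v : V) : Prop :=
  ∃ e, (b e = v ∧ R e = 1 ∧ j (b e) = j (a e) + 1) ∨ (a e = v ∧ R e = -1 ∧ j (a e) = j (b e) + 1)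

/-- `e` is a chain arc into `v` without wrap. -/
def chainIn (j : V → ℕ) (a b : α → V) (v : V) (e : α) : Prop :=
  (b e = v ∧ j (b e) = j (a e) + 1) ∨ (a e = v ∧ j (a e) = j (b e) + 1)

/-- wrap arcs -/
def isWrap (L : ℕ) (j : V → ℕ) (a b : α → V) (e : α) : Prop :=
  (j (a e) + 1 = L ∧ j (b e) = 0) ∨ (j (b e) + 1 = L ∧ j (a e) = 0)

/-- The split digraph. -/
def tail' (a b : α → V) : (α × Bool) ⊕ (V × Bool) → V × Bool
  | Sum.inl (e, true) => (a e, false)
  | Sum.inl (e, false) => (b e, false)
  | Sum.inr (v, _) => (v, true)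

open Classical in
noncomputable def head' (j : V → ℕ) (a b : α → V) : (α × Bool) ⊕ (V × Bool) → V × Bool
  | Sum.inl (e, true) => (b e, decide (j (b e) = j (a e) + 1))
  | Sum.inl (e, false) => (a e, decide (j (a e) = j (b e) + 1))
  | Sum.inr (v, _) => (v, false)

/-- good inflow of a function on directed arcs -/
noncomputable def phi (j : V → ℕ) (a b : α → V) (k : α × Bool → ℝ) (v : V) : ℝ :=
  ∑ e, ((if b e = v ∧ j (b e) = j (a e) + 1 then k (e, true) else 0)
    + (if a e = v ∧ j (a e) = j (b e) + 1 then k (e, false) else 0))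

lemma bdry_true (j : V → ℕ) (a b : α → V) (k : (α × Bool) ⊕ (V × Bool) → ℝ) (v : V) :
    bdry (tail' a b) (head' j a b) k (v, true)
      = phi j a b (fun d => k (Sum.inl d)) v - k (Sum.inr (v, true)) - k (Sum.inr (v, false)) := by
  classical
  unfold bdry phi
  simp only [Fintype.sum_sum_type, Fintype.sum_prod_type, Fintype.sum_bool, tail', head',
    Prod.mk.injEq, decide_eq_true_eq, and_true, and_false, Bool.false_eq_true, if_false,
    Finset.sum_const_zero, add_zero, zero_add, sum_add_distrib, Sum.elim_inl, Sum.elim_inr]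
  have h1 : ∀ d, (∑ x : V, if x = v then k (Sum.inr (x, d)) else 0) = k (Sum.inr (v, d)) := by
    intro d; simp
  rw [h1, h1]
  ring

lemma bdry_false (j : V → ℕ) (a b : α → V) (k : (α × Bool) ⊕ (V × Bool) → ℝ) (v : V) :
    bdry (tail' a b) (head' j a b) k (v, false)
      = (∑ e, ((if b e = v ∧ ¬ j (b e) = j (a e) + 1 then k (Sum.inl (e, true)) else 0)
        + (if a e = v ∧ ¬ j (a e) = j (b e) + 1 then k (Sum.inl (e, false)) else 0)))
        + k (Sum.inr (v, true)) + k (Sum.inr (v, false))
        - ∑ e, ((if a e = v then k (Sum.inl (e, true)) else 0)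
          + (if b e = v then k (Sum.inl (e, false)) else 0)) := by
  classical
  unfold bdry
  simp only [Fintype.sum_sum_type, Fintype.sum_prod_type, Fintype.sum_bool, tail', head',
    Prod.mk.injEq, decide_eq_false_iff_not, and_true, and_false, Bool.true_eq_false, if_false,
    Finset.sum_const_zero, add_zero, zero_add, sum_add_distrib, Sum.elim_inl, Sum.elim_inr]
  have h1 : ∀ d, (∑ x : V, if x = v then k (Sum.inr (x, d)) else 0) = k (Sum.inr (v, d)) := by
    intro d; simp
  rw [h1, h1]
  ring

lemma bdry_total (j : V → ℕ) (a b : α → V) (k : (α × Bool) ⊕ (V × Bool) → ℝ) (v : V) :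
    bdry (tail' a b) (head' j a b) k (v, true) + bdry (tail' a b) (head' j a b) k (v, false)
      = bdry a b (fun e => k (Sum.inl (e, true)) - k (Sum.inl (e, false))) v := by
  classical
  rw [bdry_true, bdry_false]
  unfold bdry phi
  have h : ∀ e : α,
      ((if b e = v ∧ j (b e) = j (a e) + 1 then k (Sum.inl (e, true)) else 0)
        + (if a e = v ∧ j (a e) = j (b e) + 1 then k (Sum.inl (e, false)) else 0))
      + ((if b e = v ∧ ¬ j (b e) = j (a e) + 1 then k (Sum.inl (e, true)) else 0)
        + (if a e = v ∧ ¬ j (a e) = j (b e) + 1 then k (Sum.inl (e, false)) else 0))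
      - ((if a e = v then k (Sum.inl (e, true)) else 0)
          + (if b e = v then k (Sum.inl (e, false)) else 0))
      = (if b e = v then k (Sum.inl (e, true)) - k (Sum.inl (e, false)) else 0)
        - (if a e = v then k (Sum.inl (e, true)) - k (Sum.inl (e, false)) else 0) := by
    intro e
    rcases Classical.propComplete (b e = v) with h1 | h1 <;>
    rcases Classical.propComplete (a e = v) with h2 | h2 <;>
    rcases Classical.propComplete (j (b e) = j (a e) + 1) with h3 | h3 <;>
    rcases Classical.propComplete (j (a e) = j (b e) + 1) with h4 | h4 <;>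
      simp only [h1, h2, h3, h4, true_and, false_and, and_true, and_false, not_true_eq_false,
        not_false_eq_true, if_true, if_false] <;> ring
  have h5 := Finset.sum_congr (rfl : (Finset.univ : Finset α) = Finset.univ) (fun e _ => h e)
  rw [Finset.sum_sub_distrib, Finset.sum_add_distrib, Finset.sum_sub_distrib] at h5
  linarith


/-- Positive part of `G` on directed arcs. -/
noncomputable def dirFlow (G : α → ℝ) : α × Bool → ℝ
  | (e, true) => max (G e) 0
  | (e, false) => max (-(G e)) 0

/-- Fractional flow on the split digraph. -/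
noncomputable def fFlow (j : V → ℕ) (a b : α → V) (G : α → ℝ) : (α × Bool) ⊕ (V × Bool) → ℝ
  | Sum.inl d => dirFlow G d
  | Sum.inr (v, true) => min (phi j a b (dirFlow G) v) 1
  | Sum.inr (v, false) => phi j a b (dirFlow G) v - min (phi j a b (dirFlow G) v) 1

open Classical in
/-- Cost on the split digraph. -/
noncomputable def cCost (j : V → ℕ) (a b : α → V) (U : Finset V) : (α × Bool) ⊕ (V × Bool) → ℝ
  | Sum.inl (e, true) => if j (b e) = j (a e) + 1 then 0 else 2
  | Sum.inl (e, false) => if j (a e) = j (b e) + 1 then 0 else 2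
  | Sum.inr (v, true) => if v ∈ U then -1 else 0
  | Sum.inr (_, false) => 0

lemma dirFlow_sub (G : α → ℝ) (e : α) : dirFlow G (e, true) - dirFlow G (e, false) = G e := by
  simp only [dirFlow]
  rcases le_total (G e) 0 with h | h
  · rw [max_eq_right h, max_eq_left (by linarith)]; ring
  · rw [max_eq_left h, max_eq_right (by linarith)]; ring

lemma fFlow_bdry (j : V → ℕ) (a b : α → V) (G : α → ℝ) (hG : ∀ v, bdry a b G v = 0) (x : V × Bool) :
    bdry (tail' a b) (head' j a b) (fFlow j a b G) x = 0 := by
  obtain ⟨v, d⟩ := x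
  have htrue : bdry (tail' a b) (head' j a b) (fFlow j a b G) (v, true) = 0 := by
    rw [bdry_true]
    show phi j a b (dirFlow G) v - min (phi j a b (dirFlow G) v) 1
      - (phi j a b (dirFlow G) v - min (phi j a b (dirFlow G) v) 1) = 0
    ring
  cases d with
  | true => exact htrue
  | false =>
    have h := bdry_total j a b (fFlow j a b G) v
    rw [htrue, zero_add] at h
    rw [h]
    have : (fun e => fFlow j a b G (Sum.inl (e, true)) - fFlow j a b G (Sum.inl (e, false))) = G := by
      funext e
      exact dirFlow_sub G e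
    rw [this]
    exact hG v

open Classical in
/-- **Rounding**, deterministic form. -/
theorem exists_round (L : ℕ) (hL : 3 ≤ L) (j : V → ℕ) (hj : ∀ v, j v < L) (a b : α → V) (U : Finset V)
    (c : ℝ) (hc : 0 ≤ c) (G : α → ℝ) (hG1 : ∀ e, |G e| ≤ 1) (hG : ∀ v, bdry a b G v = 0) :
    ∃ R : α → ℤ, (∀ e, R e = -1 ∨ R e = 0 ∨ R e = 1) ∧
      (∀ v, bdry a b (fun e => (R e : ℝ)) v = 0) ∧
      (∀ e, G e = 0 → R e = 0) ∧
      2 * ((univ.filter (fun e => R e ≠ 0 ∧ ¬ goodDir j a b R e)).card : ℝ)
        + ((U.filter (fun v => ¬ hasGoodIn j a b R v)).card : ℝ)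
      ≤ 4 * ∑ e, |G e - c * sgn L j a b e|
        + 2 * c * ((univ.filter (fun e => isWrap L j a b e)).card : ℝ)
        + ∑ v ∈ U, max (1 - c * ((univ.filter (fun e => chainIn j a b v e)).card : ℝ)) 0 := by
  classical
  obtain ⟨g, hg1, hg2, hg3⟩ := round_circulation (tail' a b) (head' j a b) (fFlow j a b G)
    (fFlow_bdry j a b G hG) (cCost j a b U)
  -- values on directed arcs
  have hT : ∀ e, g (Sum.inl (e, true)) = 0 ∨ g (Sum.inl (e, true)) = 1 := by
    intro e
    have h1 := hg1 (Sum.inl (e, true))
    have h2 : fFlow j a b G (Sum.inl (e, true)) = max (G e) 0 := rfl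
    rw [h2] at h1
    have h3 : 0 ≤ max (G e) 0 := le_max_right _ _
    have h4 : max (G e) 0 ≤ 1 := max_le (le_trans (le_abs_self _) (hG1 e)) zero_le_one
    have h5 : (0 : ℤ) ≤ ⌊max (G e) 0⌋ := Int.floor_nonneg.2 h3
    have h6 : ⌈max (G e) 0⌉ ≤ 1 := by
      rw [Int.ceil_le]; simpa using h4
    omega
  have hF : ∀ e, g (Sum.inl (e, false)) = 0 ∨ g (Sum.inl (e, false)) = 1 := by
    intro e
    have h1 := hg1 (Sum.inl (e, false))
    have h2 : fFlow j a b G (Sum.inl (e, false)) = max (-(G e)) 0 := rfl
    rw [h2] at h1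
    have h3 : 0 ≤ max (-(G e)) 0 := le_max_right _ _
    have h4 : max (-(G e)) 0 ≤ 1 := max_le (le_trans (neg_le_abs _) (hG1 e)) zero_le_one
    have h5 : (0 : ℤ) ≤ ⌊max (-(G e)) 0⌋ := Int.floor_nonneg.2 h3
    have h6 : ⌈max (-(G e)) 0⌉ ≤ 1 := by
      rw [Int.ceil_le]; simpa using h4
    omega
  have hT0 : ∀ e, G e ≤ 0 → g (Sum.inl (e, true)) = 0 := by
    intro e he
    have h1 := hg1 (Sum.inl (e, true))
    have h2 : fFlow j a b G (Sum.inl (e, true)) = 0 := by
      show max (G e) 0 = 0
      exact max_eq_right he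
    rw [h2] at h1
    simp at h1
    omega
  have hF0 : ∀ e, 0 ≤ G e → g (Sum.inl (e, false)) = 0 := by
    intro e he
    have h1 := hg1 (Sum.inl (e, false))
    have h2 : fFlow j a b G (Sum.inl (e, false)) = 0 := by
      show max (-(G e)) 0 = 0
      exact max_eq_right (by linarith)
    rw [h2] at h1
    simp at h1
    omega
  have hnotboth : ∀ e, g (Sum.inl (e, true)) = 0 ∨ g (Sum.inl (e, false)) = 0 := by
    intro e
    rcases le_total (G e) 0 with h | h
    · exact Or.inl (hT0 e h)
    · exact Or.inr (hF0 e h)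
  have hfirst : ∀ v, g (Sum.inr (v, true)) = 0 ∨ g (Sum.inr (v, true)) = 1 := by
    intro v
    have h1 := hg1 (Sum.inr (v, true))
    have h2 : fFlow j a b G (Sum.inr (v, true)) = min (phi j a b (dirFlow G) v) 1 := rfl
    rw [h2] at h1
    have h3 : 0 ≤ phi j a b (dirFlow G) v := by
      unfold phi
      refine Finset.sum_nonneg fun e _ => ?_
      refine add_nonneg ?_ ?_
      · split_ifs
        · exact le_max_right _ _
        · exact le_rfl
      · split_ifs
        · exact le_max_right _ _
        · exact le_rfl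
    have h4 : 0 ≤ min (phi j a b (dirFlow G) v) 1 := le_min h3 zero_le_one
    have h5 : (0 : ℤ) ≤ ⌊min (phi j a b (dirFlow G) v) 1⌋ := Int.floor_nonneg.2 h4
    have h6 : ⌈min (phi j a b (dirFlow G) v) 1⌉ ≤ 1 := by
      rw [Int.ceil_le]
      simpa using min_le_right _ _
    omega
  have hextra : ∀ v, 0 ≤ g (Sum.inr (v, false)) := by
    intro v
    have h1 := hg1 (Sum.inr (v, false))
    have h2 : fFlow j a b G (Sum.inr (v, false))
        = phi j a b (dirFlow G) v - min (phi j a b (dirFlow G) v) 1 := rfl
    rw [h2] at h1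
    have h3 : 0 ≤ phi j a b (dirFlow G) v - min (phi j a b (dirFlow G) v) 1 := by
      have := min_le_left (phi j a b (dirFlow G) v) 1
      linarith
    have h5 : (0 : ℤ) ≤ ⌊phi j a b (dirFlow G) v - min (phi j a b (dirFlow G) v) 1⌋ :=
      Int.floor_nonneg.2 h3
    omega
  let R : α → ℤ := fun e => g (Sum.inl (e, true)) - g (Sum.inl (e, false))
  have hRT : ∀ e, R e = 1 → g (Sum.inl (e, true)) = 1 := by
    intro e he
    have h1 := hT e
    have h2 := hF e
    simp only [R] at he
    omega
  have hRF : ∀ e, R e = -1 → g (Sum.inl (e, false)) = 1 := by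
    intro e he
    have h1 := hT e
    have h2 := hF e
    simp only [R] at he
    omega
  have hRval : ∀ e, R e = -1 ∨ R e = 0 ∨ R e = 1 := by
    intro e
    have h1 := hT e
    have h2 := hF e
    simp only [R]
    omega
  have hRT' : ∀ e, g (Sum.inl (e, true)) = 1 → R e = 1 := by
    intro e he
    have h2 := hnotboth e
    simp only [R]
    omega
  have hRF' : ∀ e, g (Sum.inl (e, false)) = 1 → R e = -1 := by
    intro e he
    have h2 := hnotboth e
    simp only [R]
    omega
  have hbalR : ∀ v, bdry a b (fun e => (R e : ℝ)) v = 0 := by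
    intro v
    have h := bdry_total j a b (fun x => (g x : ℝ)) v
    rw [hg2 (v, true), hg2 (v, false), add_zero] at h
    have h' : (fun e => (R e : ℝ))
        = fun e => (g (Sum.inl (e, true)) : ℝ) - (g (Sum.inl (e, false)) : ℝ) := by
      funext e
      simp [R]
    rw [h', ← h]
  -- the first-unit arc can only be used with a good in-arc
  have hgoodin : ∀ v, g (Sum.inr (v, true)) = 1 → hasGoodIn j a b R v := by
    intro v hv
    have h1 : bdry (tail' a b) (head' j a b) (fun x => (g x : ℝ)) (v, true) = 0 := hg2 (v, true)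
    rw [bdry_true] at h1
    by_contra hcon
    have hzero : phi j a b (fun d => (g (Sum.inl d) : ℝ)) v = 0 := by
      unfold phi
      refine Finset.sum_eq_zero fun e _ => ?_
      have h2 : ¬ (b e = v ∧ j (b e) = j (a e) + 1 ∧ R e = 1) := fun h =>
        hcon ⟨e, Or.inl ⟨h.1, h.2.2, h.2.1⟩⟩
      have h3 : ¬ (a e = v ∧ j (a e) = j (b e) + 1 ∧ R e = -1) := fun h =>
        hcon ⟨e, Or.inr ⟨h.1, h.2.2, h.2.1⟩⟩
      have h4 : (if b e = v ∧ j (b e) = j (a e) + 1 then (g (Sum.inl (e, true)) : ℝ) else 0) = 0 := by
        split_ifs with hh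
        · have : g (Sum.inl (e, true)) = 0 := by
            rcases hT e with h5 | h5
            · exact h5
            · exact absurd ⟨hh.1, hh.2, hRT' e h5⟩ h2
          simp [this]
        · rfl
      have h5 : (if a e = v ∧ j (a e) = j (b e) + 1 then (g (Sum.inl (e, false)) : ℝ) else 0) = 0 := by
        split_ifs with hh
        · have : g (Sum.inl (e, false)) = 0 := by
            rcases hF e with h5 | h5
            · exact h5
            · exact absurd ⟨hh.1, hh.2, hRF' e h5⟩ h3
          simp [this]
        · rfl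
      rw [h4, h5, add_zero]
    rw [hzero] at h1
    have h6 : (0 : ℝ) ≤ (g (Sum.inr (v, false)) : ℝ) := by exact_mod_cast hextra v
    have h7 : (g (Sum.inr (v, true)) : ℝ) = 1 := by exact_mod_cast hv
    linarith
  refine ⟨R, hRval, hbalR, ?_, ?_⟩
  · intro e he
    simp only [R]
    rw [hT0 e he.le, hF0 e he.ge]
    rfl
  -- cost comparison
  have hsum : ∀ k : (α × Bool) ⊕ (V × Bool) → ℝ,
      ∑ x, cCost j a b U x * k x
        = ∑ e, ((if j (b e) = j (a e) + 1 then 0 else 2) * k (Sum.inl (e, true))
            + (if j (a e) = j (b e) + 1 then 0 else 2) * k (Sum.inl (e, false)))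
          - ∑ v ∈ U, k (Sum.inr (v, true)) := by
    intro k
    simp only [Fintype.sum_sum_type, Fintype.sum_prod_type, Fintype.sum_bool, cCost]
    have : ∑ x : V, ((if x ∈ U then (-1 : ℝ) else 0) * k (Sum.inr (x, true)) + 0 * k (Sum.inr (x, false)))
        = - ∑ v ∈ U, k (Sum.inr (v, true)) := by
      rw [← Finset.sum_filter_add_sum_filter_not univ (· ∈ U), Finset.filter_mem_eq_inter,
        Finset.univ_inter]
      have h0 : ∑ x ∈ univ.filter (fun x => x ∉ U),
          ((if x ∈ U then (-1 : ℝ) else 0) * k (Sum.inr (x, true)) + 0 * k (Sum.inr (x, false))) = 0 := by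
        refine Finset.sum_eq_zero fun x hx => ?_
        have : x ∉ U := (Finset.mem_filter.1 hx).2
        simp [this]
      rw [h0, add_zero, ← Finset.sum_neg_distrib]
      refine Finset.sum_congr rfl fun x hx => ?_
      simp [hx]
    rw [this]
    ring
  have hLHS : 2 * ((univ.filter (fun e => R e ≠ 0 ∧ ¬ goodDir j a b R e)).card : ℝ)
      + ((U.filter (fun v => ¬ hasGoodIn j a b R v)).card : ℝ)
      ≤ (U.card : ℝ) + ∑ x, cCost j a b U x * (g x : ℝ) := by
    rw [hsum]
    have h1 : 2 * ((univ.filter (fun e => R e ≠ 0 ∧ ¬ goodDir j a b R e)).card : ℝ)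
        ≤ ∑ e, ((if j (b e) = j (a e) + 1 then 0 else 2) * (g (Sum.inl (e, true)) : ℝ)
            + (if j (a e) = j (b e) + 1 then 0 else 2) * (g (Sum.inl (e, false)) : ℝ)) := by
      rw [Finset.card_filter]
      push_cast
      rw [Finset.mul_sum]
      refine Finset.sum_le_sum fun e _ => ?_
      have ht : (0 : ℝ) ≤ (g (Sum.inl (e, true)) : ℝ) := by
        rcases hT e with h | h <;> simp [h]
      have hf : (0 : ℝ) ≤ (g (Sum.inl (e, false)) : ℝ) := by
        rcases hF e with h | h <;> simp [h]
      have hc1 : (0 : ℝ) ≤ (if j (b e) = j (a e) + 1 then (0 : ℝ) else 2) := by split_ifs <;> norm_num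
      have hc2 : (0 : ℝ) ≤ (if j (a e) = j (b e) + 1 then (0 : ℝ) else 2) := by split_ifs <;> norm_num
      have hc1' := mul_nonneg hc1 ht
      have hc2' := mul_nonneg hc2 hf
      by_cases hcond : R e ≠ 0 ∧ ¬ goodDir j a b R e
      · rw [if_pos hcond]
        rcases hRval e with h | h | h
        · have h1 := hRF e h
          have hnb : ¬ j (a e) = j (b e) + 1 := fun h' => hcond.2 (Or.inr ⟨h, h'⟩)
          rw [if_neg hnb, h1]
          push_cast
          linarith
        · exact absurd h hcond.1
        · have h1 := hRT e h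
          have hnb : ¬ j (b e) = j (a e) + 1 := fun h' => hcond.2 (Or.inl ⟨h, h'⟩)
          rw [if_neg hnb, h1]
          push_cast
          linarith
      · rw [if_neg hcond]
        linarith
    have h2 : ((U.filter (fun v => ¬ hasGoodIn j a b R v)).card : ℝ)
        ≤ (U.card : ℝ) - ∑ v ∈ U, (g (Sum.inr (v, true)) : ℝ) := by
      rw [Finset.card_filter]
      have : (U.card : ℝ) = ∑ v ∈ U, (1 : ℝ) := by simp
      rw [this]
      push_cast
      rw [← Finset.sum_sub_distrib]
      refine Finset.sum_le_sum fun v _ => ?_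
      rcases hfirst v with h | h
      · rw [h]
        split_ifs <;> norm_num
      · have := hgoodin v h
        rw [h]
        simp [this]
    linarith
  -- per arc and per vertex bounds on the fractional cost
  set δ : α → ℝ := fun e => |G e - c * sgn L j a b e| with hδ
  have hδ0 : ∀ e, 0 ≤ δ e := fun e => abs_nonneg _
  have hsA : ∀ e, j (b e) = j (a e) + 1 → sgn L j a b e = 1 := by
    intro e h
    have h1 := hj (b e)
    unfold sgn
    have h2 : j (a e) + 1 < L := by omega
    rw [if_pos (by rw [Nat.mod_eq_of_lt h2]; exact h)]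
    have h3 : ¬ j (a e) = (j (b e) + 1) % L := by
      rw [h]
      by_cases h4 : j (a e) + 1 + 1 < L
      · rw [Nat.mod_eq_of_lt h4]; omega
      · have h5 : j (a e) + 1 + 1 = L := by omega
        rw [h5, Nat.mod_self]; omega
    rw [if_neg h3]; ring
  have hsB : ∀ e, j (a e) = j (b e) + 1 → sgn L j a b e = -1 := by
    intro e h
    have h1 := hj (a e)
    unfold sgn
    have h2 : j (b e) + 1 < L := by omega
    have hh : j (a e) = (j (b e) + 1) % L := by rw [Nat.mod_eq_of_lt h2]; exact h
    rw [if_pos hh]
    have h3 : ¬ j (b e) = (j (a e) + 1) % L := by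
      rw [h]
      by_cases h4 : j (b e) + 1 + 1 < L
      · rw [Nat.mod_eq_of_lt h4]; omega
      · have h5 : j (b e) + 1 + 1 = L := by omega
        rw [h5, Nat.mod_self]; omega
    rw [if_neg h3]; ring
  have hsC : ∀ e, ¬ j (b e) = j (a e) + 1 → ¬ j (a e) = j (b e) + 1 → ¬ isWrap L j a b e →
      sgn L j a b e = 0 := by
    intro e h1 h2 h3
    unfold sgn
    have h4 : ¬ j (b e) = (j (a e) + 1) % L := by
      intro h
      by_cases h5 : j (a e) + 1 < L
      · rw [Nat.mod_eq_of_lt h5] at h; exact h1 h
      · have h6 := hj (a e)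
        have h7 : j (a e) + 1 = L := by omega
        rw [h7, Nat.mod_self] at h
        exact h3 (Or.inl ⟨h7, h⟩)
    have h5 : ¬ j (a e) = (j (b e) + 1) % L := by
      intro h
      by_cases h5 : j (b e) + 1 < L
      · rw [Nat.mod_eq_of_lt h5] at h; exact h2 h
      · have h6 := hj (b e)
        have h7 : j (b e) + 1 = L := by omega
        rw [h7, Nat.mod_self] at h
        exact h3 (Or.inr ⟨h7, h⟩)
    rw [if_neg h4, if_neg h5]; ring
  have hsabs : ∀ e, |sgn L j a b e| ≤ 1 := by
    intro e
    unfold sgn
    split_ifs <;> norm_num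
  have harc : ∀ e, (if j (b e) = j (a e) + 1 then (0 : ℝ) else 2) * max (G e) 0
      + (if j (a e) = j (b e) + 1 then (0 : ℝ) else 2) * max (-(G e)) 0
      ≤ 2 * δ e + 2 * c * (if isWrap L j a b e then 1 else 0) := by
    intro e
    have hwrap0 : (0 : ℝ) ≤ 2 * c * (if isWrap L j a b e then 1 else 0) := by
      split_ifs <;> positivity
    by_cases hA : j (b e) = j (a e) + 1
    · have hB : ¬ j (a e) = j (b e) + 1 := by omega
      rw [if_pos hA, if_neg hB]
      have h1 : δ e = |G e - c| := by simp [hδ, hsA e hA]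
      have h2 : max (-(G e)) 0 ≤ δ e := by
        refine max_le ?_ (hδ0 e)
        rw [h1]
        have := neg_abs_le (G e - c)
        linarith
      linarith
    · by_cases hB : j (a e) = j (b e) + 1
      · rw [if_neg hA, if_pos hB]
        have h1 : δ e = |G e + c| := by simp [hδ, hsB e hB]
        have h2 : max (G e) 0 ≤ δ e := by
          refine max_le ?_ (hδ0 e)
          rw [h1]
          have := le_abs_self (G e + c)
          linarith
        linarith
      · rw [if_neg hA, if_neg hB]
        have habs : max (G e) 0 + max (-(G e)) 0 = |G e| := by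
          rcases le_total (G e) 0 with h | h
          · rw [max_eq_right h, max_eq_left (by linarith), abs_of_nonpos h]; ring
          · rw [max_eq_left h, max_eq_right (by linarith), abs_of_nonneg h]; ring
        by_cases hW : isWrap L j a b e
        · rw [if_pos hW]
          have h1 : |G e| ≤ δ e + c := by
            have h2 : |G e| ≤ |G e - c * sgn L j a b e| + |c * sgn L j a b e| := by
              have := abs_add_le (G e - c * sgn L j a b e) (c * sgn L j a b e)
              simpa using this
            have h3 : |c * sgn L j a b e| ≤ c := by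
              rw [abs_mul, abs_of_nonneg hc]
              have := hsabs e
              nlinarith
            simp only [hδ]
            linarith
          nlinarith
        · rw [if_neg hW]
          have h1 : δ e = |G e| := by simp [hδ, hsC e hA hB hW]
          rw [h1, ← habs]
          ring_nf
          nlinarith
  have hphi : ∀ v, c * ((univ.filter (fun e => chainIn j a b v e)).card : ℝ)
      - ∑ e, (if b e = v ∨ a e = v then δ e else 0) ≤ phi j a b (dirFlow G) v := by
    intro v
    have h0 : c * ((univ.filter (fun e => chainIn j a b v e)).card : ℝ)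
        = ∑ e, (if chainIn j a b v e then c else 0) := by
      rw [Finset.card_filter]
      push_cast
      rw [Finset.mul_sum]
      refine Finset.sum_congr rfl fun e _ => ?_
      split_ifs <;> simp
    rw [h0, ← Finset.sum_sub_distrib]
    unfold phi
    refine Finset.sum_le_sum fun e _ => ?_
    have hG1' : (0 : ℝ) ≤ dirFlow G (e, true) := le_max_right _ _
    have hG2' : (0 : ℝ) ≤ dirFlow G (e, false) := le_max_right _ _
    have hnn1 : (0 : ℝ) ≤ (if b e = v ∧ j (b e) = j (a e) + 1 then dirFlow G (e, true) else 0) := by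
      split_ifs <;> first | exact hG1' | exact le_rfl
    have hnn2 : (0 : ℝ) ≤ (if a e = v ∧ j (a e) = j (b e) + 1 then dirFlow G (e, false) else 0) := by
      split_ifs <;> first | exact hG2' | exact le_rfl
    have hnn3 : (0 : ℝ) ≤ (if b e = v ∨ a e = v then δ e else 0) := by
      split_ifs <;> first | exact hδ0 e | exact le_rfl
    by_cases h1 : b e = v ∧ j (b e) = j (a e) + 1
    · have hch : chainIn j a b v e := Or.inl h1
      rw [if_pos hch, if_pos h1, if_pos (Or.inl h1.1)]
      have h2 : δ e = |G e - c| := by simp [hδ, hsA e h1.2]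
      have h3 : G e ≤ dirFlow G (e, true) := le_max_left _ _
      have h4 := neg_abs_le (G e - c)
      linarith
    · by_cases h2 : a e = v ∧ j (a e) = j (b e) + 1
      · have hch : chainIn j a b v e := Or.inr h2
        rw [if_pos hch, if_pos h2, if_pos (Or.inr h2.1)]
        have h3 : δ e = |G e + c| := by simp [hδ, hsB e h2.2]
        have h4 : -(G e) ≤ dirFlow G (e, false) := le_max_left _ _
        have h5 := le_abs_self (G e + c)
        linarith
      · have h3 : ¬ chainIn j a b v e := by
          rintro (h | h)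
          · exact h1 h
          · exact h2 h
        rw [if_neg h3]
        linarith
  have hvert : ∀ v, 1 - min (phi j a b (dirFlow G) v) 1
      ≤ max (1 - c * ((univ.filter (fun e => chainIn j a b v e)).card : ℝ)) 0
        + ∑ e, (if b e = v ∨ a e = v then δ e else 0) := by
    intro v
    have h1 := hphi v
    have h2 : (0 : ℝ) ≤ ∑ e, (if b e = v ∨ a e = v then δ e else 0) :=
      Finset.sum_nonneg fun e _ => by split_ifs <;> first | exact hδ0 e | exact le_rfl
    have h3 := le_max_left (1 - c * ((univ.filter (fun e => chainIn j a b v e)).card : ℝ)) (0 : ℝ)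
    have h4 := le_max_right (1 - c * ((univ.filter (fun e => chainIn j a b v e)).card : ℝ)) (0 : ℝ)
    rcases le_total (phi j a b (dirFlow G) v) 1 with h | h
    · rw [min_eq_left h]; linarith
    · rw [min_eq_right h]; linarith
  have hdouble : ∑ v ∈ U, ∑ e, (if b e = v ∨ a e = v then δ e else 0) ≤ 2 * ∑ e, δ e := by
    calc ∑ v ∈ U, ∑ e, (if b e = v ∨ a e = v then δ e else 0)
        ≤ ∑ v, ∑ e, (if b e = v ∨ a e = v then δ e else 0) := by
          refine Finset.sum_le_sum_of_subset_of_nonneg (Finset.subset_univ _) fun v _ _ => ?_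
          exact Finset.sum_nonneg fun e _ => by split_ifs <;> first | exact hδ0 e | exact le_rfl
      _ = ∑ e, ∑ v, (if b e = v ∨ a e = v then δ e else 0) := Finset.sum_comm
      _ ≤ ∑ e, 2 * δ e := by
          refine Finset.sum_le_sum fun e _ => ?_
          have h1 : ∑ v, (if b e = v ∨ a e = v then δ e else 0)
              ≤ ∑ v, ((if b e = v then δ e else 0) + (if a e = v then δ e else 0)) := by
            refine Finset.sum_le_sum fun v _ => ?_
            have := hδ0 e
            by_cases h2 : b e = v <;> by_cases h3 : a e = v <;> simp [h2, h3] <;> linarith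
          rw [Finset.sum_add_distrib] at h1
          simp only [Finset.sum_ite_eq, Finset.mem_univ, if_true] at h1
          linarith
      _ = 2 * ∑ e, δ e := by rw [Finset.mul_sum]
  -- conclusion
  have hfrac : (U.card : ℝ) + ∑ x, cCost j a b U x * fFlow j a b G x
      ≤ 4 * ∑ e, δ e + 2 * c * ((univ.filter (fun e => isWrap L j a b e)).card : ℝ)
        + ∑ v ∈ U, max (1 - c * ((univ.filter (fun e => chainIn j a b v e)).card : ℝ)) 0 := by
    rw [hsum]
    have h1 : ∑ e, ((if j (b e) = j (a e) + 1 then 0 else 2) * fFlow j a b G (Sum.inl (e, true))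
        + (if j (a e) = j (b e) + 1 then 0 else 2) * fFlow j a b G (Sum.inl (e, false)))
        ≤ 2 * ∑ e, δ e + 2 * c * ((univ.filter (fun e => isWrap L j a b e)).card : ℝ) := by
      have h2 : 2 * ∑ e, δ e + 2 * c * ((univ.filter (fun e => isWrap L j a b e)).card : ℝ)
          = ∑ e, (2 * δ e + 2 * c * (if isWrap L j a b e then 1 else 0)) := by
        rw [Finset.card_filter, Finset.sum_add_distrib, Finset.mul_sum]
        push_cast
        rw [Finset.mul_sum]
      rw [h2]
      refine Finset.sum_le_sum fun e _ => ?_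
      exact harc e
    have h3 : (U.card : ℝ) - ∑ v ∈ U, fFlow j a b G (Sum.inr (v, true))
        ≤ ∑ v ∈ U, (max (1 - c * ((univ.filter (fun e => chainIn j a b v e)).card : ℝ)) 0
          + ∑ e, (if b e = v ∨ a e = v then δ e else 0)) := by
      have : (U.card : ℝ) = ∑ v ∈ U, (1 : ℝ) := by simp
      rw [this, ← Finset.sum_sub_distrib]
      refine Finset.sum_le_sum fun v _ => ?_
      exact hvert v
    rw [Finset.sum_add_distrib] at h3
    linarith
  linarith [hLHS, hg3, hfrac]

end Crest.Agent.Lib.EG.LevelRound
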