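/-
  Row 45 (S0064), scheme independent tools (M6 of #2368), no reference to any statement.

  Finite uniform sample spaces, plain `Finset` sums, no measure theory.

  * `exists_le_of_sum_le`: some sample is at most the average.
  * `sum_update`: the resampling identity `∑_j ∑_x F (update j a x) = |Λ| ∑_j F j`.
  * `sum_mul_of_indep`: `∑_j f (j a) G j = (∑_x f x) / |Λ| * ∑_j G j` when `G` ignores coordinate `a`.
  * `card_filter_lt_half_mean`, Chebyshev for pairwise uncorrelated `[0,1]` variables:
      `#{ω : ∑ Y_w ω < μ/2} ≤ (4/μ) |Ω|`.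
  * `star_uncorrelated`, `card_star_lt_half_mean`: the indicators `y_u (j v) (j u)`, `u ≠ v`, with constant
    conditional means are pairwise uncorrelated; the same Chebyshev bound.
  * bit patterns: `card_pattern`: `#{x : Fin N → Bool | ∀ i ∈ T, x i = g i} * 2^|T| = 2^N`, and
    `card_pos_pattern`: for `a ≠ b`, `#{pos : V → Fin N → Bool | ∀ i ∈ T, pos a i = g (pos b) i} * 2^|T| = |Ω|`.
  * Fubini: `sum_arrow_prod`, `sum_cells_rests`: a sum over positions is a sum over the `rest` of the bits
    of a sum over labels `j : V → ZMod (2^r)`; `bitEquiv`, `bitEquiv_snd`, `bitEquiv_fst_eq_iff`.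
-/
import Mathlib

set_option autoImplicit false
set_option linter.unusedSectionVars false

open Finset

namespace Crest.Agent.Lib.EG.Sample

/-- Some sample is at most the average. -/
theorem exists_le_of_sum_le {Ω : Type*} [Fintype Ω] [Nonempty Ω] (f : Ω → ℝ) (C : ℝ)
    (h : ∑ ω, f ω ≤ C * Fintype.card Ω) : ∃ ω, f ω ≤ C := by
  by_contra hne
  push_neg at hne
  have h1 : ∑ ω : Ω, C < ∑ ω, f ω :=
    Finset.sum_lt_sum_of_nonempty Finset.univ_nonempty fun ω _ => hne ω
  rw [Finset.sum_const, Finset.card_univ, nsmul_eq_mul] at h1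
  linarith

section Product

variable {V : Type*} [Fintype V] [DecidableEq V] {Λ : Type*} [Fintype Λ] [DecidableEq Λ]

/-- The resampling identity. -/
theorem sum_update {R : Type*} [AddCommMonoid R] (a : V) (F : (V → Λ) → R) :
    ∑ j : V → Λ, ∑ x : Λ, F (Function.update j a x)
      = Fintype.card Λ • ∑ j : V → Λ, F j := by
  classical
  -- the map (j, x) ↦ (update j a x, j a) is a bijection of (V → Λ) × Λ
  let e : (V → Λ) × Λ ≃ (V → Λ) × Λ :=
    { toFun := fun p => (Function.update p.1 a p.2, p.1 a)
      invFun := fun p => (Function.update p.1 a p.2, p.1 a)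
      left_inv := by
        rintro ⟨j, x⟩
        simp
      right_inv := by
        rintro ⟨j, x⟩
        simp }
  calc ∑ j : V → Λ, ∑ x : Λ, F (Function.update j a x)
      = ∑ p : (V → Λ) × Λ, F (Function.update p.1 a p.2) := by
        rw [Fintype.sum_prod_type]
    _ = ∑ p : (V → Λ) × Λ, F p.1 := by
        rw [← e.sum_comp (fun p => F p.1)]
        rfl
    _ = Fintype.card Λ • ∑ j : V → Λ, F j := by
        rw [Fintype.sum_prod_type]
        simp only [Finset.sum_const, Finset.card_univ, Finset.smul_sum]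

/-- A function of the coordinate `a` and a function which ignores `a` are independent. -/
theorem sum_mul_of_indep [Nonempty Λ] (a : V) (f : Λ → ℝ) (G : (V → Λ) → ℝ)
    (hG : ∀ j x, G (Function.update j a x) = G j) :
    ∑ j : V → Λ, f (j a) * G j
      = (∑ x, f x) / Fintype.card Λ * ∑ j : V → Λ, G j := by
  have hc : (Fintype.card Λ : ℝ) ≠ 0 := by
    exact_mod_cast Fintype.card_ne_zero
  have h := sum_update a (fun j : V → Λ => f (j a) * G j)
  simp only [Function.update_self, hG] at h
  have h2 : ∀ j : V → Λ, ∑ x, f x * G j = (∑ x, f x) * G j := fun j => by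
    rw [Finset.sum_mul]
  simp_rw [h2] at h
  rw [← Finset.mul_sum, nsmul_eq_mul] at h
  field_simp
  linarith

/-- Special case: the mean of a coordinate. -/
theorem sum_coord [Nonempty Λ] (a : V) (f : Λ → ℝ) :
    ∑ j : V → Λ, f (j a)
      = (∑ x, f x) / Fintype.card Λ * Fintype.card (V → Λ) := by
  have h := sum_mul_of_indep a f (fun _ => (1 : ℝ)) (fun _ _ => rfl)
  simpa using h

end Product

section Chebyshev

variable {Ω W : Type*} [Fintype Ω] [Fintype W] [DecidableEq W]

/-- CHEBYSHEV. `Y w` pairwise uncorrelated with values in `[0,1]` and means `θ w`. -/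
theorem card_filter_lt_half_mean (Y : W → Ω → ℝ) (θ : W → ℝ)
    (h01 : ∀ w ω, 0 ≤ Y w ω ∧ Y w ω ≤ 1)
    (hmean : ∀ w, ∑ ω, Y w ω = θ w * Fintype.card Ω)
    (hun : ∀ w u, w ≠ u → ∑ ω, Y w ω * Y u ω = θ w * θ u * Fintype.card Ω)
    (μ : ℝ) (hμ : μ = ∑ w, θ w) (hμ0 : 0 < μ) :
    ((Finset.univ.filter fun ω => ∑ w, Y w ω < μ / 2).card : ℝ)
      ≤ 4 / μ * Fintype.card Ω := by
  classical
  set X : Ω → ℝ := fun ω => ∑ w, Y w ω with hX
  have hθ0 : ∀ w, 0 ≤ θ w ∨ Fintype.card Ω = 0 := by
    intro w
    by_cases hc : Fintype.card Ω = 0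
    · exact Or.inr hc
    · left
      have h1 : 0 ≤ θ w * Fintype.card Ω := by
        rw [← hmean w]
        exact Finset.sum_nonneg fun ω _ => (h01 w ω).1
      have h2 : (0 : ℝ) < Fintype.card Ω := by
        exact_mod_cast Nat.pos_of_ne_zero hc
      exact nonneg_of_mul_nonneg_left h1 h2
  -- second moment
  have hsq : ∀ ω, X ω ^ 2 = ∑ w, Y w ω ^ 2 + ∑ w, ∑ u ∈ Finset.univ.erase w, Y w ω * Y u ω := by
    intro ω
    rw [hX, sq, Finset.sum_mul_sum, ← Finset.sum_add_distrib]
    refine Finset.sum_congr rfl fun w _ => ?_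
    rw [← Finset.add_sum_erase Finset.univ _ (Finset.mem_univ w)]
    ring
  have hsum1 : ∑ ω, X ω = μ * Fintype.card Ω := by
    simp only [hX]
    rw [Finset.sum_comm]
    simp_rw [hmean]
    rw [← Finset.sum_mul, hμ]
  have hdiag : ∑ ω, ∑ w, Y w ω ^ 2 ≤ μ * Fintype.card Ω := by
    rw [← hsum1]
    refine Finset.sum_le_sum fun ω _ => Finset.sum_le_sum fun w _ => ?_
    have := h01 w ω
    nlinarith [this.1, this.2]
  have hoff : ∑ ω, ∑ w, ∑ u ∈ Finset.univ.erase w, Y w ω * Y u ω
      = (μ ^ 2 - ∑ w, θ w ^ 2) * Fintype.card Ω := by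
    rw [Finset.sum_comm]
    have h1 : ∀ w, ∑ ω, ∑ u ∈ Finset.univ.erase w, Y w ω * Y u ω
        = θ w * (μ - θ w) * Fintype.card Ω := by
      intro w
      rw [Finset.sum_comm]
      have h2 : ∀ u ∈ Finset.univ.erase w, ∑ ω, Y w ω * Y u ω
          = θ w * θ u * Fintype.card Ω := by
        intro u hu
        exact hun w u (Finset.ne_of_mem_erase hu).symm
      rw [Finset.sum_congr rfl h2, ← Finset.sum_mul, ← Finset.mul_sum]
      congr 2
      rw [hμ, ← Finset.add_sum_erase Finset.univ θ (Finset.mem_univ w)]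
      ring
    simp_rw [h1]
    rw [← Finset.sum_mul]
    congr 1
    have h3 : ∀ w, θ w * (μ - θ w) = μ * θ w - θ w ^ 2 := fun w => by ring
    simp_rw [h3]
    rw [Finset.sum_sub_distrib, ← Finset.mul_sum, ← hμ]
    ring
  have hvar : ∑ ω, (X ω - μ) ^ 2 ≤ μ * Fintype.card Ω := by
    have h1 : ∀ ω, (X ω - μ) ^ 2 = X ω ^ 2 - 2 * μ * X ω + μ ^ 2 := fun ω => by ring
    simp_rw [h1]
    rw [Finset.sum_add_distrib, Finset.sum_sub_distrib, ← Finset.mul_sum, hsum1]
    simp_rw [hsq]
    rw [Finset.sum_add_distrib, hoff]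
    simp only [Finset.sum_const, Finset.card_univ, nsmul_eq_mul]
    have h4 : 0 ≤ (∑ w, θ w ^ 2) * (Fintype.card Ω : ℝ) := by
      have : (0:ℝ) ≤ Fintype.card Ω := by positivity
      exact mul_nonneg (Finset.sum_nonneg fun w _ => by positivity) this
    nlinarith
  have hcount : ((Finset.univ.filter fun ω => X ω < μ / 2).card : ℝ) * (μ / 2) ^ 2
      ≤ ∑ ω, (X ω - μ) ^ 2 := by
    calc ((Finset.univ.filter fun ω => X ω < μ / 2).card : ℝ) * (μ / 2) ^ 2
        = ∑ ω ∈ Finset.univ.filter (fun ω => X ω < μ / 2), (μ / 2) ^ 2 := by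
          rw [Finset.sum_const, nsmul_eq_mul]
      _ ≤ ∑ ω ∈ Finset.univ.filter (fun ω => X ω < μ / 2), (X ω - μ) ^ 2 := by
          refine Finset.sum_le_sum fun ω hω => ?_
          have h5 : X ω < μ / 2 := (Finset.mem_filter.1 hω).2
          have h6 : 0 ≤ X ω := Finset.sum_nonneg fun w _ => (h01 w ω).1
          nlinarith
      _ ≤ ∑ ω, (X ω - μ) ^ 2 :=
          Finset.sum_le_sum_of_subset_of_nonneg (Finset.filter_subset _ _)
            fun _ _ _ => by positivity
  have h7 := hcount.trans hvar
  have hμ2 : 0 < (μ / 2) ^ 2 := by positivity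
  rw [div_mul_eq_mul_div, le_div_iff₀ hμ0]
  have h8 : ((Finset.univ.filter fun ω => X ω < μ / 2).card : ℝ) * μ ^ 2
      ≤ 4 * (μ * Fintype.card Ω) := by nlinarith
  nlinarith

end Chebyshev

section Star

variable {V : Type*} [Fintype V] [DecidableEq V] {Λ : Type*} [Fintype Λ] [DecidableEq Λ]
  [Nonempty Λ]

/-- For `u ≠ v`, if `y u x` has the same mean `θ u` for every value `x` of the centre, then
`y u (j v) (j u)` has mean `θ u`. -/
theorem star_mean (v u : V) (huv : u ≠ v) (y : Λ → Λ → ℝ) (θ : ℝ)
    (hy : ∀ x, ∑ x', y x x' = θ * Fintype.card Λ) :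
    ∑ j : V → Λ, y (j v) (j u) = θ * Fintype.card (V → Λ) := by
  have hc : (Fintype.card Λ : ℝ) ≠ 0 := by exact_mod_cast Fintype.card_ne_zero
  have h := sum_update u (fun j : V → Λ => y (j v) (j u))
  simp only [Function.update_self, Function.update_of_ne huv.symm] at h
  simp_rw [hy] at h
  simp only [Finset.sum_const, nsmul_eq_mul, Finset.card_univ] at h
  have h3 : (Fintype.card Λ : ℝ) * ∑ j : V → Λ, y (j v) (j u)
      = Fintype.card Λ * (θ * Fintype.card (V → Λ)) := by
    rw [← h]; ring
  exact mul_left_cancel₀ hc h3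

/-- The leaves of a star are pairwise uncorrelated when the conditional means are constant. -/
theorem star_uncorrelated (v u u' : V) (hu : u ≠ v) (hu' : u' ≠ v) (huu : u ≠ u')
    (y y' : Λ → Λ → ℝ) (θ θ' : ℝ)
    (hy : ∀ x, ∑ x', y x x' = θ * Fintype.card Λ)
    (hy' : ∀ x, ∑ x', y' x x' = θ' * Fintype.card Λ) :
    ∑ j : V → Λ, y (j v) (j u) * y' (j v) (j u')
      = θ * θ' * Fintype.card (V → Λ) := by
  have hc : (Fintype.card Λ : ℝ) ≠ 0 := by exact_mod_cast Fintype.card_ne_zero
  have h := sum_update u (fun j : V → Λ => y (j v) (j u) * y' (j v) (j u'))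
  simp only [Function.update_self, Function.update_of_ne hu.symm,
    Function.update_of_ne huu.symm] at h
  have h2 : ∀ j : V → Λ, ∑ x, y (j v) x * y' (j v) (j u')
      = θ * Fintype.card Λ * y' (j v) (j u') := by
    intro j
    rw [← Finset.sum_mul, hy]
  simp_rw [h2] at h
  rw [← Finset.mul_sum, star_mean v u' hu' y' θ' hy', nsmul_eq_mul] at h
  have h3 : (Fintype.card Λ : ℝ) * ∑ j : V → Λ, y (j v) (j u) * y' (j v) (j u')
      = Fintype.card Λ * (θ * θ' * Fintype.card (V → Λ)) := by
    rw [← h]; ring
  exact mul_left_cancel₀ hc h3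

/-- CHEBYSHEV ON A STAR. `W` a finite set of leaves, `θ` the conditional means, values in `[0,1]`.
The number of labellings for which the sum over the leaves is below half of its mean is at most
`(4/μ) |Λ^V|`. -/
theorem card_star_lt_half_mean (v : V) (W : Finset V) (hW : v ∉ W) (y : V → Λ → Λ → ℝ) (θ : V → ℝ)
    (h01 : ∀ u x x', 0 ≤ y u x x' ∧ y u x x' ≤ 1)
    (hy : ∀ u ∈ W, ∀ x, ∑ x', y u x x' = θ u * Fintype.card Λ)
    (μ : ℝ) (hμ : μ = ∑ u ∈ W, θ u) (hμ0 : 0 < μ) :
    ((Finset.univ.filter fun j : V → Λ => ∑ u ∈ W, y u (j v) (j u) < μ / 2).card : ℝ)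
      ≤ 4 / μ * Fintype.card (V → Λ) := by
  classical
  have h := card_filter_lt_half_mean (Ω := V → Λ) (W := W)
    (fun u j => y u.1 (j v) (j u.1)) (fun u => θ u.1)
    (fun u j => h01 _ _ _)
    (fun u => star_mean v u.1 (fun h => hW (h ▸ u.2)) _ _ (hy u.1 u.2))
    (fun u u' huu => star_uncorrelated v u.1 u'.1 (fun h => hW (h ▸ u.2))
      (fun h => hW (h ▸ u'.2)) (fun h => huu (Subtype.ext h)) _ _ _ _ (hy u.1 u.2) (hy u'.1 u'.2))
    μ (by rw [hμ, ← Finset.sum_coe_sort]) hμ0
  have h1 : ∀ j : V → Λ, ∑ u : W, y u.1 (j v) (j u.1) = ∑ u ∈ W, y u (j v) (j u) := by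
    intro j
    rw [← Finset.sum_coe_sort W]
  simp_rw [h1] at h
  exact h

end Star

section Bits

/-- The number of bit strings with a prescribed pattern on `T`. -/
theorem card_pattern {N : ℕ} (T : Finset (Fin N)) (g : Fin N → Bool) :
    (Finset.univ.filter fun x : Fin N → Bool => ∀ i ∈ T, x i = g i).card * 2 ^ T.card = 2 ^ N := by
  classical
  -- the strings with the pattern correspond to functions on the complement
  have h1 : (Finset.univ.filter fun x : Fin N → Bool => ∀ i ∈ T, x i = g i)
      = Fintype.piFinset (fun i => if i ∈ T then {g i} else Finset.univ) := by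
    ext x
    simp only [Finset.mem_filter, Finset.mem_univ, true_and, Fintype.mem_piFinset]
    constructor
    · intro h i
      by_cases hi : i ∈ T
      · simp [hi, h i hi]
      · simp [hi]
    · intro h i hi
      have := h i
      simpa [hi] using this
  rw [h1, Fintype.card_piFinset]
  have h2 : ∀ i : Fin N, (if i ∈ T then ({g i} : Finset Bool) else Finset.univ).card
      = if i ∈ T then 1 else 2 := by
    intro i
    split_ifs <;> simp
  simp_rw [h2]
  rw [Finset.prod_ite]
  simp only [Finset.prod_const_one, one_mul, Finset.prod_const]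
  have h3 : (Finset.univ.filter fun i : Fin N => i ∉ T).card + T.card = N := by
    have : (Finset.univ.filter fun i : Fin N => i ∉ T) = Tᶜ := by ext; simp
    rw [this, Finset.card_compl, Fintype.card_fin]
    have := Finset.card_le_univ T
    rw [Fintype.card_fin] at this
    omega
  rw [← pow_add, h3]

variable {V : Type*} [Fintype V] [DecidableEq V]

/-- For `a ≠ b`, the number of positions for which the bits of `a` on `T` have a pattern
prescribed by the bits of `b`. -/
theorem card_pos_pattern {N : ℕ} (a b : V) (hab : a ≠ b) (T : Finset (Fin N))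
    (g : (Fin N → Bool) → Fin N → Bool) :
    (Finset.univ.filter fun pos : V → Fin N → Bool =>
        ∀ i ∈ T, pos a i = g (pos b) i).card * 2 ^ T.card
      = Fintype.card (V → Fin N → Bool) := by
  classical
  have h := sum_update (R := ℕ) (Λ := Fin N → Bool) a
    (fun pos : V → Fin N → Bool => if ∀ i ∈ T, pos a i = g (pos b) i then 1 else 0)
  simp only [Function.update_self, Function.update_of_ne hab.symm] at h
  have h1 : ∀ pos : V → Fin N → Bool,
      ∑ x : Fin N → Bool, (if ∀ i ∈ T, x i = g (pos b) i then 1 else 0)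
        = (Finset.univ.filter fun x : Fin N → Bool => ∀ i ∈ T, x i = g (pos b) i).card := by
    intro pos
    rw [Finset.card_filter]
  simp_rw [h1] at h
  have h2 : ∑ pos : V → Fin N → Bool, (if ∀ i ∈ T, pos a i = g (pos b) i then 1 else 0)
      = (Finset.univ.filter fun pos : V → Fin N → Bool =>
          ∀ i ∈ T, pos a i = g (pos b) i).card := by
    rw [Finset.card_filter]
  rw [h2] at h
  have hcard : Fintype.card (Fin N → Bool) = 2 ^ N := by simp
  rw [hcard] at h
  -- multiply by `2 ^ |T|`
  have h3 : ∀ pos : V → Fin N → Bool,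
      (Finset.univ.filter fun x : Fin N → Bool => ∀ i ∈ T, x i = g (pos b) i).card * 2 ^ T.card
        = 2 ^ N := fun pos => card_pattern T (g (pos b))
  have h4 : 2 ^ N * ((Finset.univ.filter fun pos : V → Fin N → Bool =>
          ∀ i ∈ T, pos a i = g (pos b) i).card * 2 ^ T.card)
      = 2 ^ N * Fintype.card (V → Fin N → Bool) := by
    calc 2 ^ N * ((Finset.univ.filter fun pos : V → Fin N → Bool =>
          ∀ i ∈ T, pos a i = g (pos b) i).card * 2 ^ T.card)
        = (2 ^ N * (Finset.univ.filter fun pos : V → Fin N → Bool =>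
          ∀ i ∈ T, pos a i = g (pos b) i).card) * 2 ^ T.card := by ring
      _ = (∑ pos : V → Fin N → Bool,
            (Finset.univ.filter fun x : Fin N → Bool => ∀ i ∈ T, x i = g (pos b) i).card)
            * 2 ^ T.card := by
          rw [h]; simp
      _ = ∑ pos : V → Fin N → Bool,
            ((Finset.univ.filter fun x : Fin N → Bool => ∀ i ∈ T, x i = g (pos b) i).card
              * 2 ^ T.card) := by rw [Finset.sum_mul]
      _ = 2 ^ N * Fintype.card (V → Fin N → Bool) := by
          simp_rw [h3]
          simp [Finset.card_univ, mul_comm]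
  exact Nat.eq_of_mul_eq_mul_left (by positivity) h4

/-- Real form of `card_pos_pattern`. -/
theorem card_pos_pattern_real {N : ℕ} (a b : V) (hab : a ≠ b) (T : Finset (Fin N))
    (g : (Fin N → Bool) → Fin N → Bool) :
    ((Finset.univ.filter fun pos : V → Fin N → Bool =>
        ∀ i ∈ T, pos a i = g (pos b) i).card : ℝ)
      = (1 / 2) ^ T.card * Fintype.card (V → Fin N → Bool) := by
  have h := card_pos_pattern a b hab T g
  have h2 : ((Finset.univ.filter fun pos : V → Fin N → Bool =>
        ∀ i ∈ T, pos a i = g (pos b) i).card : ℝ) * 2 ^ T.card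
      = Fintype.card (V → Fin N → Bool) := by exact_mod_cast h
  rw [← h2, one_div, inv_pow]
  field_simp

/-- The first `l` bits agree. -/
def AgreeUpTo {N : ℕ} (l : ℕ) (x y : Fin N → Bool) : Prop := ∀ i : Fin N, i.val < l → x i = y i

instance {N : ℕ} (l : ℕ) (x y : Fin N → Bool) : Decidable (AgreeUpTo l x y) := by
  unfold AgreeUpTo; infer_instance

/-- `native l x y`: the first `l` bits agree and bit `l` differs (bits are numbered from `0`). -/
def Native {N : ℕ} (l : ℕ) (x y : Fin N → Bool) : Prop :=
  AgreeUpTo l x y ∧ ∀ i : Fin N, i.val = l → x i ≠ y i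

instance {N : ℕ} (l : ℕ) (x y : Fin N → Bool) : Decidable (Native l x y) := by
  unfold Native; infer_instance

lemma card_first {N l : ℕ} (hl : l ≤ N) :
    (Finset.univ.filter fun i : Fin N => i.val < l).card = l := by
  have : (Finset.univ.filter fun i : Fin N => i.val < l)
      = (Finset.univ : Finset (Fin l)).map (Fin.castLEEmb hl) := by
    ext i
    simp only [Finset.mem_filter, Finset.mem_univ, true_and, Finset.mem_map, Fin.castLEEmb_apply]
    constructor
    · intro hi
      exact ⟨⟨i.val, hi⟩, by ext; simp⟩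
    · rintro ⟨k, rfl⟩
      simpa using k.2
  rw [this, Finset.card_map, Finset.card_univ, Fintype.card_fin]

/-- Two distinct vertices agree on the first `l` bits with probability `2^{-l}`. -/
theorem card_agree {N l : ℕ} (hl : l ≤ N) (a b : V) (hab : a ≠ b) :
    ((Finset.univ.filter fun pos : V → Fin N → Bool => AgreeUpTo l (pos a) (pos b)).card : ℝ)
      = (1 / 2) ^ l * Fintype.card (V → Fin N → Bool) := by
  have h := card_pos_pattern_real (N := N) a b hab (Finset.univ.filter fun i : Fin N => i.val < l)
    (fun y => y)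
  rw [card_first hl] at h
  rw [← h]
  congr 3
  ext pos
  simp [AgreeUpTo]

/-- Native level `l` has probability `2^{-(l+1)}`. -/
theorem card_native {N l : ℕ} (hl : l < N) (a b : V) (hab : a ≠ b) :
    ((Finset.univ.filter fun pos : V → Fin N → Bool => Native l (pos a) (pos b)).card : ℝ)
      = (1 / 2) ^ (l + 1) * Fintype.card (V → Fin N → Bool) := by
  have h := card_pos_pattern_real (N := N) a b hab (Finset.univ.filter fun i : Fin N => i.val ≤ l)
    (fun y i => if i.val = l then !(y i) else y i)
  have hc : (Finset.univ.filter fun i : Fin N => i.val ≤ l).card = l + 1 := by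
    have h1 : (Finset.univ.filter fun i : Fin N => i.val ≤ l)
        = (Finset.univ.filter fun i : Fin N => i.val < l + 1) := by
      ext i; simp [Nat.lt_succ_iff]
    rw [h1, card_first (by omega)]
  rw [hc] at h
  rw [← h]
  congr 3
  ext pos
  simp only [Native, AgreeUpTo, Finset.mem_filter, Finset.mem_univ, true_and]
  constructor
  · rintro ⟨h1, h2⟩ i hi
    by_cases his : i.val = l
    · have := h2 i his
      simp only [his, if_true]
      cases h3 : pos a i <;> cases h4 : pos b i <;> simp_all
    · simp only [his, if_false]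
      exact h1 i (by omega)
  · intro h1
    refine ⟨fun i hi => ?_, fun i hi => ?_⟩
    · have := h1 i (by omega)
      simpa [show i.val ≠ l by omega] using this
    · have := h1 i (by omega)
      simp only [hi, if_true] at this
      rw [this]
      cases pos b i <;> simp

/-- A single bit differs with probability `1/2`. -/
theorem card_bit_ne {N : ℕ} (i : Fin N) (a b : V) (hab : a ≠ b) :
    ((Finset.univ.filter fun pos : V → Fin N → Bool => pos a i ≠ pos b i).card : ℝ)
      = 1 / 2 * Fintype.card (V → Fin N → Bool) := by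
  have h := card_pos_pattern_real (N := N) a b hab {i} (fun y k => !(y k))
  simp only [Finset.card_singleton, pow_one, Finset.mem_singleton, forall_eq] at h
  rw [← h]
  congr 3
  ext pos
  cases h3 : pos a i <;> cases h4 : pos b i <;> simp

/-- The parity event of #2368: the first `r` bits agree, bit `r` differs, bit `l` differs (`r < l`). -/
theorem card_native_and_bit {N r l : ℕ} (hrl : r < l) (hl : l < N) (a b : V) (hab : a ≠ b) :
    ((Finset.univ.filter fun pos : V → Fin N → Bool =>
        Native r (pos a) (pos b) ∧ pos a ⟨l, hl⟩ ≠ pos b ⟨l, hl⟩).card : ℝ)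
      = (1 / 2) ^ (r + 2) * Fintype.card (V → Fin N → Bool) := by
  have h := card_pos_pattern_real (N := N) a b hab
    (Finset.univ.filter fun i : Fin N => i.val ≤ r ∨ i.val = l)
    (fun y i => if i.val = r ∨ i.val = l then !(y i) else y i)
  have hc : (Finset.univ.filter fun i : Fin N => i.val ≤ r ∨ i.val = l).card = r + 2 := by
    have h1 : (Finset.univ.filter fun i : Fin N => i.val ≤ r ∨ i.val = l)
        = insert (⟨l, hl⟩ : Fin N) (Finset.univ.filter fun i : Fin N => i.val < r + 1) := by
      ext i
      simp only [Finset.mem_filter, Finset.mem_univ, true_and, Finset.mem_insert, Fin.ext_iff]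
      omega
    rw [h1, Finset.card_insert_of_notMem (by simp; omega), card_first (by omega)]
  rw [hc] at h
  rw [← h]
  congr 3
  ext pos
  simp only [Native, AgreeUpTo, Finset.mem_filter, Finset.mem_univ, true_and]
  constructor
  · rintro ⟨⟨h1, h2⟩, h3⟩ i hi
    by_cases his : i.val = r
    · have := h2 i his
      simp only [his, true_or, if_true]
      cases h3 : pos a i <;> cases h4 : pos b i <;> simp_all
    · by_cases hil : i.val = l
      · have hi' : i = ⟨l, hl⟩ := Fin.ext hil
        subst hi'
        simp only [or_true, if_true]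
        cases h5 : pos a ⟨l, hl⟩ <;> cases h4 : pos b ⟨l, hl⟩ <;> simp_all
      · simp only [his, hil, or_self, if_false]
        exact h1 i (by omega)
  · intro h1
    refine ⟨⟨fun i hi => ?_, fun i hi => ?_⟩, ?_⟩
    · have := h1 i (by omega)
      simpa [show i.val ≠ r by omega, show i.val ≠ l by omega] using this
    · have := h1 i (by omega)
      simp only [hi, true_or, if_true] at this
      rw [this]
      cases pos b i <;> simp
    · have := h1 ⟨l, hl⟩ (by simp)
      simp only [or_true, if_true] at this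
      rw [this]
      cases pos b ⟨l, hl⟩ <;> simp

/-- Exchange of a sum over samples and a count. -/
theorem sum_card_filter_comm {Ω E : Type*} [Fintype Ω] (S : Finset E) (P : Ω → E → Prop)
    [∀ ω e, Decidable (P ω e)] [∀ e, DecidablePred fun ω => P ω e] :
    ∑ ω, (((S.filter fun e => P ω e).card : ℕ) : ℝ)
      = ∑ e ∈ S, ((Finset.univ.filter fun ω => P ω e).card : ℝ) := by
  have h1 : ∀ ω, (((S.filter fun e => P ω e).card : ℕ) : ℝ) = ∑ e ∈ S, if P ω e then (1 : ℝ) else 0 := by
    intro ω
    rw [Finset.card_filter]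
    push_cast
    rfl
  have h2 : ∀ e, ((Finset.univ.filter fun ω => P ω e).card : ℝ) = ∑ ω, if P ω e then (1 : ℝ) else 0 := by
    intro e
    rw [Finset.card_filter]
    push_cast
    refine Finset.sum_congr rfl fun ω _ => ?_
    congr
  simp_rw [h1, h2]
  rw [Finset.sum_comm]

end Bits

section Fubini

variable {V : Type*} [Fintype V] [DecidableEq V]

/-- Positions as pairs: a sum over functions into `Y × Z`. -/
theorem sum_arrow_prod {X Y Z : Type*} [Fintype X] [Fintype Y] [Fintype Z]
    [DecidableEq Y] [DecidableEq Z] [DecidableEq X] (e : X ≃ Y × Z)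
    (A : (V → Y) → (V → Z) → ℝ) :
    ∑ pos : V → X, A (fun v => (e (pos v)).1) (fun v => (e (pos v)).2)
      = ∑ z : V → Z, ∑ y : V → Y, A y z := by
  classical
  let E : (V → X) ≃ (V → Z) × (V → Y) :=
    { toFun := fun pos => (fun v => (e (pos v)).2, fun v => (e (pos v)).1)
      invFun := fun p => fun v => e.symm (p.2 v, p.1 v)
      left_inv := by
        intro pos
        funext v
        simp
      right_inv := by
        rintro ⟨z, y⟩
        simp }
  rw [← Fintype.sum_prod_type' (f := fun z y => A y z)]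
  exact E.sum_comp (fun p : (V → Z) × (V → Y) => A p.2 p.1)

/-- The last bits: indices at least `r`. -/
abbrev RestIdx (N r : ℕ) := {i : Fin N // ¬ i.val < r}

/-- The first bits: indices below `r`. -/
abbrev HeadIdx (N r : ℕ) := {i : Fin N // i.val < r}

lemma card_headIdx {N r : ℕ} (hr : r ≤ N) : Fintype.card (HeadIdx N r) = r := by
  rw [Fintype.card_subtype]
  have : (Finset.univ.filter fun i : Fin N => i.val < r)
      = (Finset.univ : Finset (Fin r)).map (Fin.castLEEmb hr) := by
    ext i
    simp only [Finset.mem_filter, Finset.mem_univ, true_and, Finset.mem_map, Fin.castLEEmb_apply]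
    constructor
    · intro hi
      exact ⟨⟨i.val, hi⟩, by ext; simp⟩
    · rintro ⟨k, rfl⟩
      simpa using k.2
  rw [this, Finset.card_map, Finset.card_univ, Fintype.card_fin]

/-- A bijection from the first `r` bits to `ZMod (2^r)`. It is arbitrary. -/
noncomputable def headEquiv {N r : ℕ} (hr : r ≤ N) : (HeadIdx N r → Bool) ≃ ZMod (2 ^ r) :=
  haveI : NeZero (2 ^ r) := ⟨by positivity⟩
  Fintype.equivOfCardEq (by
    rw [Fintype.card_fun, card_headIdx hr, ZMod.card]
    simp)

/-- A bit string is its label in `ZMod (2^r)` and its remaining bits. -/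
noncomputable def bitEquiv {N r : ℕ} (hr : r ≤ N) :
    (Fin N → Bool) ≃ ZMod (2 ^ r) × (RestIdx N r → Bool) :=
  (Equiv.piEquivPiSubtypeProd (fun i : Fin N => i.val < r) (fun _ => Bool)).trans
    (Equiv.prodCongr (headEquiv hr) (Equiv.refl _))

/-- The remaining part contains the later bits. -/
@[simp] lemma bitEquiv_snd {N r : ℕ} (hr : r ≤ N) (x : Fin N → Bool) (i : RestIdx N r) :
    (bitEquiv hr x).2 i = x i.1 := rfl

/-- The label of a bit string. -/
noncomputable def cell {N r : ℕ} (hr : r ≤ N) (x : Fin N → Bool) : ZMod (2 ^ r) :=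
  (bitEquiv hr x).1

/-- Equal labels means equal first bits. -/
lemma cell_eq_iff {N r : ℕ} (hr : r ≤ N) (x y : Fin N → Bool) :
    cell hr x = cell hr y ↔ ∀ i : Fin N, i.val < r → x i = y i := by
  unfold cell
  simp only [bitEquiv, Equiv.trans_apply, Equiv.prodCongr_apply, Prod.map_fst,
    Equiv.piEquivPiSubtypeProd_apply]
  rw [(headEquiv hr).apply_eq_iff_eq]
  constructor
  · intro h i hi
    exact congrFun h ⟨i, hi⟩
  · intro h
    funext i
    exact h i.1 i.2

/-- FUBINI. A sum over positions of a quantity which depends on the labels and the later bits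
separately is a sum over the later bits of a sum over all labellings. -/
theorem sum_cells_rests {N r : ℕ} (hr : r ≤ N)
    (A : (V → ZMod (2 ^ r)) → (V → RestIdx N r → Bool) → ℝ) :
    haveI : NeZero (2 ^ r) := ⟨by positivity⟩
    ∑ pos : V → Fin N → Bool,
        A (fun v => cell hr (pos v)) (fun v i => pos v i.1)
      = ∑ z : V → RestIdx N r → Bool, ∑ j : V → ZMod (2 ^ r), A j z := by
  haveI : NeZero (2 ^ r) := ⟨by positivity⟩
  exact sum_arrow_prod (bitEquiv hr) A

end Fubini

end Crest.Agent.Lib.EG.Sample
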