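/-
  Row 45 (S0064), helper12.  Averaging of `LevelRound.exists_round` over the labels `j : V → ZMod L`:
  given the circulations `g j` of the Freezing Lemma, integer circulations `R j` with small average cost.
-/
import Crest.Agent.Lib.EG.LevelRound
import Crest.Agent.Lib.EG.Sample

set_option autoImplicit false
set_option linter.unusedSectionVars false

open Finset Crest.Agent.Lib.EG.Round Crest.Agent.Lib.EG.LevelRound Crest.Agent.Lib.EG.Sample

namespace Crest.Agent.Lib.EG.LevelFlow

variable {V α : Type*} [Fintype V] [Fintype α] [DecidableEq V] [DecidableEq α]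
variable (L : ℕ) [NeZero L]

/-- natural value of a label -/
abbrev nat (j : V → ZMod L) : V → ℕ := fun v => (j v).val

lemma val_eq_succ (hL : 3 ≤ L) (x y : ZMod L) (h : x = y + 1) (hx : x.val ≠ 0) : x.val = y.val + 1 := by
  haveI : Fact (1 < L) := ⟨by omega⟩
  subst h
  rw [ZMod.val_add, ZMod.val_one] at hx ⊢
  have hy : y.val < L := ZMod.val_lt y
  by_cases h1 : y.val + 1 < L
  · exact Nat.mod_eq_of_lt h1
  · have h2 : y.val + 1 = L := by omega
    rw [h2, Nat.mod_self] at hx
    exact absurd rfl hx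

lemma sum_ind_le_one (P : ZMod L → Prop) [DecidablePred P] (hP : ∀ x y, P x → P y → x = y) :
    ∑ x : ZMod L, (if P x then (1 : ℝ) else 0) ≤ 1 := by
  rw [Finset.sum_boole]
  have : (univ.filter P).card ≤ 1 := by
    rw [Finset.card_le_one]
    intro x hx y hy
    exact hP x y (Finset.mem_filter.1 hx).2 (Finset.mem_filter.1 hy).2
  exact_mod_cast this

lemma card_pos : (0 : ℝ) < (L : ℝ) := by
  exact_mod_cast Nat.pos_of_ne_zero (NeZero.ne L)

lemma card_zmod : Fintype.card (ZMod L) = L := ZMod.card L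

/-- Two coordinates: `∑_j f (j a) h (j b)`. -/
lemma sum_two_le (a b : V) (hab : a ≠ b) (f h : ZMod L → ℝ) (hf0 : ∀ x, 0 ≤ f x) (hh0 : ∀ x, 0 ≤ h x)
    (hf : ∑ x, f x ≤ 1) (hh : ∑ x, h x ≤ 1) :
    ∑ j : V → ZMod L, f (j a) * h (j b) ≤ 1 / (L : ℝ) ^ 2 * Fintype.card (V → ZMod L) := by
  have h1 := sum_mul_of_indep (Λ := ZMod L) a f (fun j => h (j b))
    (fun j x => by simp [Function.update_of_ne hab.symm])
  have h2 := sum_coord (Λ := ZMod L) b h
  rw [h1, h2, card_zmod]
  have hL := card_pos L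
  have hΩ : (0 : ℝ) ≤ Fintype.card (V → ZMod L) := Nat.cast_nonneg _
  have hf' : 0 ≤ ∑ x, f x := Finset.sum_nonneg fun x _ => hf0 x
  have hh' : 0 ≤ ∑ x, h x := Finset.sum_nonneg fun x _ => hh0 x
  have : (∑ x, f x) / (L : ℝ) * ((∑ x, h x) / (L : ℝ) * Fintype.card (V → ZMod L))
      = ((∑ x, f x) * (∑ x, h x)) * (1 / (L : ℝ) ^ 2 * Fintype.card (V → ZMod L)) := by
    field_simp
  rw [this]
  have h3 : (∑ x, f x) * (∑ x, h x) ≤ 1 := by nlinarith
  have h4 : 0 ≤ 1 / (L : ℝ) ^ 2 * Fintype.card (V → ZMod L) := by positivity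
  nlinarith

open Classical in
/-- The number of labellings making `e` a wrap arc. -/
lemma card_wrap_le (a b : α → V) (e : α) (hab : a e ≠ b e) :
    ((univ.filter (fun j : V → ZMod L => isWrap L (nat L j) a b e)).card : ℝ)
      ≤ 2 / (L : ℝ) ^ 2 * Fintype.card (V → ZMod L) := by
  let f : ZMod L → ℝ := fun x => if x.val + 1 = L then 1 else 0
  let h : ZMod L → ℝ := fun x => if x.val = 0 then 1 else 0
  have hf0 : ∀ x, 0 ≤ f x := fun x => by simp only [f]; split_ifs <;> norm_num
  have hh0 : ∀ x, 0 ≤ h x := fun x => by simp only [h]; split_ifs <;> norm_num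
  have hf : ∑ x, f x ≤ 1 := sum_ind_le_one L _ (fun x y hx hy => ZMod.val_injective L (by omega))
  have hh : ∑ x, h x ≤ 1 := sum_ind_le_one L _ (fun x y hx hy => ZMod.val_injective L (by omega))
  have h1 := sum_two_le L (a e) (b e) hab f h hf0 hh0 hf hh
  have h2 := sum_two_le L (b e) (a e) hab.symm f h hf0 hh0 hf hh
  have h3 : ((univ.filter (fun j : V → ZMod L => isWrap L (nat L j) a b e)).card : ℝ)
      ≤ ∑ j : V → ZMod L, (f (j (a e)) * h (j (b e)) + f (j (b e)) * h (j (a e))) := by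
    rw [Finset.card_filter]
    push_cast
    refine Finset.sum_le_sum fun j _ => ?_
    have h5 : 0 ≤ f (j (a e)) * h (j (b e)) := mul_nonneg (hf0 _) (hh0 _)
    have h6 : 0 ≤ f (j (b e)) * h (j (a e)) := mul_nonneg (hf0 _) (hh0 _)
    split_ifs with hw
    · rcases hw with ⟨h7, h8⟩ | ⟨h7, h8⟩
      · have : f (j (a e)) * h (j (b e)) = 1 := by
          simp only [f, h]
          rw [if_pos h7, if_pos h8]; norm_num
        linarith
      · have : f (j (b e)) * h (j (a e)) = 1 := by
          simp only [f, h]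
          rw [if_pos h7, if_pos h8]; norm_num
        linarith
    · linarith
  rw [Finset.sum_add_distrib] at h3
  have h4 : 2 / (L : ℝ) ^ 2 * (Fintype.card (V → ZMod L) : ℝ)
      = 1 / (L : ℝ) ^ 2 * Fintype.card (V → ZMod L) + 1 / (L : ℝ) ^ 2 * Fintype.card (V → ZMod L) := by
    ring
  linarith

open Classical in
/-- The uncovered penalty at one vertex. -/
lemma sum_uncovered_le (hL : 3 ≤ L) (a b : α → V) (c : ℝ) (hc : 0 ≤ c) (D : ℕ) (hD : 0 < D)
    (hcD : 2 * (L : ℝ) ≤ c * D) (v : V) (W : Finset V) (hv : v ∉ W) (hWD : D ≤ W.card)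
    (hW : ∀ u ∈ W, ∃ e, (a e = u ∧ b e = v) ∨ (a e = v ∧ b e = u)) :
    ∑ j : V → ZMod L, max (1 - c * ((univ.filter (fun e => chainIn (nat L j) a b v e)).card : ℝ)) 0
      ≤ (1 / (L : ℝ) + 4 * L / D) * Fintype.card (V → ZMod L) := by
  have hLpos := card_pos L
  have hDpos : (0 : ℝ) < D := by exact_mod_cast hD
  let y : V → ZMod L → ZMod L → ℝ := fun _ x x' => if x = x' + 1 then 1 else 0
  let θ : V → ℝ := fun _ => 1 / (L : ℝ)
  have hWc : (D : ℝ) ≤ W.card := by exact_mod_cast hWD
  let μ : ℝ := W.card / (L : ℝ)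
  have hμ0 : 0 < μ := by
    have : (0 : ℝ) < W.card := lt_of_lt_of_le hDpos hWc
    positivity
  have hy01 : ∀ u x x', 0 ≤ y u x x' ∧ y u x x' ≤ 1 := by
    intro u x x'
    simp only [y]
    split_ifs <;> norm_num
  have hy : ∀ u ∈ W, ∀ x, ∑ x', y u x x' = θ u * Fintype.card (ZMod L) := by
    intro u _ x
    simp only [y, θ]
    rw [card_zmod]
    rw [Finset.sum_eq_single (x - 1)]
    · simp only [sub_add_cancel, if_true]
      field_simp
    · intro x' _ hx'
      rw [if_neg]
      intro h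
      apply hx'
      rw [h]; ring
    · simp
  have hμ : μ = ∑ u ∈ W, θ u := by
    simp only [θ, μ, Finset.sum_const, nsmul_eq_mul]
    ring
  have hcheb := card_star_lt_half_mean (Λ := ZMod L) v W hv y θ hy01 hy μ hμ hμ0
  -- the vertex has label 0
  have hzero : ((univ.filter (fun j : V → ZMod L => (j v).val = 0)).card : ℝ)
      ≤ 1 / (L : ℝ) * Fintype.card (V → ZMod L) := by
    have h1 := sum_coord (Λ := ZMod L) v (fun x => if x.val = 0 then (1 : ℝ) else 0)
    have h2 : ((univ.filter (fun j : V → ZMod L => (j v).val = 0)).card : ℝ)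
        = ∑ j : V → ZMod L, (if (j v).val = 0 then (1 : ℝ) else 0) := by
      rw [Finset.sum_boole]
    rw [h2, h1, card_zmod]
    have h3 : ∑ x : ZMod L, (if x.val = 0 then (1 : ℝ) else 0) ≤ 1 :=
      sum_ind_le_one L _ (fun x y hx hy => ZMod.val_injective L (by omega))
    have h4 : (0 : ℝ) ≤ Fintype.card (V → ZMod L) := Nat.cast_nonneg _
    have h5 : (0 : ℝ) ≤ 1 / (L : ℝ) := by positivity
    calc (∑ x : ZMod L, (if x.val = 0 then (1 : ℝ) else 0)) / (L : ℝ) * Fintype.card (V → ZMod L)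
        = (∑ x : ZMod L, (if x.val = 0 then (1 : ℝ) else 0)) * (1 / (L : ℝ) * Fintype.card (V → ZMod L)) := by
          ring
      _ ≤ 1 * (1 / (L : ℝ) * Fintype.card (V → ZMod L)) := by
          apply mul_le_mul_of_nonneg_right h3
          positivity
      _ = 1 / (L : ℝ) * Fintype.card (V → ZMod L) := one_mul _
  -- pointwise
  have hpoint : ∀ j : V → ZMod L,
      max (1 - c * ((univ.filter (fun e => chainIn (nat L j) a b v e)).card : ℝ)) 0
      ≤ (if (j v).val = 0 then (1 : ℝ) else 0) + (if ∑ u ∈ W, y u (j v) (j u) < μ / 2 then (1 : ℝ) else 0) := by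
    intro j
    have hnn : ∀ (P : Prop) [Decidable P], (0 : ℝ) ≤ (if P then (1 : ℝ) else 0) := by
      intro P _; split_ifs <;> norm_num
    have hcnt : (0 : ℝ) ≤ ((univ.filter (fun e => chainIn (nat L j) a b v e)).card : ℝ) := Nat.cast_nonneg _
    have hle1 : max (1 - c * ((univ.filter (fun e => chainIn (nat L j) a b v e)).card : ℝ)) 0 ≤ 1 :=
      max_le (by nlinarith) zero_le_one
    by_cases h1 : (j v).val = 0
    · rw [if_pos h1]
      have := hnn (∑ u ∈ W, y u (j v) (j u) < μ / 2)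
      linarith
    by_cases h2 : ∑ u ∈ W, y u (j v) (j u) < μ / 2
    · rw [if_pos h2]
      have := hnn ((j v).val = 0)
      linarith
    rw [if_neg h1, if_neg h2]
    -- enough good arcs
    have h3 : ∑ u ∈ W, y u (j v) (j u) ≤ ((univ.filter (fun e => chainIn (nat L j) a b v e)).card : ℝ) := by
      have h4 : ∑ u ∈ W, y u (j v) (j u) = ((W.filter (fun u => j v = j u + 1)).card : ℝ) := by
        simp only [y]
        rw [Finset.sum_boole]
      rw [h4]
      have h5 : (W.filter (fun u => j v = j u + 1)).card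
          ≤ (univ.filter (fun e => chainIn (nat L j) a b v e)).card := by
        rcases isEmpty_or_nonempty α with hα | hα
        · have : W = ∅ := by
            apply Finset.eq_empty_of_forall_notMem
            intro u hu
            obtain ⟨e, _⟩ := hW u hu
            exact hα.elim e
          simp [this]
        choose! E hE using hW
        refine Finset.card_le_card_of_injOn E ?_ ?_
        · intro u hu
          have hu' := Finset.mem_filter.1 (Finset.mem_coe.1 hu)
          have hval := val_eq_succ L hL _ _ hu'.2 h1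
          refine Finset.mem_coe.2 (Finset.mem_filter.2 ⟨Finset.mem_univ _, ?_⟩)
          rcases hE u hu'.1 with ⟨h6, h7⟩ | ⟨h6, h7⟩
          · left
            refine ⟨h7, ?_⟩
            simp only [nat]
            rw [h7, h6]
            exact hval
          · right
            refine ⟨h6, ?_⟩
            simp only [nat]
            rw [h7, h6]
            exact hval
        · intro u hu u' hu' huu
          have hu1 := (Finset.mem_filter.1 (Finset.mem_coe.1 hu)).1
          have hu2 := (Finset.mem_filter.1 (Finset.mem_coe.1 hu')).1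
          have hne1 : u ≠ v := fun h => hv (h ▸ hu1)
          rcases hE u hu1 with ⟨h6, h7⟩ | ⟨h6, h7⟩ <;> rcases hE u' hu2 with ⟨h8, h9⟩ | ⟨h8, h9⟩
          · rw [huu, h8] at h6; exact h6.symm
          · rw [huu, h8] at h6; exact absurd h6.symm hne1
          · rw [huu, h9] at h7; exact absurd h7.symm hne1
          · rw [huu, h9] at h7; exact h7.symm
      exact_mod_cast h5
    have h6 : ¬ (∑ u ∈ W, y u (j v) (j u) < μ / 2) := h2
    push_neg at h6
    have h7 : (1 : ℝ) ≤ c * ((univ.filter (fun e => chainIn (nat L j) a b v e)).card : ℝ) := by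
      have h8 : μ / 2 ≤ ((univ.filter (fun e => chainIn (nat L j) a b v e)).card : ℝ) := h6.trans h3
      have h9 : c * (μ / 2) ≤ c * ((univ.filter (fun e => chainIn (nat L j) a b v e)).card : ℝ) :=
        mul_le_mul_of_nonneg_left h8 hc
      have h10 : (1 : ℝ) ≤ c * (μ / 2) := by
        have h11 : c * (μ / 2) = c * W.card / (2 * L) := by
          simp only [μ]; field_simp
        rw [h11, le_div_iff₀ (by positivity)]
        have h12 : c * D ≤ c * W.card := mul_le_mul_of_nonneg_left hWc hc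
        linarith
      linarith
    rw [max_eq_right (by linarith)]
    norm_num
  calc ∑ j : V → ZMod L, max (1 - c * ((univ.filter (fun e => chainIn (nat L j) a b v e)).card : ℝ)) 0
      ≤ ∑ j : V → ZMod L, ((if (j v).val = 0 then (1 : ℝ) else 0)
          + (if ∑ u ∈ W, y u (j v) (j u) < μ / 2 then (1 : ℝ) else 0)) :=
        Finset.sum_le_sum fun j _ => hpoint j
    _ = ((univ.filter (fun j : V → ZMod L => (j v).val = 0)).card : ℝ)
        + ((univ.filter (fun j : V → ZMod L => ∑ u ∈ W, y u (j v) (j u) < μ / 2)).card : ℝ) := by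
        rw [Finset.sum_add_distrib, Finset.sum_boole, Finset.sum_boole]
    _ ≤ 1 / (L : ℝ) * Fintype.card (V → ZMod L) + 4 / μ * Fintype.card (V → ZMod L) :=
        add_le_add hzero hcheb
    _ ≤ (1 / (L : ℝ) + 4 * L / D) * Fintype.card (V → ZMod L) := by
        have h1 : 4 / μ ≤ 4 * L / D := by
          simp only [μ]
          rw [div_div_eq_mul_div]
          apply div_le_div_of_nonneg_left (by positivity) hDpos hWc
        have h2 : (0 : ℝ) ≤ Fintype.card (V → ZMod L) := Nat.cast_nonneg _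
        nlinarith


/-- Cauchy-Schwarz on `Ω × α`. -/
lemma sum_abs_le_sqrt {Ω : Type*} [Fintype Ω] (x : Ω → α → ℝ) (B : ℝ)
    (hE : ∑ j, ∑ e, x j e ^ 2 ≤ B * Fintype.card Ω) :
    ∑ j, ∑ e, |x j e| ≤ Fintype.card Ω * Real.sqrt (Fintype.card α * B) := by
  classical
  have h1 : (∑ p : Ω × α, |x p.1 p.2|) ^ 2
      ≤ (Fintype.card (Ω × α) : ℝ) * ∑ p : Ω × α, |x p.1 p.2| ^ 2 := by
    have := sq_sum_le_card_mul_sum_sq (s := (Finset.univ : Finset (Ω × α)))
      (f := fun p => |x p.1 p.2|)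
    simpa using this
  have h2 : ∑ p : Ω × α, |x p.1 p.2| = ∑ j, ∑ e, |x j e| := Fintype.sum_prod_type _
  have h3 : ∑ p : Ω × α, |x p.1 p.2| ^ 2 = ∑ j, ∑ e, x j e ^ 2 := by
    rw [Fintype.sum_prod_type]
    simp only [sq_abs]
  rw [h2, h3, Fintype.card_prod] at h1
  have hΩ : (0 : ℝ) ≤ Fintype.card Ω := Nat.cast_nonneg _
  have hα : (0 : ℝ) ≤ Fintype.card α := Nat.cast_nonneg _
  have h4 : (∑ j, ∑ e, |x j e|) ^ 2
      ≤ (Fintype.card Ω : ℝ) ^ 2 * (Fintype.card α * B) := by
    push_cast at h1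
    calc (∑ j, ∑ e, |x j e|) ^ 2
        ≤ ((Fintype.card Ω : ℝ) * Fintype.card α) * ∑ j, ∑ e, x j e ^ 2 := h1
      _ ≤ ((Fintype.card Ω : ℝ) * Fintype.card α) * (B * Fintype.card Ω) :=
          mul_le_mul_of_nonneg_left hE (mul_nonneg hΩ hα)
      _ = (Fintype.card Ω : ℝ) ^ 2 * (Fintype.card α * B) := by ring
  have h5 := Real.le_sqrt_of_sq_le h4
  rwa [Real.sqrt_mul (sq_nonneg _), Real.sqrt_sq hΩ] at h5

open Classical in
/-- **Averaged level flow.**  `g j` circulations bounded by `T` with `c T ≤ 1`, near the forward signs in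
the mean.  Then there are integer circulations `R j` with small average cost. -/
theorem level_flow (hL : 3 ≤ L) (a b : α → V) (U : Finset V) (c T B : ℝ) (D : ℕ)
    (g : (V → ZMod L) → α → ℝ) (hc : 0 ≤ c) (hcT : c * T ≤ 1) (hg1 : ∀ j e, |g j e| ≤ T)
    (hg2 : ∀ j v, bdry a b (g j) v = 0)
    (hE : ∑ j : V → ZMod L, ∑ e, (sgn L (nat L j) a b e - g j e) ^ 2
      ≤ B * Fintype.card (V → ZMod L))
    (hne : ∀ e, a e ≠ b e) (hD : 0 < D) (hcD : 2 * (L : ℝ) ≤ c * D)
    (hU : ∀ v ∈ U, ∃ W : Finset V, v ∉ W ∧ D ≤ W.card ∧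
      ∀ u ∈ W, ∃ e, (a e = u ∧ b e = v) ∨ (a e = v ∧ b e = u)) :
    ∃ R : (V → ZMod L) → α → ℤ, (∀ j e, R j e = -1 ∨ R j e = 0 ∨ R j e = 1) ∧
      (∀ j v, bdry a b (fun e => (R j e : ℝ)) v = 0) ∧
      (∀ j e, g j e = 0 → R j e = 0) ∧
      ∑ j : V → ZMod L,
        (2 * ((univ.filter (fun e => R j e ≠ 0 ∧ ¬ goodDir (nat L j) a b (R j) e)).card : ℝ)
          + ((U.filter (fun v => ¬ hasGoodIn (nat L j) a b (R j) v)).card : ℝ))
      ≤ Fintype.card (V → ZMod L) * (4 * c * Real.sqrt (Fintype.card α * B)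
          + 4 * c * Fintype.card α / (L : ℝ) ^ 2 + U.card * (1 / (L : ℝ) + 4 * L / D)) := by
  have hLpos := card_pos L
  have hΩ : (0 : ℝ) ≤ Fintype.card (V → ZMod L) := Nat.cast_nonneg _
  -- the rounded circulation for each labelling
  have hex : ∀ j : V → ZMod L, ∃ R : α → ℤ, (∀ e, R e = -1 ∨ R e = 0 ∨ R e = 1) ∧
      (∀ v, bdry a b (fun e => (R e : ℝ)) v = 0) ∧
      (∀ e, c * g j e = 0 → R e = 0) ∧
      2 * ((univ.filter (fun e => R e ≠ 0 ∧ ¬ goodDir (nat L j) a b R e)).card : ℝ)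
        + ((U.filter (fun v => ¬ hasGoodIn (nat L j) a b R v)).card : ℝ)
      ≤ 4 * ∑ e, |c * g j e - c * sgn L (nat L j) a b e|
        + 2 * c * ((univ.filter (fun e => isWrap L (nat L j) a b e)).card : ℝ)
        + ∑ v ∈ U, max (1 - c * ((univ.filter (fun e => chainIn (nat L j) a b v e)).card : ℝ)) 0 := by
    intro j
    refine exists_round L hL (nat L j) (fun v => ZMod.val_lt _) a b U c hc (fun e => c * g j e) ?_ ?_
    · intro e
      rw [abs_mul, abs_of_nonneg hc]
      exact (mul_le_mul_of_nonneg_left (hg1 j e) hc).trans hcT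
    · intro v
      have h1 := bdry_add a b (fun _ => (0 : ℝ)) (g j) c v
      have h2 : bdry a b (fun _ => (0 : ℝ)) v = 0 := by
        simp [bdry]
      simp only [zero_add] at h1
      rw [h1, h2, hg2 j v]
      ring
  choose R hR1 hR2 hR3 hR4 using hex
  refine ⟨R, hR1, hR2, ?_, ?_⟩
  · intro j e he
    exact hR3 j e (by rw [he, mul_zero])
  -- summing
  have hsum1 : ∑ j : V → ZMod L, ∑ e, |c * g j e - c * sgn L (nat L j) a b e|
      ≤ c * (Fintype.card (V → ZMod L) * Real.sqrt (Fintype.card α * B)) := by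
    have h1 := sum_abs_le_sqrt (Ω := V → ZMod L) (α := α)
      (fun j e => sgn L (nat L j) a b e - g j e) B hE
    have h2 : ∑ j : V → ZMod L, ∑ e, |c * g j e - c * sgn L (nat L j) a b e|
        = c * ∑ j : V → ZMod L, ∑ e, |sgn L (nat L j) a b e - g j e| := by
      rw [Finset.mul_sum]
      refine Finset.sum_congr rfl fun j _ => ?_
      rw [Finset.mul_sum]
      refine Finset.sum_congr rfl fun e _ => ?_
      rw [← mul_sub, abs_mul, abs_of_nonneg hc, abs_sub_comm]
    rw [h2]
    exact mul_le_mul_of_nonneg_left h1 hc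
  have hsum2 : ∑ j : V → ZMod L, ((univ.filter (fun e => isWrap L (nat L j) a b e)).card : ℝ)
      ≤ Fintype.card α * (2 / (L : ℝ) ^ 2 * Fintype.card (V → ZMod L)) := by
    have h1 : ∀ j : V → ZMod L, ((univ.filter (fun e => isWrap L (nat L j) a b e)).card : ℝ)
        = ∑ e, (if isWrap L (nat L j) a b e then (1 : ℝ) else 0) := by
      intro j
      rw [Finset.sum_boole]
    simp_rw [h1]
    rw [Finset.sum_comm]
    have h2 : ∀ e : α, ∑ j : V → ZMod L, (if isWrap L (nat L j) a b e then (1 : ℝ) else 0)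
        ≤ 2 / (L : ℝ) ^ 2 * Fintype.card (V → ZMod L) := by
      intro e
      rw [Finset.sum_boole]
      exact card_wrap_le L a b e (hne e)
    calc ∑ e : α, ∑ j : V → ZMod L, (if isWrap L (nat L j) a b e then (1 : ℝ) else 0)
        ≤ ∑ _e : α, 2 / (L : ℝ) ^ 2 * Fintype.card (V → ZMod L) :=
          Finset.sum_le_sum fun e _ => h2 e
      _ = Fintype.card α * (2 / (L : ℝ) ^ 2 * Fintype.card (V → ZMod L)) := by
          rw [Finset.sum_const, Finset.card_univ, nsmul_eq_mul]
  have hsum3 : ∑ j : V → ZMod L, ∑ v ∈ U,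
      max (1 - c * ((univ.filter (fun e => chainIn (nat L j) a b v e)).card : ℝ)) 0
      ≤ U.card * ((1 / (L : ℝ) + 4 * L / D) * Fintype.card (V → ZMod L)) := by
    rw [Finset.sum_comm]
    have h2 : ∀ v ∈ U, ∑ j : V → ZMod L,
        max (1 - c * ((univ.filter (fun e => chainIn (nat L j) a b v e)).card : ℝ)) 0
        ≤ (1 / (L : ℝ) + 4 * L / D) * Fintype.card (V → ZMod L) := by
      intro v hv
      obtain ⟨W, h3, h4, h5⟩ := hU v hv
      exact sum_uncovered_le L hL a b c hc D hD hcD v W h3 h4 h5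
    calc ∑ v ∈ U, ∑ j : V → ZMod L,
          max (1 - c * ((univ.filter (fun e => chainIn (nat L j) a b v e)).card : ℝ)) 0
        ≤ ∑ _v ∈ U, (1 / (L : ℝ) + 4 * L / D) * Fintype.card (V → ZMod L) :=
          Finset.sum_le_sum h2
      _ = U.card * ((1 / (L : ℝ) + 4 * L / D) * Fintype.card (V → ZMod L)) := by
          rw [Finset.sum_const, nsmul_eq_mul]
  calc ∑ j : V → ZMod L,
        (2 * ((univ.filter (fun e => R j e ≠ 0 ∧ ¬ goodDir (nat L j) a b (R j) e)).card : ℝ)
          + ((U.filter (fun v => ¬ hasGoodIn (nat L j) a b (R j) v)).card : ℝ))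
      ≤ ∑ j : V → ZMod L, (4 * ∑ e, |c * g j e - c * sgn L (nat L j) a b e|
        + 2 * c * ((univ.filter (fun e => isWrap L (nat L j) a b e)).card : ℝ)
        + ∑ v ∈ U, max (1 - c * ((univ.filter (fun e => chainIn (nat L j) a b v e)).card : ℝ)) 0) :=
        Finset.sum_le_sum fun j _ => hR4 j
    _ = 4 * ∑ j : V → ZMod L, ∑ e, |c * g j e - c * sgn L (nat L j) a b e|
        + 2 * c * ∑ j : V → ZMod L, ((univ.filter (fun e => isWrap L (nat L j) a b e)).card : ℝ)
        + ∑ j : V → ZMod L, ∑ v ∈ U,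
            max (1 - c * ((univ.filter (fun e => chainIn (nat L j) a b v e)).card : ℝ)) 0 := by
        rw [Finset.sum_add_distrib, Finset.sum_add_distrib, Finset.mul_sum, Finset.mul_sum]
    _ ≤ 4 * (c * (Fintype.card (V → ZMod L) * Real.sqrt (Fintype.card α * B)))
        + 2 * c * (Fintype.card α * (2 / (L : ℝ) ^ 2 * Fintype.card (V → ZMod L)))
        + U.card * ((1 / (L : ℝ) + 4 * L / D) * Fintype.card (V → ZMod L)) := by
        have h2c : 0 ≤ 2 * c := by positivity
        have := mul_le_mul_of_nonneg_left hsum2 h2c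
        linarith
    _ = Fintype.card (V → ZMod L) * (4 * c * Real.sqrt (Fintype.card α * B)
          + 4 * c * Fintype.card α / (L : ℝ) ^ 2 + U.card * (1 / (L : ℝ) + 4 * L / D)) := by
        field_simp
        ring

end Crest.Agent.Lib.EG.LevelFlow
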