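/-
  Row 45 (S0064), helper33.  Link between `FreezeGraph.freeze_graph` and `LevelFlow.level_flow`:
  for a fixed arc set, integer circulations with small average cost.
-/
import Crest.Agent.Lib.EG.FreezeGraph
import Crest.Agent.Lib.EG.LevelFlow

set_option autoImplicit false
set_option linter.unusedSectionVars false
set_option linter.unusedVariables false

open Finset

namespace Crest.Agent.Lib.EG.FreezeLink

open Crest.Agent.Lib.EG.FreezeGraph
open Crest.Agent.Lib.EG.LevelRound (sgn goodDir hasGoodIn)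
open Crest.Agent.Lib.EG.LevelFlow (nat level_flow)

variable {V : Type*} [Fintype V] [DecidableEq V]

/-- The natural number forward sign agrees with the `ZMod` forward sign. -/
lemma val_eq_add_one_mod_iff {L : ℕ} [NeZero L] (x y : ZMod L) :
    y.val = (x.val + 1) % L ↔ y = x + 1 := by
  rw [← ZMod.val_injective L |>.eq_iff (a := y) (b := x + 1), ZMod.val_add, ZMod.val_one_eq_one_mod]
  simp [Nat.add_mod_mod]

lemma sgn_eq_sigma {L : ℕ} [NeZero L] {α : Type*} (a b : α → V) (j : V → ZMod L) (e : α) :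
    sgn L (nat L j) a b e = sigma j (a e, b e) := by
  unfold sgn sigma nat
  simp only [val_eq_add_one_mod_iff]

/-- A per-vertex back-degree bound gives the per-time bound of `freeze_graph`. -/
lemma card_etime_le (E : Finset (V × V)) (hloop : ∀ e ∈ E, e.1 ≠ e.2) (ord : V → ℕ)
    (hord : Function.Injective ord) (μ : ℕ)
    (hμ : ∀ v, (E.filter (fun e => (e.1 = v ∧ ord e.2 < ord v) ∨ (e.2 = v ∧ ord e.1 < ord v))).card ≤ μ)
    (k : ℕ) : (E.filter (fun e => etime ord e = k)).card ≤ μ := by
  classical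
  by_cases hex : ∃ u, tpos ord u = k
  · obtain ⟨u, hu⟩ := hex
    refine le_trans (Finset.card_le_card ?_) (hμ u)
    intro e he
    obtain ⟨heE, het⟩ := Finset.mem_filter.1 he
    refine Finset.mem_filter.2 ⟨heE, ?_⟩
    have hlt : ∀ x y : V, tpos ord x < tpos ord y → ord x < ord y := by
      intro x y h
      by_contra hcon
      have hne : x ≠ y := by
        rintro rfl
        exact lt_irrefl _ h
      have h1 : ord y < ord x := lt_of_le_of_ne (not_lt.1 hcon) (fun h' => hne (hord h').symm)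
      exact absurd (tpos_strictMono ord h1) (not_lt.2 h.le)
    have htinj := tpos_injective hord
    have hne : tpos ord e.1 ≠ tpos ord e.2 := fun h => hloop e heE (htinj h)
    unfold etime at het
    rcases lt_or_gt_of_ne hne with h | h
    · right
      have hm : max (tpos ord e.1) (tpos ord e.2) = tpos ord e.2 := max_eq_right h.le
      rw [hm, ← hu] at het
      have h2 := htinj het
      exact ⟨h2, h2 ▸ hlt _ _ h⟩
    · left
      have hm : max (tpos ord e.1) (tpos ord e.2) = tpos ord e.1 := max_eq_left h.le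
      rw [hm, ← hu] at het
      have h2 := htinj het
      exact ⟨h2, h2 ▸ hlt _ _ h⟩
  · have : E.filter (fun e => etime ord e = k) = ∅ := by
      refine Finset.filter_eq_empty_iff.2 ?_
      intro e _ het
      unfold etime at het
      rcases max_choice (tpos ord e.1) (tpos ord e.2) with hm | hm
      · exact hex ⟨_, hm ▸ het⟩
      · exact hex ⟨_, hm ▸ het⟩
    rw [this]
    simp

open Classical in
/-- **One level, fixed arc set.**  Integer circulations on the arcs of `E`, indexed by the labels,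
with small average cost. -/
theorem arcs_level_flow (L : ℕ) [NeZero L] (hL : 3 ≤ L) (E : Finset (V × V))
    (hloop : ∀ e ∈ E, e.1 ≠ e.2) (hrev : ∀ e ∈ E, (e.2, e.1) ∉ E)
    (ord : V → ℕ) (hord : Function.Injective ord) (μ : ℕ)
    (hμ : ∀ v, (E.filter (fun e => (e.1 = v ∧ ord e.2 < ord v) ∨ (e.2 = v ∧ ord e.1 < ord v))).card ≤ μ)
    (U : Finset V) (c T : ℝ) (D : ℕ) (hc : 0 ≤ c) (hcT : c * T ≤ 1)
    (hT : 2 + 2 * Real.sqrt (2 * μ) ≤ T) (hD : 0 < D) (hcD : 2 * (L : ℝ) ≤ c * D)
    (hU : ∀ v ∈ U, ∃ W : Finset V, v ∉ W ∧ D ≤ W.card ∧ ∀ u ∈ W, (u, v) ∈ E ∨ (v, u) ∈ E) :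
    ∃ R : (V → ZMod L) → E → ℤ, (∀ j e, R j e = -1 ∨ R j e = 0 ∨ R j e = 1) ∧
      (∀ j v, Round.bdry (fun e : E => e.1.1) (fun e : E => e.1.2) (fun e => (R j e : ℝ)) v = 0) ∧
      ∑ j : V → ZMod L,
        (2 * ((univ.filter (fun e => R j e ≠ 0 ∧
            ¬ goodDir (nat L j) (fun e : E => e.1.1) (fun e : E => e.1.2) (R j) e)).card : ℝ)
          + ((U.filter (fun v => ¬ hasGoodIn (nat L j) (fun e : E => e.1.1) (fun e : E => e.1.2) (R j) v)).card : ℝ))
      ≤ Fintype.card (V → ZMod L) * (4 * c * Real.sqrt (Fintype.card E * ((4 / (L : ℝ)) * Fintype.card V))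
          + 4 * c * Fintype.card E / (L : ℝ) ^ 2 + U.card * (1 / (L : ℝ) + 4 * L / D)) := by
  classical
  obtain ⟨g, hg1, hg2, hg3, hg4⟩ := freeze_graph L E hloop hrev ord hord μ
    (card_etime_le E hloop ord hord μ hμ) T hT
  have hcard : (Fintype.card (V → ZMod L) : ℝ) = (L : ℝ) ^ Fintype.card V := by
    simp [Fintype.card_pi, ZMod.card]
  obtain ⟨R, hR1, hR2, -, hR4⟩ := level_flow L hL (fun e : E => e.1.1) (fun e : E => e.1.2) U c T
    ((4 / (L : ℝ)) * Fintype.card V) D (fun j e => g j e.1) hc hcT (fun j e => hg2 j e.1 e.2)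
    (fun j v => by
      have h := hg1 j v
      unfold Round.bdry
      have h1 : ∀ p : V × V → Prop, ∀ [DecidablePred p],
          (∑ e : E, if p e.1 then g j e.1 else 0) = ∑ e ∈ E.filter p, g j e := by
        intro p _
        rw [Finset.sum_filter, ← Finset.sum_coe_sort E]
      rw [h1 (fun e => e.2 = v), h1 (fun e => e.1 = v), h, sub_self])
    (by
      rw [hcard]
      refine le_trans (le_of_eq ?_) hg4
      refine Finset.sum_congr rfl fun j _ => ?_
      rw [← Finset.sum_coe_sort E]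
      refine Finset.sum_congr rfl fun e _ => ?_
      rw [sgn_eq_sigma])
    (fun e => hloop e.1 e.2) hD hcD
    (by
      intro v hv
      obtain ⟨W, hvW, hcardW, hW⟩ := hU v hv
      refine ⟨W, hvW, hcardW, fun u hu => ?_⟩
      rcases hW u hu with h | h
      · exact ⟨⟨_, h⟩, Or.inl ⟨rfl, rfl⟩⟩
      · exact ⟨⟨_, h⟩, Or.inr ⟨rfl, rfl⟩⟩)
  exact ⟨R, hR1, hR2, hR4⟩

end Crest.Agent.Lib.EG.FreezeLink
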