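import Crest.Agent.Lib.EG.Winding
import Crest.Agent.Lib.EG.Assemble

/-!
# Theorem B for a labelled class: from lines to cycles

`A` is a list of arcs, balanced at every vertex.  At every vertex `v` the deficiency of the line is
at most `h v`: among the neighbours of rank `< x`, out-neighbours exceed in-neighbours by at most
`h v`.  Then the arcs split into at most `∑ h v` simple closed trails.
-/

namespace Crest.Agent.Lib.EG.Winding

open List

/-! ### Matching in-items to out-items with few descents -/

theorem exists_max_key {β : Type*} (f : β → ℕ) (I : List β) (hI : I ≠ []) :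
    ∃ a ∈ I, ∀ y ∈ I, f y ≤ f a := by
  induction I with
  | nil => exact (hI rfl).elim
  | cons b I ih =>
    by_cases h : I = []
    · subst h; exact ⟨b, by simp, by simp⟩
    · obtain ⟨a, ha, hmax⟩ := ih h
      by_cases hab : f b ≤ f a
      · refine ⟨a, by simp [ha], ?_⟩
        intro y hy
        rcases List.mem_cons.1 hy with rfl | hy
        · exact hab
        · exact hmax y hy
      · refine ⟨b, by simp, ?_⟩
        intro y hy
        rcases List.mem_cons.1 hy with rfl | hy
        · exact le_rfl
        · exact (hmax y hy).trans (by omega)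

theorem exists_min_key {β : Type*} (f : β → ℕ) (I : List β) (hI : I ≠ []) :
    ∃ a ∈ I, ∀ y ∈ I, f a ≤ f y := by
  induction I with
  | nil => exact (hI rfl).elim
  | cons b I ih =>
    by_cases h : I = []
    · subst h; exact ⟨b, by simp, by simp⟩
    · obtain ⟨a, ha, hmin⟩ := ih h
      by_cases hab : f a ≤ f b
      · refine ⟨a, by simp [ha], ?_⟩
        intro y hy
        rcases List.mem_cons.1 hy with rfl | hy
        · exact hab
        · exact hmin y hy
      · refine ⟨b, by simp, ?_⟩
        intro y hy
        rcases List.mem_cons.1 hy with rfl | hy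
        · exact le_rfl
        · exact (by omega : f b ≤ f a).trans (hmin y hy)

theorem countP_le_length' {β : Type*} (p : β → Bool) (l : List β) : l.countP p ≤ l.length :=
  List.countP_le_length

/-- The shifted matching: `h` bounds the deficiency, at most `h` pairs are descents. -/
theorem exists_matching {β γ : Type*} (f : β → ℕ) (g : γ → ℕ) :
    ∀ (n h : ℕ) (I : List β) (O : List γ), I.length = n → O.length = n →
      (∀ x, O.countP (fun o => g o < x) ≤ I.countP (fun i => f i < x) + h) →
      ∃ P : List (β × γ), (P.map Prod.fst).Perm I ∧ (P.map Prod.snd).Perm O ∧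
        P.countP (fun q => g q.2 < f q.1) ≤ h := by
  classical
  intro n
  induction n with
  | zero =>
    intro h I O hI hO _
    have h1 : I = [] := List.length_eq_zero_iff.1 hI
    have h2 : O = [] := List.length_eq_zero_iff.1 hO
    exact ⟨[], by simp [h1], by simp [h2], by simp⟩
  | succ n ih =>
    intro h I O hI hO hx
    have hIne : I ≠ [] := by rintro rfl; simp at hI
    have hOne : O ≠ [] := by rintro rfl; simp at hO
    obtain ⟨a, haI, hamax⟩ := exists_max_key f I hIne
    obtain ⟨b, hbO, hbmax⟩ := exists_max_key g O hOne
    obtain ⟨c, hcO, hcmin⟩ := exists_min_key g O hOne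
    have pI : I.Perm (a :: I.erase a) := List.perm_cons_erase haI
    have lI : (I.erase a).length = n := by
      have := pI.length_eq; simp at this; omega
    have cI : ∀ x, I.countP (fun i => f i < x)
        = (I.erase a).countP (fun i => f i < x) + (if f a < x then 1 else 0) := by
      intro x
      rw [pI.countP_eq, List.countP_cons]
      simp
    by_cases hab : f a ≤ g b
    · -- pair the two maxima
      have pO : O.Perm (b :: O.erase b) := List.perm_cons_erase hbO
      have lO : (O.erase b).length = n := by
        have := pO.length_eq; simp at this; omega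
      have cO : ∀ x, O.countP (fun o => g o < x)
          = (O.erase b).countP (fun o => g o < x) + (if g b < x then 1 else 0) := by
        intro x
        rw [pO.countP_eq, List.countP_cons]
        simp
      obtain ⟨P, p1, p2, p3⟩ := ih h (I.erase a) (O.erase b) lI lO (by
        intro x
        by_cases hax : f a < x
        · have h1 : I.countP (fun i => f i < x) = I.length := by
            rw [List.countP_eq_length]
            intro y hy
            have := hamax y hy
            simp only [decide_eq_true_eq]
            omega
          have h2 := cI x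
          have h3 : (O.erase b).countP (fun o => g o < x) ≤ (O.erase b).length :=
            List.countP_le_length
          simp only [hax, if_true] at h2
          omega
        · have h2 := cI x
          have h3 := cO x
          have hbx : ¬ g b < x := by omega
          simp only [hax, hbx, if_false] at h2 h3
          have := hx x
          omega)
      refine ⟨(a, b) :: P, ?_, ?_, ?_⟩
      · simp only [List.map_cons]
        exact (p1.cons a).trans pI.symm
      · simp only [List.map_cons]
        exact (p2.cons b).trans pO.symm
      · rw [List.countP_cons]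
        have : ¬ g b < f a := by omega
        simp [this]
        exact p3
    · -- all outs are below the largest in: one descent is available
      have hgba : g b < f a := by omega
      have hh : 1 ≤ h := by
        have h1 := hx (f a)
        have h2 : O.countP (fun o => g o < f a) = O.length := by
          rw [List.countP_eq_length]
          intro y hy
          have := hbmax y hy
          simp only [decide_eq_true_eq]
          omega
        have h3 := cI (f a)
        simp only [lt_irrefl, if_false] at h3
        have h4 : (I.erase a).countP (fun i => f i < f a) ≤ (I.erase a).length :=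
          List.countP_le_length
        omega
      have pO : O.Perm (c :: O.erase c) := List.perm_cons_erase hcO
      have lO : (O.erase c).length = n := by
        have := pO.length_eq; simp at this; omega
      have cO : ∀ x, O.countP (fun o => g o < x)
          = (O.erase c).countP (fun o => g o < x) + (if g c < x then 1 else 0) := by
        intro x
        rw [pO.countP_eq, List.countP_cons]
        simp
      obtain ⟨P, p1, p2, p3⟩ := ih (h - 1) (I.erase a) (O.erase c) lI lO (by
        intro x
        by_cases hax : f a < x
        · have h1 : I.countP (fun i => f i < x) = I.length := by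
            rw [List.countP_eq_length]
            intro y hy
            have := hamax y hy
            simp only [decide_eq_true_eq]
            omega
          have h2 := cI x
          have h3 : (O.erase c).countP (fun o => g o < x) ≤ (O.erase c).length :=
            List.countP_le_length
          simp only [hax, if_true] at h2
          omega
        · have h2 := cI x
          have h3 := cO x
          simp only [hax, if_false] at h2
          by_cases hcx : g c < x
          · simp only [hcx, if_true] at h3
            have := hx x
            omega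
          · have h4 : (O.erase c).countP (fun o => g o < x) = 0 := by
              rw [List.countP_eq_zero]
              intro y hy
              have := hcmin y (List.mem_of_mem_erase hy)
              simp only [decide_eq_true_eq]
              omega
            omega)
      refine ⟨(a, c) :: P, ?_, ?_, ?_⟩
      · simp only [List.map_cons]
        exact (p1.cons a).trans pI.symm
      · simp only [List.map_cons]
        exact (p2.cons c).trans pO.symm
      · rw [List.countP_cons]
        split_ifs <;> omega

/-! ### Closed trails from a permutation of arcs -/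

section Perm

variable {V α : Type*}

theorem chain_iter (π : α → α) (src tgt : α → V) (h : ∀ a, tgt a = src (π a)) (n : ℕ) (a : α) :
    chainArcs ((List.iterate π a n).map src ++ [src (π^[n] a)])
      = (List.iterate π a n).map (fun b => (src b, tgt b)) := by
  induction n generalizing a with
  | zero => simp
  | succ n ih =>
    have h0 : List.iterate π a (n + 1) = a :: List.iterate π (π a) n := rfl
    rw [h0, Function.iterate_succ_apply]
    have h1 := ih (π a)
    cases n with
    | zero =>
      simp [h a]
    | succ m =>
      have h2 : List.iterate π (π a) (m + 1) = π a :: List.iterate π (π (π a)) m := rfl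
      rw [h2] at h1 ⊢
      simp only [List.map_cons, List.cons_append, chainArcs_cons_cons] at h1 ⊢
      rw [h1, h a]

theorem dl_iter (r : V → ℕ) (π : α → α) (src : α → V) (n : ℕ) (a : α) :
    dl r ((List.iterate π a (n + 2)).map src)
      = (List.iterate π a n).countP (fun b => r (src (π (π b))) < r (src b)) := by
  induction n generalizing a with
  | zero => simp [List.iterate, dterm]
  | succ n ih =>
    have h0 : List.iterate π a (n + 1 + 2) = a :: List.iterate π (π a) (n + 2) := rfl
    have h1 : List.iterate π (π a) (n + 2) = π a :: π (π a) :: List.iterate π (π (π (π a))) n := rfl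
    have h2 : List.iterate π a (n + 1) = a :: List.iterate π (π a) n := rfl
    rw [h0, h2, List.map_cons, dl_cons, ih (π a), List.countP_cons, h1]
    simp only [List.map_cons, dterm, decide_eq_true_eq]
    omega

end Perm

section Orbits

variable {V α : Type*} [Fintype α] [DecidableEq α] [DecidableEq V]

theorem period_pos (π : Equiv.Perm α) (a : α) : 0 < Function.minimalPeriod π a :=
  Function.minimalPeriod_pos_of_mem_periodicPts (π.injective.mem_periodicPts a)

theorem orbit_closed (π : Equiv.Perm α) (a : α) :
    π^[Function.minimalPeriod π a] a = a := Function.iterate_minimalPeriod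

theorem trails_of_perm (r : V → ℕ) (π : Equiv.Perm α) (src tgt : α → V)
    (h : ∀ a, tgt a = src (π a)) (hfix : ∀ a, π a ≠ a) :
    ∀ (n : ℕ) (S : Finset α), S.card ≤ n → (∀ a ∈ S, π a ∈ S) →
      ∃ Ts : List (List V), (∀ t ∈ Ts, t ≠ []) ∧
        (allArcs Ts).Perm (S.toList.map (fun b => (src b, tgt b))) ∧
        sumD r Ts = S.toList.countP (fun b => r (src (π (π b))) < r (src b)) := by
  intro n
  induction n with
  | zero =>
    intro S hS _
    have : S = ∅ := Finset.card_eq_zero.1 (by omega)
    subst this
    exact ⟨[], by simp, by simp [allArcs], by simp [sumD]⟩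
  | succ n ih =>
    intro S hS hcl
    by_cases hSe : S = ∅
    · subst hSe
      exact ⟨[], by simp, by simp [allArcs], by simp [sumD]⟩
    obtain ⟨a, ha⟩ := Finset.nonempty_iff_ne_empty.2 hSe
    set k := Function.minimalPeriod π a with hk
    have hkpos : 0 < k := period_pos π a
    have hk2 : 2 ≤ k := by
      by_contra hlt
      have h1 : k = 1 := by omega
      have h2 := orbit_closed π a
      rw [← hk, h1] at h2
      exact hfix a h2
    set o := List.iterate π a k with ho
    have hmem : ∀ m, π^[m] a ∈ S := by
      intro m
      induction m with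
      | zero => exact ha
      | succ m ihm =>
        rw [Function.iterate_succ_apply']
        exact hcl _ ihm
    have hoS : ∀ b ∈ o, b ∈ S := by
      intro b hb
      obtain ⟨m, -, rfl⟩ := List.mem_iterate.1 hb
      exact hmem m
    have hond : o.Nodup := by
      rw [ho, ← List.range_map_iterate]
      refine List.Nodup.map_on ?_ List.nodup_range
      intro x hx y hy hxy
      exact Function.iterate_injOn_Iio_minimalPeriod (by simpa using hx) (by simpa using hy) hxy
    set S' := S \ o.toFinset with hS'
    have hcard : S'.card ≤ n := by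
      have h1 : S'.card < S.card := by
        apply Finset.card_lt_card
        refine ⟨Finset.sdiff_subset, fun hsub => ?_⟩
        have h2 : a ∈ S' := hsub ha
        have h3 : a ∈ o := by
          rw [ho, List.mem_iterate]
          exact ⟨0, hkpos, rfl⟩
        exact (Finset.mem_sdiff.1 h2).2 (List.mem_toFinset.2 h3)
      omega
    have hcl' : ∀ b ∈ S', π b ∈ S' := by
      intro b hb
      obtain ⟨hbS, hbo⟩ := Finset.mem_sdiff.1 hb
      refine Finset.mem_sdiff.2 ⟨hcl b hbS, fun hmem' => hbo ?_⟩
      obtain ⟨m, hm, hb'⟩ := List.mem_iterate.1 (List.mem_toFinset.1 hmem')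
      apply List.mem_toFinset.2
      rw [ho, List.mem_iterate]
      cases m with
      | zero =>
        refine ⟨k - 1, by omega, ?_⟩
        have h3 : π (π^[k - 1] a) = a := by
          rw [← Function.iterate_succ_apply' π (k - 1) a]
          have : (k - 1).succ = k := by omega
          rw [this]
          exact orbit_closed π a
        apply π.injective
        rw [hb', h3]
        rfl
      | succ m =>
        refine ⟨m, by omega, ?_⟩
        apply π.injective
        rw [hb', Function.iterate_succ_apply']
    obtain ⟨Ts, t1, t2, t3⟩ := ih S' hcard hcl'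
    set t := o.map src with ht
    have hoa : o = a :: List.iterate π (π a) (k - 1) := by
      rw [ho]
      obtain ⟨k', hk'⟩ : ∃ k', k = k' + 1 := ⟨k - 1, by omega⟩
      rw [hk']
      rfl
    have htne : t ≠ [] := by
      rw [ht, hoa]
      simp
    have htake1 : t.take 1 = [src (π^[k] a)] := by
      rw [orbit_closed π a, ht, hoa]
      simp
    have harcs : arcs t = o.map (fun b => (src b, tgt b)) := by
      unfold arcs
      rw [htake1, ht, ho]
      exact chain_iter π src tgt h k a
    have hDt : D r t = o.countP (fun b => r (src (π (π b))) < r (src b)) := by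
      have h1 : List.iterate π a (k + 2) = o ++ [a, π a] := by
        rw [List.iterate_add, ← ho, orbit_closed π a]
        rfl
      have h2 : t.take 2 = [src a, src (π a)] := by
        obtain ⟨k', hk'⟩ : ∃ k', k = k' + 2 := ⟨k - 2, by omega⟩
        rw [ht, ho, hk']
        rfl
      unfold D
      rw [h2, ← dl_iter r π src k a, h1]
      simp [ht]
    have hperm : (o ++ S'.toList).Perm S.toList := by
      rw [List.perm_ext_iff_of_nodup]
      · intro b
        simp only [List.mem_append, Finset.mem_toList]
        constructor
        · rintro (hb | hb)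
          · exact hoS b hb
          · exact (Finset.mem_sdiff.1 hb).1
        · intro hb
          by_cases hbo : b ∈ o
          · exact Or.inl hbo
          · exact Or.inr (Finset.mem_sdiff.2 ⟨hb, fun h' => hbo (List.mem_toFinset.1 h')⟩)
      · refine List.Nodup.append hond (Finset.nodup_toList _) ?_
        intro b hb hb'
        exact (Finset.mem_sdiff.1 (Finset.mem_toList.1 hb')).2 (List.mem_toFinset.2 hb)
      · exact Finset.nodup_toList _
    refine ⟨t :: Ts, ?_, ?_, ?_⟩
    · intro s hs
      rcases List.mem_cons.1 hs with rfl | hs
      · exact htne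
      · exact t1 s hs
    · simp only [allArcs, List.flatMap_cons] at t2 ⊢
      rw [harcs]
      refine (List.Perm.append_left _ t2).trans ?_
      rw [← List.map_append]
      exact hperm.map _
    · simp only [sumD, List.map_cons, List.sum_cons]
      have t3' : (Ts.map (D r)).sum = _ := t3
      rw [t3', hDt, ← hperm.countP_eq, List.countP_append]

end Orbits

/-! ### The theorem for lines -/

section Main

variable {V : Type*} [Fintype V] [DecidableEq V]

/-- From a pairing of arcs (in-arc, out-arc) at the vertices to closed trails. -/
theorem trails_of_pairs (r : V → ℕ) (col : V → Bool) (A : List (V × V)) (hA : ValidArcs col A)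
    (P : List ((V × V) × (V × V))) (h1 : (P.map Prod.fst).Perm A) (h2 : (P.map Prod.snd).Perm A)
    (hP : ∀ q ∈ P, q.1.2 = q.2.1) :
    ∃ Ts : List (List V), (∀ t ∈ Ts, t ≠ []) ∧ (allArcs Ts).Perm A ∧
      sumD r Ts = P.countP (fun q => r q.2.2 < r q.1.1) := by
  classical
  have hnd1 : (P.map Prod.fst).Nodup := h1.nodup_iff.2 hA.1
  have hnd2 : (P.map Prod.snd).Nodup := h2.nodup_iff.2 hA.1
  have hex : ∀ e : {e // e ∈ A}, ∃ q ∈ P, q.1 = e.1 := by
    intro e
    have : e.1 ∈ P.map Prod.fst := h1.mem_iff.2 e.2
    obtain ⟨q, hq, hqe⟩ := List.mem_map.1 this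
    exact ⟨q, hq, hqe⟩
  let nextQ : {e // e ∈ A} → (V × V) × (V × V) := fun e => (hex e).choose
  have nq1 : ∀ e, nextQ e ∈ P := fun e => (hex e).choose_spec.1
  have nq2 : ∀ e, (nextQ e).1 = e.1 := fun e => (hex e).choose_spec.2
  have hin : ∀ q ∈ P, q.2 ∈ A := fun q hq => h2.mem_iff.1 (List.mem_map.2 ⟨q, hq, rfl⟩)
  let next : {e // e ∈ A} → {e // e ∈ A} := fun e => ⟨(nextQ e).2, hin _ (nq1 e)⟩
  have hinj : Function.Injective next := by
    intro e e' hee
    have h3 : (nextQ e).2 = (nextQ e').2 := congrArg Subtype.val hee
    have h4 : nextQ e = nextQ e' := List.inj_on_of_nodup_map hnd2 (nq1 e) (nq1 e') h3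
    apply Subtype.ext
    rw [← nq2 e, ← nq2 e', h4]
  let π : Equiv.Perm {e // e ∈ A} := Equiv.ofBijective next (Finite.injective_iff_bijective.1 hinj)
  have hπ : ∀ e, π e = next e := fun _ => rfl
  let src : {e // e ∈ A} → V := fun e => e.1.1
  let tgt : {e // e ∈ A} → V := fun e => e.1.2
  have hst : ∀ a, tgt a = src (π a) := by
    intro a
    have := hP _ (nq1 a)
    rw [nq2] at this
    exact this
  have hfix : ∀ a, π a ≠ a := by
    intro a ha
    have h3 := hst a
    rw [ha] at h3
    exact hA.2.2 a.1 a.2 (by
      have : a.1.2 = a.1.1 := h3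
      rw [this])
  obtain ⟨Ts, t1, t2, t3⟩ := trails_of_perm r π src tgt hst hfix _ Finset.univ le_rfl
    (fun _ _ => Finset.mem_univ _)
  have hL : (Finset.univ : Finset {e // e ∈ A}).toList.map Subtype.val |>.Perm A := by
    rw [List.perm_ext_iff_of_nodup]
    · intro b
      constructor
      · intro hb
        obtain ⟨e, -, rfl⟩ := List.mem_map.1 hb
        exact e.2
      · intro hb
        exact List.mem_map.2 ⟨⟨b, hb⟩, Finset.mem_toList.2 (Finset.mem_univ _), rfl⟩
    · exact (Finset.nodup_toList _).map Subtype.val_injective
    · exact hA.1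
  refine ⟨Ts, t1, ?_, ?_⟩
  · refine t2.trans ?_
    have : (Finset.univ : Finset {e // e ∈ A}).toList.map (fun b => (src b, tgt b))
        = (Finset.univ : Finset {e // e ∈ A}).toList.map Subtype.val := rfl
    rw [this]
    exact hL
  · rw [t3]
    -- the pairs of `P` are exactly `(b, π b)`
    have hPperm : ((Finset.univ : Finset {e // e ∈ A}).toList.map
        (fun b => ((b.1, (π b).1) : (V × V) × (V × V)))).Perm P := by
      rw [List.perm_ext_iff_of_nodup]
      · intro q
        simp only [List.mem_map, Finset.mem_toList, Finset.mem_univ, true_and]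
        constructor
        · rintro ⟨b, rfl⟩
          have : nextQ b = (b.1, (π b).1) := by
            apply Prod.ext
            · exact nq2 b
            · rfl
          rw [← this]
          exact nq1 b
        · intro hq
          have hqA : q.1 ∈ A := h1.mem_iff.1 (List.mem_map.2 ⟨q, hq, rfl⟩)
          refine ⟨⟨q.1, hqA⟩, ?_⟩
          have h4 : nextQ ⟨q.1, hqA⟩ = q :=
            List.inj_on_of_nodup_map hnd1 (nq1 _) hq (nq2 _)
          have h5 : ((⟨q.1, hqA⟩ : {e // e ∈ A}).1, (π ⟨q.1, hqA⟩).1) = nextQ ⟨q.1, hqA⟩ := by
            apply Prod.ext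
            · exact (nq2 ⟨q.1, hqA⟩).symm
            · rfl
          rw [h5, h4]
      · refine List.Nodup.of_map Prod.fst ?_
        rw [List.map_map]
        exact hL.nodup_iff.2 hA.1
      · exact List.Nodup.of_map Prod.fst hnd1
    rw [← hPperm.countP_eq, List.countP_map]
    congr 1
    ext b
    simp only [Function.comp_apply]
    have h6 : src (π (π b)) = (π b).1.2 := (hst (π b)).symm
    rw [h6]

/-- **Theorem B for a class**: `A` balanced arcs, bipartite for `col`, `r` injective on each colour
class, the deficiency of the line at `v` is at most `h v`.  Then the arcs split into at most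
`∑ v, h v` simple closed trails. -/
theorem class_cycles (r : V → ℕ) (col : V → Bool) (hr : ∀ x y, col x = col y → r x = r y → x = y)
    (A : List (V × V)) (hA : ValidArcs col A) (h : V → ℕ)
    (hbal : ∀ v, (A.filter (fun p => p.2 = v)).length = (A.filter (fun p => p.1 = v)).length)
    (hdef : ∀ v x, (A.filter (fun p => p.1 = v)).countP (fun p => r p.2 < x)
      ≤ (A.filter (fun p => p.2 = v)).countP (fun p => r p.1 < x) + h v) :
    ∃ Cs : List (List V), (∀ t ∈ Cs, t ≠ [] ∧ t.Nodup) ∧ (allArcs Cs).Perm A ∧
      Cs.length ≤ ∑ v, h v := by
  classical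
  have hm : ∀ v, ∃ P : List ((V × V) × (V × V)),
      (P.map Prod.fst).Perm (A.filter (fun p => p.2 = v)) ∧
      (P.map Prod.snd).Perm (A.filter (fun p => p.1 = v)) ∧
      P.countP (fun q => r q.2.2 < r q.1.1) ≤ h v := by
    intro v
    exact exists_matching (fun p : V × V => r p.1) (fun p : V × V => r p.2) _ (h v)
      (A.filter (fun p => p.2 = v)) (A.filter (fun p => p.1 = v)) rfl (hbal v).symm (hdef v)
  choose P p1 p2 p3 using hm
  let vs : List V := (Finset.univ : Finset V).toList
  have hvs : vs.Nodup := Finset.nodup_toList _
  have hvm : ∀ v, v ∈ vs := fun v => Finset.mem_toList.2 (Finset.mem_univ v)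
  let Q : List ((V × V) × (V × V)) := vs.flatMap P
  have hflat : ∀ (key : V × V → V), (vs.flatMap (fun v => A.filter (fun p => key p = v))).Perm A := by
    intro key
    rw [List.perm_ext_iff_of_nodup]
    · intro b
      simp only [List.mem_flatMap, List.mem_filter, decide_eq_true_eq]
      exact ⟨fun ⟨_, _, hb, _⟩ => hb, fun hb => ⟨key b, hvm _, hb, rfl⟩⟩
    · refine List.nodup_flatMap.2 ⟨fun v _ => hA.1.filter _, ?_⟩
      refine hvs.imp ?_
      intro x y hxy b hbx hby
      simp only [List.mem_filter, decide_eq_true_eq] at hbx hby
      exact hxy (hbx.2.symm.trans hby.2)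
    · exact hA.1
  have hq1 : (Q.map Prod.fst).Perm A := by
    have : Q.map Prod.fst = vs.flatMap (fun v => (P v).map Prod.fst) := by
      simp [Q, List.map_flatMap]
    rw [this]
    refine List.Perm.trans ?_ (hflat Prod.snd)
    exact List.Perm.flatMap_left _ (fun v _ => p1 v)
  have hq2 : (Q.map Prod.snd).Perm A := by
    have : Q.map Prod.snd = vs.flatMap (fun v => (P v).map Prod.snd) := by
      simp [Q, List.map_flatMap]
    rw [this]
    refine List.Perm.trans ?_ (hflat Prod.fst)
    exact List.Perm.flatMap_left _ (fun v _ => p2 v)
  have hQ : ∀ q ∈ Q, q.1.2 = q.2.1 := by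
    intro q hq
    obtain ⟨v, -, hqv⟩ := List.mem_flatMap.1 hq
    have h1 : q.1 ∈ A.filter (fun p => p.2 = v) := (p1 v).mem_iff.1 (List.mem_map.2 ⟨q, hqv, rfl⟩)
    have h2 : q.2 ∈ A.filter (fun p => p.1 = v) := (p2 v).mem_iff.1 (List.mem_map.2 ⟨q, hqv, rfl⟩)
    simp only [List.mem_filter, decide_eq_true_eq] at h1 h2
    rw [h1.2, h2.2]
  obtain ⟨Ts, t1, t2, t3⟩ := trails_of_pairs r col A hA Q hq1 hq2 hQ
  obtain ⟨Cs, c1, c2, c3⟩ := winding r col hr Ts t1 (hA.perm t2.symm)
  refine ⟨Cs, c1, c2.trans t2, ?_⟩
  have hcount : Q.countP (fun q => r q.2.2 < r q.1.1) ≤ ∑ v, h v := by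
    have : ∀ (l : List V), (l.flatMap P).countP (fun q => r q.2.2 < r q.1.1) ≤ (l.map h).sum := by
      intro l
      induction l with
      | nil => simp
      | cons a l ih =>
        simp only [List.flatMap_cons, List.countP_append, List.map_cons, List.sum_cons]
        have := p3 a
        omega
    have h4 : Q.countP (fun q => r q.2.2 < r q.1.1) ≤ (vs.map h).sum := this vs
    have h5 : (vs.map h).sum = ∑ v, h v := by
      simp [vs]
    omega
  omega

end Main

/-- A labelled bipartite class on `V`: the input of Theorem B. -/
structure EGClass (V : Type*) [Fintype V] [DecidableEq V] where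
  /-- rank, injective on each colour class -/
  r : V → ℕ
  /-- the two roles -/
  col : V → Bool
  hr : ∀ x y, col x = col y → r x = r y → x = y
  /-- the arcs of the class, with their traversal direction -/
  A : List (V × V)
  hA : ValidArcs col A
  /-- deficiency bound of the line at `v` -/
  h : V → ℕ
  hbal : ∀ v, (A.filter (fun p => p.2 = v)).length = (A.filter (fun p => p.1 = v)).length
  hdef : ∀ v x, (A.filter (fun p => p.1 = v)).countP (fun p => r p.2 < x)
    ≤ (A.filter (fun p => p.2 = v)).countP (fun p => r p.1 < x) + h v

/-- The cost of a class. -/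
def EGClass.cost {V : Type*} [Fintype V] [DecidableEq V] (c : EGClass V) : ℕ := ∑ v, c.h v

/-- **S0064 from classes**: it suffices to give, for every graph, a list of labelled bipartite classes
(edge-disjoint) and a list of single edges covering the edges, with total cost plus singles `≤ C n`. -/
theorem s0064_of_classes (C : ℕ)
    (hyp : ∀ (V : Type) [Fintype V] [DecidableEq V] (G : SimpleGraph V),
      ∃ (cl : List (EGClass V)) (Ss : List (Sym2 V)),
        (∀ p ∈ cl.flatMap EGClass.A, G.Adj p.1 p.2) ∧
        (cl.flatMap EGClass.A).Nodup ∧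
        (∀ p ∈ cl.flatMap EGClass.A, (p.2, p.1) ∉ cl.flatMap EGClass.A) ∧
        (∀ e ∈ Ss, e ∈ G.edgeSet) ∧ Ss.Nodup ∧
        (∀ p ∈ cl.flatMap EGClass.A, s(p.1, p.2) ∉ Ss) ∧
        (∀ e ∈ G.edgeSet, e ∈ Ss ∨ ∃ p ∈ cl.flatMap EGClass.A, s(p.1, p.2) = e) ∧
        (cl.map EGClass.cost).sum + Ss.length ≤ C * Fintype.card V) :
    ∃ C : ℝ, ∀ (V : Type) [Fintype V] (G : SimpleGraph V),
      ∃ (m : ℕ) (f : Sym2 V → Fin m), (m : ℝ) ≤ C * Fintype.card V ∧
        ∀ i : Fin m, G.edgeSet ∩ f ⁻¹' {i} = ∅ ∨
          (∃ e ∈ G.edgeSet, G.edgeSet ∩ f ⁻¹' {i} = {e}) ∨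
          (∃ (u : V) (w : G.Walk u u), w.IsCycle ∧ {e | e ∈ w.edges} = G.edgeSet ∩ f ⁻¹' {i}) := by
  refine s0064_of_bound C ?_
  intro V _ _ G
  obtain ⟨cl, Ss, h1, h2, h3, h4, h5, h6, h7, h8⟩ := hyp V G
  -- all cycles of all classes
  have hall : ∀ (l : List (EGClass V)), ∃ Cs : List (List V), (∀ t ∈ Cs, t ≠ [] ∧ t.Nodup) ∧
      (allArcs Cs).Perm (l.flatMap EGClass.A) ∧ Cs.length ≤ (l.map EGClass.cost).sum := by
    intro l
    induction l with
    | nil => exact ⟨[], by simp, by simp [allArcs], by simp⟩
    | cons c l ih =>
      obtain ⟨Cs, c1, c2, c3⟩ := ih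
      obtain ⟨Ds, d1, d2, d3⟩ := class_cycles c.r c.col c.hr c.A c.hA c.h c.hbal c.hdef
      refine ⟨Ds ++ Cs, ?_, ?_, ?_⟩
      · intro t ht
        rcases List.mem_append.1 ht with ht | ht
        · exact d1 t ht
        · exact c1 t ht
      · simp only [allArcs, List.flatMap_append, List.flatMap_cons] at c2 d2 ⊢
        exact d2.append c2
      · simp only [List.length_append, List.map_cons, List.sum_cons]
        have : Ds.length ≤ c.cost := d3
        omega
  obtain ⟨Cs, c1, c2, c3⟩ := hall cl
  refine ⟨Cs, Ss, c1, ?_, c2.nodup_iff.2 h2, ?_, h4, h5, ?_, ?_, by omega⟩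
  · intro p hp
    exact h1 p (c2.mem_iff.1 hp)
  · intro p hp hq
    exact h3 p (c2.mem_iff.1 hp) (c2.mem_iff.1 hq)
  · intro p hp
    exact h6 p (c2.mem_iff.1 hp)
  · intro e he
    rcases h7 e he with h | ⟨p, hp, hpe⟩
    · exact Or.inl h
    · exact Or.inr ⟨p, c2.mem_iff.2 hp, hpe⟩

end Crest.Agent.Lib.EG.Winding
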