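import Mathlib

/-!
# Descents and vertex-simple closed chains (row 45, S0064)

Scheme independent part of the winding argument.

`A` is a finite set of arcs, `tl hd : α → V`, `r : α → β` is ANY rank in a linear order and
`σ` is a bijection of `A` with `hd a = tl (σ a)`.  A descent of `σ` is an arc with
`r (σ a) < r a`.  Then `A` splits into vertex-simple closed chains `C` with
`∑ cdesc C ≤ D σ + #chains`.
-/

namespace Crest.Agent.Lib.EG.Peel

open Finset

variable {α V β : Type*} [DecidableEq α] [DecidableEq V] [LinearOrder β]

/-- Number of descents of `σ` on `A`. -/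
def descOn (r : α → β) (σ : α → α) (A : Finset α) : ℕ :=
  ∑ a ∈ A, if r (σ a) < r a then 1 else 0

/-- The four point lemma: swapping the successors of `a` and `b` creates at most one descent. -/
lemma four_point (r : α → β) (a b x y : α) :
    (if r y < r a then 1 else 0) + (if r x < r b then 1 else 0) ≤
      (if r x < r a then 1 else 0) + (if r y < r b then 1 else 0) + 1 := by
  split_ifs <;> first | omega | (exfalso; order)

/-- descents along a chain, closing up at `x`. -/
def chainDesc (r : α → β) (x : α) : List α → ℕ
  | [] => 0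
  | [a] => if r x < r a then 1 else 0
  | a :: b :: t => (if r b < r a then 1 else 0) + chainDesc r x (b :: t)

/-- cyclic descents of a list. -/
def cdesc (r : α → β) : List α → ℕ
  | [] => 0
  | x :: t => chainDesc r x (x :: t)

/-- vertex-simple closed chain of arcs. -/
structure Closed (tl hd : α → V) (C : List α) : Prop where
  ne : C ≠ []
  chain : C.IsChain (fun a b => hd a = tl b)
  closes : hd (C.getLast ne) = tl (C.head ne)
  tails : (C.map tl).Nodup

/-- the segment `s, σ s, …, σ^(k-1) s`. -/
def seg (σ : α → α) (s : α) (k : ℕ) : List α := (List.range k).map (fun l => σ^[l] s)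

lemma exists_segment (tl : α → V) (A : Finset α) (σ : α → α) (hmaps : ∀ a ∈ A, σ a ∈ A)
    (hne : A.Nonempty) :
    ∃ s ∈ A, ∃ k, 1 ≤ k ∧ tl (σ^[k] s) = tl s ∧
      ∀ l < k, ∀ l' < k, tl (σ^[l] s) = tl (σ^[l'] s) → l = l' := by
  classical
  obtain ⟨a₀, ha₀⟩ := hne
  have hit : ∀ l, σ^[l] a₀ ∈ A := by
    intro l
    induction l with
    | zero => simpa using ha₀
    | succ n ih =>
      rw [Function.iterate_succ_apply']
      exact hmaps _ ih
  -- pigeonhole
  have hex : ∃ j, ∃ i < j, tl (σ^[i] a₀) = tl (σ^[j] a₀) := by
    set N := (A.image tl).card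
    have hmapsTo : ∀ l ∈ Finset.range (N + 1), tl (σ^[l] a₀) ∈ A.image tl := fun l _ =>
      Finset.mem_image_of_mem _ (hit l)
    obtain ⟨x, hx, y, hy, hxy, he⟩ := Finset.exists_ne_map_eq_of_card_lt_of_maps_to
      (by simp [N]) hmapsTo
    rcases lt_or_gt_of_ne hxy with h | h
    · exact ⟨y, x, h, he⟩
    · exact ⟨x, y, h, he.symm⟩
  classical
  set j := Nat.find hex with hj
  obtain ⟨i, hij, hij'⟩ := Nat.find_spec hex
  have hmin : ∀ b < j, ∀ a < b, tl (σ^[a] a₀) ≠ tl (σ^[b] a₀) := by
    intro b hb a hab he
    exact Nat.find_min hex hb ⟨a, hab, he⟩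
  refine ⟨σ^[i] a₀, hit i, j - i, by omega, ?_, ?_⟩
  · rw [← Function.iterate_add_apply, show j - i + i = j by omega]
    exact hij'.symm
  · intro l hl l' hl' he
    rw [← Function.iterate_add_apply, ← Function.iterate_add_apply] at he
    by_contra hne
    rcases lt_or_gt_of_ne hne with h | h
    · exact hmin (l' + i) (by omega) (l + i) (by omega) he
    · exact hmin (l + i) (by omega) (l' + i) (by omega) he.symm

lemma chainDesc_seg (r : α → β) (σ : α → α) (x s : α) (k : ℕ) :
    chainDesc r x (seg σ s (k + 1)) =
      (∑ l ∈ Finset.range k, if r (σ^[l + 1] s) < r (σ^[l] s) then 1 else 0) +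
        (if r x < r (σ^[k] s) then 1 else 0) := by
  induction k generalizing s with
  | zero => simp [seg, chainDesc]
  | succ n ih =>
    have h1 : seg σ s (n + 1 + 1) = s :: seg σ (σ s) (n + 1) := by
      simp only [seg]
      rw [List.range_succ_eq_map, List.map_cons, List.map_map]
      simp only [Function.iterate_zero, id]
      congr 1
    have h2 : ∃ t, seg σ (σ s) (n + 1) = σ s :: t := by
      simp only [seg]
      rw [List.range_succ_eq_map, List.map_cons]
      exact ⟨_, rfl⟩
    obtain ⟨t, ht⟩ := h2
    rw [h1, ht, chainDesc, ← ht, ih (σ s), Finset.sum_range_succ']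
    simp only [Function.iterate_succ_apply, Function.iterate_zero, id, zero_add]
    ac_rfl

lemma seg_succ (σ : α → α) (s : α) (k : ℕ) : ∃ t, seg σ s (k + 1) = s :: t := by
  simp only [seg]
  rw [List.range_succ_eq_map, List.map_cons]
  exact ⟨_, rfl⟩

lemma cdesc_seg (r : α → β) (σ : α → α) (s : α) (k : ℕ) :
    cdesc r (seg σ s (k + 1)) =
      (∑ l ∈ Finset.range k, if r (σ^[l + 1] s) < r (σ^[l] s) then 1 else 0) +
        (if r s < r (σ^[k] s) then 1 else 0) := by
  obtain ⟨t, ht⟩ := seg_succ σ s k
  rw [← chainDesc_seg, ht, cdesc]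

lemma seg_getLast (σ : α → α) (s : α) (k : ℕ) (h : seg σ s (k + 1) ≠ []) :
    (seg σ s (k + 1)).getLast h = σ^[k] s := by
  simp [seg, List.range_succ]

lemma seg_head (σ : α → α) (s : α) (k : ℕ) (h : seg σ s (k + 1) ≠ []) :
    (seg σ s (k + 1)).head h = s := by
  obtain ⟨t, ht⟩ := seg_succ σ s k
  simp [ht]

lemma seg_isChain (hd tl : α → V) (σ : α → α) (s : α) (k : ℕ)
    (h : ∀ l, hd (σ^[l] s) = tl (σ^[l + 1] s)) :
    (seg σ s k).IsChain (fun a b => hd a = tl b) := by
  induction k generalizing s with
  | zero => simp [seg]
  | succ n ih =>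
    obtain ⟨t, ht⟩ := seg_succ σ s n
    have h1 : seg σ s (n + 1) = s :: seg σ (σ s) n := by
      simp only [seg]
      rw [List.range_succ_eq_map, List.map_cons, List.map_map]
      simp only [Function.iterate_zero, id]
      congr 1
    rw [h1]
    have h2 : (seg σ (σ s) n).IsChain (fun a b => hd a = tl b) := by
      apply ih
      intro l
      have := h (l + 1)
      simpa [Function.iterate_succ_apply] using this
    cases hn : n with
    | zero => simp [seg]
    | succ m =>
      obtain ⟨t', ht'⟩ := seg_succ σ (σ s) m
      subst hn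
      rw [ht'] at h2 ⊢
      refine List.IsChain.cons_cons ?_ h2
      have := h 0
      simpa using this

/-- Peeling: every bijection of a finite arc set gives a partition into vertex-simple closed chains
whose cyclic descents are bounded by `D σ + #chains`. -/
theorem peel (tl hd : α → V) (r : α → β) :
    ∀ (n : ℕ) (A : Finset α) (σ : α → α), A.card = n → (∀ a ∈ A, σ a ∈ A) → Set.InjOn σ A →
      (∀ a ∈ A, hd a = tl (σ a)) →
      ∃ Cs : List (List α), (∀ C ∈ Cs, Closed tl hd C) ∧ Cs.flatten.Nodup ∧
        (∀ a, a ∈ Cs.flatten ↔ a ∈ A) ∧ (Cs.map (cdesc r)).sum ≤ descOn r σ A + Cs.length := by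
  intro n
  induction n using Nat.strong_induction_on with
  | _ n IH =>
  intro A σ hcard hmaps hinj hht
  rcases A.eq_empty_or_nonempty with hA | hne
  · subst hA
    exact ⟨[], by simp, by simp, by simp, by simp⟩
  obtain ⟨s, hs, k, hk1, hkclose, hkinj⟩ := exists_segment tl A σ hmaps hne
  obtain ⟨k', rfl⟩ : ∃ k', k = k' + 1 := ⟨k - 1, by omega⟩
  set e : ℕ → α := fun l => σ^[l] s with he
  have heA : ∀ l, e l ∈ A := by
    intro l
    induction l with
    | zero => simpa [he] using hs
    | succ m ih =>
      have : e (m + 1) = σ (e m) := by simp [he, Function.iterate_succ_apply']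
      rw [this]
      exact hmaps _ ih
  have hsucc : ∀ l, e (l + 1) = σ (e l) := by
    intro l; simp [he, Function.iterate_succ_apply']
  have hhd : ∀ l, hd (e l) = tl (e (l + 1)) := by
    intro l; rw [hsucc]; exact hht _ (heA l)
  have htlinj : ∀ l < k' + 1, ∀ l' < k' + 1, tl (e l) = tl (e l') → l = l' := hkinj
  have heinj : ∀ l < k' + 1, ∀ l' < k' + 1, e l = e l' → l = l' := by
    intro l hl l' hl' h
    exact htlinj l hl l' hl' (by rw [h])
  have he0 : e 0 = s := by simp [he]
  -- predecessor of s
  have hsurj : Set.SurjOn σ A A := by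
    have := Finset.surjOn_of_injOn_of_card_le (s := A) (t := A) σ (fun a ha => hmaps a ha) hinj le_rfl
    simpa using this
  obtain ⟨p, hpA, hps⟩ := hsurj hs
  set T : Finset α := (Finset.range (k' + 1)).image e with hT
  have hmemT : ∀ a, a ∈ T ↔ ∃ l < k' + 1, e l = a := by
    intro a; simp [hT]
  have hTsub : T ⊆ A := by
    intro a ha
    obtain ⟨l, _, rfl⟩ := (hmemT a).1 ha
    exact heA l
  set σ' : α → α := fun x => if x = p then e (k' + 1) else σ x with hσ'
  set A' := A \ T with hA'
  have hsT : s ∈ T := (hmemT s).2 ⟨0, by omega, he0⟩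
  -- closed off: images of non-T elements other than p avoid T
  have havoid : ∀ x ∈ A', x ≠ p → σ x ∉ T := by
    intro x hx hxp hmem
    obtain ⟨l, hl, hel⟩ := (hmemT _).1 hmem
    have hxA : x ∈ A := (Finset.mem_sdiff.1 hx).1
    have hxT : x ∉ T := (Finset.mem_sdiff.1 hx).2
    cases l with
    | zero =>
      rw [he0, ← hps] at hel
      exact hxp (hinj hxA hpA hel.symm)
    | succ m =>
      rw [hsucc] at hel
      have : e m = x := hinj (heA m) hxA hel
      exact hxT ((hmemT x).2 ⟨m, by omega, this⟩)
  have hmemseg : ∀ a, a ∈ seg σ s (k' + 1) ↔ a ∈ T := by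
    intro a
    rw [hmemT, seg, List.mem_map]
    simp only [List.mem_range]
    rfl
  have hcard' : A'.card < n := by
    rw [← hcard]
    exact Finset.card_lt_card ⟨Finset.sdiff_subset, fun h => (Finset.mem_sdiff.1 (h hs)).2 hsT⟩
  have hsegnd : (seg σ s (k' + 1)).Nodup := by
    apply List.Nodup.map_on _ List.nodup_range
    intro x hx y hy hxy
    exact heinj x (by simpa using hx) y (by simpa using hy) hxy
  have hclosed : Closed tl hd (seg σ s (k' + 1)) := by
    refine ⟨?_, ?_, ?_, ?_⟩
    · obtain ⟨t, ht⟩ := seg_succ σ s k'
      simp [ht]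
    · exact seg_isChain hd tl σ s _ hhd
    · rw [seg_getLast, seg_head]
      rw [show hd (σ^[k'] s) = hd (e k') from rfl, hhd]
      exact hkclose
    · simp only [seg, List.map_map]
      apply List.Nodup.map_on _ List.nodup_range
      intro x hx y hy hxy
      exact htlinj x (by simpa using hx) y (by simpa using hy) hxy
  have hfinal : ∀ σ'' : α → α, (∀ a ∈ A', σ'' a ∈ A') → Set.InjOn σ'' A' →
      (∀ a ∈ A', hd a = tl (σ'' a)) →
      cdesc r (seg σ s (k' + 1)) + descOn r σ'' A' ≤ descOn r σ A + 1 →
      ∃ Cs : List (List α), (∀ C ∈ Cs, Closed tl hd C) ∧ Cs.flatten.Nodup ∧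
        (∀ a, a ∈ Cs.flatten ↔ a ∈ A) ∧ (Cs.map (cdesc r)).sum ≤ descOn r σ A + Cs.length := by
    intro σ'' h1 h2 h3 h4
    obtain ⟨Cs, hC, hnd, hmem, hsum⟩ := IH _ hcard' A' σ'' rfl h1 h2 h3
    refine ⟨seg σ s (k' + 1) :: Cs, ?_, ?_, ?_, ?_⟩
    · intro C hC'
      rcases List.mem_cons.1 hC' with rfl | h
      · exact hclosed
      · exact hC C h
    · rw [List.flatten_cons, List.nodup_append]
      refine ⟨hsegnd, hnd, ?_⟩
      intro a ha b hb hab
      subst hab
      exact (Finset.mem_sdiff.1 ((hmem a).1 hb)).2 ((hmemseg a).1 ha)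
    · intro a
      rw [List.flatten_cons, List.mem_append, hmem, hmemseg]
      constructor
      · rintro (h | h)
        · exact hTsub h
        · exact (Finset.mem_sdiff.1 h).1
      · intro h
        by_cases hT' : a ∈ T
        · exact Or.inl hT'
        · exact Or.inr (Finset.mem_sdiff.2 ⟨h, hT'⟩)
    · simp only [List.map_cons, List.sum_cons, List.length_cons]
      omega
  -- the split of the count
  have hsplit : descOn r σ A = (∑ l ∈ Finset.range k', if r (e (l + 1)) < r (e l) then 1 else 0) +
      (if r (e (k' + 1)) < r (e k') then 1 else 0) + descOn r σ A' := by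
    have h1 : descOn r σ A = ∑ a ∈ T, (if r (σ a) < r a then 1 else 0) + descOn r σ A' := by
      unfold descOn
      rw [add_comm, Finset.sum_sdiff hTsub]
    have h2 : ∑ a ∈ T, (if r (σ a) < r a then 1 else 0) =
        ∑ l ∈ Finset.range (k' + 1), if r (e (l + 1)) < r (e l) then 1 else 0 := by
      rw [hT, Finset.sum_image]
      · apply Finset.sum_congr rfl
        intro l _
        rw [hsucc]
      · intro x hx y hy hxy
        exact heinj x (by simpa using hx) y (by simpa using hy) hxy
    rw [h1, h2, Finset.sum_range_succ]
  have hcd : cdesc r (seg σ s (k' + 1)) =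
      (∑ l ∈ Finset.range k', if r (e (l + 1)) < r (e l) then 1 else 0) +
        (if r s < r (e k') then 1 else 0) := cdesc_seg r σ s k'
  by_cases hpT : p ∈ T
  · -- the segment is a full orbit
    obtain ⟨l, hl, hel⟩ := (hmemT p).1 hpT
    have hl' : l = k' := by
      by_contra hne
      have h1 : e (l + 1) = e 0 := by rw [hsucc, hel, hps, he0]
      have := heinj (l + 1) (by omega) 0 (by omega) h1
      omega
    subst hl'
    have hek : e (l + 1) = s := by rw [hsucc, hel, hps]
    have hA'ne : ∀ x ∈ A', x ≠ p := by
      intro x hx h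
      exact (Finset.mem_sdiff.1 hx).2 (h ▸ hpT)
    have hmaps' : ∀ a ∈ A', σ a ∈ A' := by
      intro a ha
      exact Finset.mem_sdiff.2 ⟨hmaps a (Finset.mem_sdiff.1 ha).1, havoid a ha (hA'ne a ha)⟩
    refine hfinal σ hmaps' (hinj.mono (by intro x hx; exact (Finset.mem_sdiff.1 hx).1))
      (fun a ha => hht a (Finset.mem_sdiff.1 ha).1) ?_
    rw [hsplit, hcd, hek]
    omega
  · -- splice
    have hpA' : p ∈ A' := Finset.mem_sdiff.2 ⟨hpA, hpT⟩
    have hekT : e (k' + 1) ∉ T := by
      intro hmem
      obtain ⟨l, hl, hel⟩ := (hmemT _).1 hmem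
      cases l with
      | zero =>
        -- σ (e k') = s = σ p
        rw [he0, hsucc, ← hps] at hel
        have : p = e k' := hinj hpA (heA k') hel
        exact hpT ((hmemT p).2 ⟨k', by omega, this.symm⟩)
      | succ m =>
        have h1 : tl (e (m + 1)) = tl (e 0) := by
          rw [hel, he0]; exact hkclose
        have := htlinj (m + 1) hl 0 (by omega) h1
        omega
    have hmaps' : ∀ a ∈ A', σ' a ∈ A' := by
      intro a ha
      by_cases hap : a = p
      · simp only [hσ', hap, if_true]
        exact Finset.mem_sdiff.2 ⟨heA _, hekT⟩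
      · simp only [hσ', hap, if_false]
        exact Finset.mem_sdiff.2 ⟨hmaps a (Finset.mem_sdiff.1 ha).1, havoid a ha hap⟩
    have hinj' : Set.InjOn σ' A' := by
      intro x hx y hy hxy
      have hxA := (Finset.mem_sdiff.1 hx).1
      have hyA := (Finset.mem_sdiff.1 hy).1
      have hxT := (Finset.mem_sdiff.1 hx).2
      have hyT := (Finset.mem_sdiff.1 hy).2
      simp only [hσ'] at hxy
      by_cases hxp : x = p <;> by_cases hyp : y = p
      · rw [hxp, hyp]
      · simp only [hxp, hyp, if_true, if_false] at hxy
        rw [hsucc] at hxy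
        have : e k' = y := hinj (heA _) hyA hxy
        exact absurd ((hmemT y).2 ⟨k', by omega, this⟩) hyT
      · simp only [hxp, hyp, if_true, if_false] at hxy
        rw [hsucc] at hxy
        have : x = e k' := hinj hxA (heA _) hxy
        exact absurd ((hmemT x).2 ⟨k', by omega, this.symm⟩) hxT
      · simp only [hxp, hyp, if_false] at hxy
        exact hinj hxA hyA hxy
    have hht' : ∀ a ∈ A', hd a = tl (σ' a) := by
      intro a ha
      by_cases hap : a = p
      · simp only [hσ', hap, if_true]
        rw [hht p hpA, hps]
        exact hkclose.symm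
      · simp only [hσ', hap, if_false]
        exact hht a (Finset.mem_sdiff.1 ha).1
    refine hfinal σ' hmaps' hinj' hht' ?_
    have h1 : descOn r σ' A' = descOn r σ' (A'.erase p) + (if r (e (k' + 1)) < r p then 1 else 0) := by
      unfold descOn
      rw [← Finset.sum_erase_add _ _ hpA']
      simp [hσ']
    have h2 : descOn r σ A' = descOn r σ (A'.erase p) + (if r s < r p then 1 else 0) := by
      unfold descOn
      rw [← Finset.sum_erase_add _ _ hpA', hps]
    have h3 : descOn r σ' (A'.erase p) = descOn r σ (A'.erase p) := by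
      unfold descOn
      apply Finset.sum_congr rfl
      intro x hx
      simp only [hσ', (Finset.mem_erase.1 hx).1, if_false]
    have h4 := four_point r (e k') p (e (k' + 1)) s
    rw [hsplit, hcd, h1, h2, h3]
    omega

/-! ### Local ballot lemma -/

/-- Ballot lemma: if at every cut at most `M` more out-arcs than in-arcs lie below the cut, there is
a bijection from in-arcs to out-arcs with at most `M` descents. -/
theorem ballot (r : α → β) :
    ∀ (n : ℕ) (I O : Finset α) (M : ℕ), I.card = n → O.card = n →
      (∀ x : β, (O.filter (fun o => r o < x)).card ≤ (I.filter (fun i => r i < x)).card + M) →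
      ∃ π : α → α, (∀ i ∈ I, π i ∈ O) ∧ Set.InjOn π I ∧
        (I.filter (fun i => r (π i) < r i)).card ≤ M := by
  intro n
  induction n with
  | zero =>
    intro I O M hI hO _
    have : I = ∅ := Finset.card_eq_zero.1 hI
    subst this
    exact ⟨id, by simp, by simp, by simp⟩
  | succ n ih =>
    intro I O M hI hO hcut
    have hIne : I.Nonempty := Finset.card_pos.1 (by omega)
    have hOne : O.Nonempty := Finset.card_pos.1 (by omega)
    obtain ⟨i, hi, himax⟩ := Finset.exists_max_image I r hIne
    have hIcard : (I.erase i).card = n := by rw [Finset.card_erase_of_mem hi]; omega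
    have hfilterI : ∀ x, ((I.erase i).filter (fun a => r a < x)).card =
        (I.filter (fun a => r a < x)).card - (if r i < x then 1 else 0) := by
      intro x
      rw [Finset.filter_erase]
      split_ifs with h
      · rw [Finset.card_erase_of_mem (Finset.mem_filter.2 ⟨hi, h⟩)]
      · rw [Finset.erase_eq_of_notMem (show i ∉ I.filter (fun a => r a < x) from fun hm => h (Finset.mem_filter.1 hm).2)]; simp
    have hIpos : ∀ x, r i < x → 1 ≤ (I.filter (fun a => r a < x)).card := by
      intro x hx
      exact Finset.card_pos.2 ⟨i, Finset.mem_filter.2 ⟨hi, hx⟩⟩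
    have hfilterO : ∀ (o : α), o ∈ O → ∀ x, ((O.erase o).filter (fun a => r a < x)).card =
        (O.filter (fun a => r a < x)).card - (if r o < x then 1 else 0) := by
      intro o ho x
      rw [Finset.filter_erase]
      split_ifs with h
      · rw [Finset.card_erase_of_mem (Finset.mem_filter.2 ⟨ho, h⟩)]
      · rw [Finset.erase_eq_of_notMem (show o ∉ O.filter (fun a => r a < x) from fun hm => h (Finset.mem_filter.1 hm).2)]; simp
    have hOpos : ∀ (o : α), o ∈ O → ∀ x, r o < x → 1 ≤ (O.filter (fun a => r a < x)).card := by
      intro o ho x hx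
      exact Finset.card_pos.2 ⟨o, Finset.mem_filter.2 ⟨ho, hx⟩⟩
    -- final assembly of `π`
    have hfinal : ∀ (o : α) (M' : ℕ), o ∈ O → M' + (if r o < r i then 1 else 0) ≤ M →
        (∀ x : β, ((O.erase o).filter (fun a => r a < x)).card ≤
          ((I.erase i).filter (fun a => r a < x)).card + M') →
        ∃ π : α → α, (∀ i ∈ I, π i ∈ O) ∧ Set.InjOn π I ∧
          (I.filter (fun i => r (π i) < r i)).card ≤ M := by
      intro o M' ho hM' hc
      obtain ⟨π, h1, h2, h3⟩ := ih (I.erase i) (O.erase o) M' hIcard
        (by rw [Finset.card_erase_of_mem ho]; omega) hc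
      refine ⟨fun a => if a = i then o else π a, ?_, ?_, ?_⟩
      · intro a ha
        by_cases hai : a = i
        · simp [hai, ho]
        · simp only [hai, if_false]
          exact (Finset.mem_erase.1 (h1 a (Finset.mem_erase.2 ⟨hai, ha⟩))).2
      · intro a ha b hb hab
        by_cases hai : a = i <;> by_cases hbi : b = i
        · rw [hai, hbi]
        · simp only [hai, hbi, if_true, if_false] at hab
          exact absurd hab.symm (Finset.mem_erase.1 (h1 b (Finset.mem_erase.2 ⟨hbi, hb⟩))).1
        · simp only [hai, hbi, if_true, if_false] at hab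
          exact absurd hab (Finset.mem_erase.1 (h1 a (Finset.mem_erase.2 ⟨hai, ha⟩))).1
        · simp only [hai, hbi, if_false] at hab
          exact h2 (Finset.mem_erase.2 ⟨hai, ha⟩) (Finset.mem_erase.2 ⟨hbi, hb⟩) hab
      · have hsplit : I.filter (fun a => r ((fun a => if a = i then o else π a) a) < r a) ⊆
            insert i ((I.erase i).filter (fun a => r (π a) < r a)) := by
          intro a ha
          have ha' := Finset.mem_filter.1 ha
          by_cases hai : a = i
          · simp [hai]
          · simp only [hai, if_false] at ha'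
            exact Finset.mem_insert_of_mem (Finset.mem_filter.2 ⟨Finset.mem_erase.2 ⟨hai, ha'.1⟩, ha'.2⟩)
        by_cases hdesc : r o < r i
        · have := Finset.card_le_card hsplit
          have h4 := Finset.card_insert_le i ((I.erase i).filter (fun a => r (π a) < r a))
          simp only [hdesc, if_true] at hM'
          omega
        · have hsub2 : I.filter (fun a => r ((fun a => if a = i then o else π a) a) < r a) ⊆
              (I.erase i).filter (fun a => r (π a) < r a) := by
            intro a ha
            have ha' := Finset.mem_filter.1 ha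
            by_cases hai : a = i
            · subst hai
              simp only [if_true] at ha'
              exact absurd ha'.2 hdesc
            · simp only [hai, if_false] at ha'
              exact Finset.mem_filter.2 ⟨Finset.mem_erase.2 ⟨hai, ha'.1⟩, ha'.2⟩
          have := Finset.card_le_card hsub2
          simp only [hdesc, if_false] at hM'
          omega
    by_cases hup : ∃ o ∈ O, r i ≤ r o
    · -- forward partner: the lowest out-arc above `i`
      obtain ⟨o₁, ho₁, hio₁⟩ := hup
      have hne : (O.filter (fun o => r i ≤ r o)).Nonempty := ⟨o₁, Finset.mem_filter.2 ⟨ho₁, hio₁⟩⟩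
      obtain ⟨o, ho, homin⟩ := Finset.exists_min_image _ r hne
      have hoO := (Finset.mem_filter.1 ho).1
      have hio := (Finset.mem_filter.1 ho).2
      refine hfinal o M hoO (by simp [not_lt.2 hio]) ?_
      intro x
      rw [hfilterI x, hfilterO o hoO x]
      by_cases h1 : r i < x
      · by_cases h2 : r o < x
        · have := hcut x
          have := hIpos x h1
          have := hOpos o hoO x h2
          simp only [h1, h2, if_true]
          omega
        · -- between i and o
          simp only [h1, h2, if_true, if_false]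
          have h2' : x ≤ r o := not_lt.1 h2
          have hsub : O.filter (fun a => r a < x) ⊆ O.filter (fun a => r a < r i) := by
            intro a ha
            have ha' := Finset.mem_filter.1 ha
            refine Finset.mem_filter.2 ⟨ha'.1, ?_⟩
            by_contra hcon
            have := homin a (Finset.mem_filter.2 ⟨ha'.1, not_lt.1 hcon⟩)
            exact absurd (lt_of_lt_of_le ha'.2 h2') (not_lt.2 this)
          have hc1 := Finset.card_le_card hsub
          have hc2 := hcut (r i)
          have hc3 : (I.filter (fun a => r a < r i)).card + 1 ≤ (I.filter (fun a => r a < x)).card := by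
            have : insert i (I.filter (fun a => r a < r i)) ⊆ I.filter (fun a => r a < x) := by
              intro a ha
              rcases Finset.mem_insert.1 ha with rfl | ha
              · exact Finset.mem_filter.2 ⟨hi, h1⟩
              · have ha' := Finset.mem_filter.1 ha
                exact Finset.mem_filter.2 ⟨ha'.1, lt_trans ha'.2 h1⟩
            have h5 := Finset.card_le_card this
            rw [Finset.card_insert_of_notMem (by simp)] at h5
            exact h5
          omega
      · have h2 : ¬ r o < x := fun h => h1 (lt_of_le_of_lt hio h)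
        simp only [h1, h2, if_false]
        simpa using hcut x
    · -- no forward partner: wrap
      simp only [not_exists, not_and, not_le] at hup
      obtain ⟨o, ho, homin⟩ := Finset.exists_min_image O r hOne
      have hc := hcut (r i)
      have hOall : (O.filter (fun a => r a < r i)).card = n + 1 := by
        rw [Finset.filter_true_of_mem hup]; exact hO
      have hIle : (I.filter (fun a => r a < r i)).card ≤ n := by
        have : I.filter (fun a => r a < r i) ⊆ I.erase i := by
          intro a ha
          have ha' := Finset.mem_filter.1 ha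
          refine Finset.mem_erase.2 ⟨?_, ha'.1⟩
          rintro rfl
          exact lt_irrefl _ ha'.2
        have := Finset.card_le_card this
        omega
      have hMpos : 1 ≤ M := by omega
      refine hfinal o (M - 1) ho (by simp only [hup o ho, if_true]; omega) ?_
      intro x
      rw [hfilterI x, hfilterO o ho x]
      by_cases h1 : r i < x
      · have hI : (I.filter (fun a => r a < x)).card = n + 1 := by
          rw [Finset.filter_true_of_mem]
          · exact hI
          · intro a ha
            exact lt_of_le_of_lt (himax a ha) h1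
        have h2 : r o < x := lt_trans (hup o ho) h1
        have hO' : (O.filter (fun a => r a < x)).card ≤ n + 1 := by
          rw [← hO]; exact Finset.card_filter_le _ _
        simp only [h1, h2, if_true]
        omega
      · by_cases h2 : r o < x
        · have := hcut x
          have := hOpos o ho x h2
          simp only [h1, h2, if_true, if_false]
          omega
        · have : (O.filter (fun a => r a < x)).card = 0 := by
            rw [Finset.card_eq_zero, Finset.filter_eq_empty_iff]
            intro a ha
            exact not_lt.2 (le_trans (not_lt.1 h2) (homin a ha))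
          omega

/-! ### Global assembly -/

/-- Global form of the ballot lemma: local cut conditions give a transition system with total
number of descents at most `∑ M v`. -/
theorem exists_transition [Fintype V] (tl hd : α → V) (r : α → β) (A : Finset α) (M : V → ℕ)
    (hbal : ∀ v, (A.filter (fun a => hd a = v)).card = (A.filter (fun a => tl a = v)).card)
    (hcut : ∀ v x, ((A.filter (fun a => tl a = v)).filter (fun a => r a < x)).card ≤
      ((A.filter (fun a => hd a = v)).filter (fun a => r a < x)).card + M v) :
    ∃ σ : α → α, (∀ a ∈ A, σ a ∈ A) ∧ Set.InjOn σ A ∧ (∀ a ∈ A, hd a = tl (σ a)) ∧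
      descOn r σ A ≤ ∑ v, M v := by
  classical
  have hπ : ∀ v, ∃ π : α → α, (∀ i ∈ A.filter (fun a => hd a = v), π i ∈ A.filter (fun a => tl a = v)) ∧
      Set.InjOn π (A.filter (fun a => hd a = v)) ∧
      ((A.filter (fun a => hd a = v)).filter (fun i => r (π i) < r i)).card ≤ M v := by
    intro v
    exact ballot r _ _ _ (M v) rfl (hbal v).symm (hcut v)
  choose π h1 h2 h3 using hπ
  refine ⟨fun a => π (hd a) a, ?_, ?_, ?_, ?_⟩
  · intro a ha
    exact (Finset.mem_filter.1 (h1 (hd a) a (Finset.mem_filter.2 ⟨ha, rfl⟩))).1
  · intro a ha b hb hab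
    have ha' : a ∈ A.filter (fun x => hd x = hd a) := Finset.mem_filter.2 ⟨ha, rfl⟩
    have hb' : b ∈ A.filter (fun x => hd x = hd b) := Finset.mem_filter.2 ⟨hb, rfl⟩
    have e1 := (Finset.mem_filter.1 (h1 _ a ha')).2
    have e2 := (Finset.mem_filter.1 (h1 _ b hb')).2
    have hv : hd a = hd b := by
      have : tl (π (hd a) a) = tl (π (hd b) b) := congrArg tl hab
      rw [e1, e2] at this
      exact this
    have hb'' : b ∈ A.filter (fun x => hd x = hd a) := Finset.mem_filter.2 ⟨hb, hv.symm⟩
    refine h2 (hd a) ha' hb'' ?_
    simpa [hv] using hab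
  · intro a ha
    exact ((Finset.mem_filter.1 (h1 (hd a) a (Finset.mem_filter.2 ⟨ha, rfl⟩))).2).symm
  · unfold descOn
    rw [← Finset.sum_fiberwise A hd]
    apply Finset.sum_le_sum
    intro v _
    rw [← Finset.card_filter]
    have hsub : ((A.filter (fun a => hd a = v)).filter (fun a => r (π (hd a) a) < r a)) =
        ((A.filter (fun a => hd a = v)).filter (fun i => r (π v i) < r i)) := by
      apply Finset.filter_congr
      intro a ha
      rw [(Finset.mem_filter.1 ha).2]
    rw [hsub]
    exact h3 v

/-- Combined: local cut conditions give a partition of `A` into vertex-simple closed chains with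
`∑ cdesc C ≤ ∑ M v + #chains`. -/
theorem decomp [Fintype V] (tl hd : α → V) (r : α → β) (A : Finset α) (M : V → ℕ)
    (hbal : ∀ v, (A.filter (fun a => hd a = v)).card = (A.filter (fun a => tl a = v)).card)
    (hcut : ∀ v x, ((A.filter (fun a => tl a = v)).filter (fun a => r a < x)).card ≤
      ((A.filter (fun a => hd a = v)).filter (fun a => r a < x)).card + M v) :
    ∃ Cs : List (List α), (∀ C ∈ Cs, Closed tl hd C) ∧ Cs.flatten.Nodup ∧
      (∀ a, a ∈ Cs.flatten ↔ a ∈ A) ∧ (Cs.map (cdesc r)).sum ≤ ∑ v, M v + Cs.length := by
  obtain ⟨σ, h1, h2, h3, h4⟩ := exists_transition tl hd r A M hbal hcut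
  obtain ⟨Cs, c1, c2, c3, c4⟩ := peel tl hd r _ A σ rfl h1 h2 h3
  exact ⟨Cs, c1, c2, c3, by omega⟩

end Crest.Agent.Lib.EG.Peel
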