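import Mathlib
import Crest.Agent.Lib.EG.Peel

/-!
# Pairing and orientation (row 45)

Pair consecutive edges at every vertex, orient the closed trails: cut height at most one.
-/

namespace Crest.Agent.Lib.EG.Peel

open Finset

/-- Pair the elements of a finite set of even size consecutively with respect to a rank `s`:
at most one pair crosses any cut. -/
lemma exists_pairing {γ β : Type*} [DecidableEq γ] [LinearOrder β] (s : γ → β) :
    ∀ (n : ℕ) (S : Finset γ), S.card = n → Even n →
      ∃ q : γ → γ, (∀ a ∈ S, q a ∈ S ∧ q a ≠ a ∧ q (q a) = a) ∧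
        ∀ x, (S.filter (fun a => s a < x ∧ ¬ s (q a) < x)).card ≤ 1 := by
  intro n
  induction n using Nat.strong_induction_on with
  | _ n IH =>
  intro S hS hev
  rcases S.eq_empty_or_nonempty with rfl | hne
  · exact ⟨id, by simp, by simp⟩
  obtain ⟨a₁, ha₁, hmin₁⟩ := Finset.exists_min_image S s hne
  have hcard₁ : (S.erase a₁).card = n - 1 := by rw [Finset.card_erase_of_mem ha₁, hS]
  have hnpos : 0 < n := by rw [← hS]; exact Finset.card_pos.2 hne
  have hn2 : 2 ≤ n := by
    rcases hev with ⟨k, rfl⟩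
    omega
  have hne₂ : (S.erase a₁).Nonempty := Finset.card_pos.1 (by omega)
  obtain ⟨a₂, ha₂, hmin₂⟩ := Finset.exists_min_image (S.erase a₁) s hne₂
  have ha₂S : a₂ ∈ S := (Finset.mem_erase.1 ha₂).2
  have ha₁₂ : a₂ ≠ a₁ := (Finset.mem_erase.1 ha₂).1
  set S' := (S.erase a₁).erase a₂ with hS'
  have hcard' : S'.card = n - 2 := by
    rw [hS', Finset.card_erase_of_mem ha₂, hcard₁]; omega
  have hev' : Even (n - 2) := by
    rcases hev with ⟨k, rfl⟩
    exact ⟨k - 1, by omega⟩
  obtain ⟨q', hq', hcut'⟩ := IH (n - 2) (by omega) S' hcard' hev'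
  have hmemS' : ∀ a, a ∈ S' ↔ a ≠ a₂ ∧ a ≠ a₁ ∧ a ∈ S := by
    intro a; simp [hS', Finset.mem_erase]
  refine ⟨fun a => if a = a₁ then a₂ else if a = a₂ then a₁ else q' a, ?_, ?_⟩
  · intro a ha
    by_cases h1 : a = a₁
    · subst h1
      simp [ha₂S, ha₁₂, ha₁₂.symm]
    · by_cases h2 : a = a₂
      · subst h2
        simp [h1, ha₁, Ne.symm h1]
      · have ha' : a ∈ S' := (hmemS' a).2 ⟨h2, h1, ha⟩
        obtain ⟨c1, c2, c3⟩ := hq' a ha'
        obtain ⟨d1, d2, d3⟩ := (hmemS' _).1 c1
        simp [h1, h2, d1, d2, d3, c2, c3]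
  · intro x
    set q := fun a => if a = a₁ then a₂ else if a = a₂ then a₁ else q' a with hq
    have hq1 : q a₁ = a₂ := by simp [hq]
    have hq2 : q a₂ = a₁ := by simp [hq, ha₁₂]
    have hq3 : ∀ a, a ≠ a₁ → a ≠ a₂ → q a = q' a := by
      intro a h1 h2; simp [hq, h1, h2]
    by_cases hx : x ≤ s a₂
    · have hsub : S.filter (fun a => s a < x ∧ ¬ s (q a) < x) ⊆ {a₁} := by
        intro a ha
        have ha' := Finset.mem_filter.1 ha
        by_contra hne
        have hne' : a ≠ a₁ := by simpa using hne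
        have : s a₂ ≤ s a := hmin₂ a (Finset.mem_erase.2 ⟨hne', ha'.1⟩)
        exact absurd ha'.2.1 (not_lt.2 (le_trans hx this))
      simpa using Finset.card_le_card hsub
    · have hx' : s a₂ < x := not_le.1 hx
      have hsub : S.filter (fun a => s a < x ∧ ¬ s (q a) < x) ⊆
          S'.filter (fun a => s a < x ∧ ¬ s (q' a) < x) := by
        intro a ha
        have ha' := Finset.mem_filter.1 ha
        have h1 : a ≠ a₁ := by
          rintro rfl
          rw [hq1] at ha'
          exact ha'.2.2 hx'
        have h2 : a ≠ a₂ := by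
          rintro rfl
          rw [hq2] at ha'
          exact ha'.2.2 (lt_of_le_of_lt (hmin₁ _ ha₂S) hx')
        rw [hq3 a h1 h2] at ha'
        exact Finset.mem_filter.2 ⟨(hmemS' a).2 ⟨h2, h1, ha'.1⟩, ha'.2⟩
      exact le_trans (Finset.card_le_card hsub) (hcut' x)

/-- Orientation of the closed trails of a transition system. -/
lemma exists_orientation {X : Type*} [Fintype X] [DecidableEq X] (p : Equiv.Perm X) (rev : X → X)
    (hrev : ∀ x, rev (rev x) = x) (hconj : ∀ x, rev (p (rev (p x))) = x)
    (h1 : ∀ x, rev x ≠ x) (h2 : ∀ x, p x ≠ rev x) :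
    ∃ O : Finset X, (∀ x, p x ∈ O ↔ x ∈ O) ∧ (∀ x, rev x ∈ O ↔ x ∉ O) := by
  classical
  -- rev p = p⁻¹ rev
  have hstep : ∀ y, rev (p y) = p⁻¹ (rev y) := by
    intro y
    have h3 := hconj y
    have h4 : p (rev (p y)) = rev y := by
      have := congrArg rev h3
      rwa [hrev] at this
    rw [Equiv.Perm.eq_inv_iff_eq]
    exact h4
  have hpow : ∀ (m : ℕ) y, rev ((p ^ m) y) = (p⁻¹ ^ m) (rev y) := by
    intro m
    induction m with
    | zero => intro y; simp
    | succ k ih =>
      intro y
      rw [pow_succ', Equiv.Perm.mul_apply, hstep, ih, pow_succ', Equiv.Perm.mul_apply]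
  have hno : ∀ x, ¬ p.SameCycle x (rev x) := by
    intro x hx
    obtain ⟨k, -, hk⟩ := hx.exists_pow_eq'
    have hcancel : ∀ (m : ℕ) (y : X), (p⁻¹ ^ m) ((p ^ m) y) = y := by
      intro m y
      rw [inv_pow]
      simp
    rcases Nat.even_or_odd' k with ⟨m, rfl | rfl⟩
    · apply h1 ((p ^ m) x)
      rw [hpow, ← hk, two_mul, pow_add, Equiv.Perm.mul_apply, hcancel]
    · apply h2 ((p ^ m) x)
      rw [hpow, ← hk, show 2 * m + 1 = m + (m + 1) by ring, pow_add, Equiv.Perm.mul_apply, hcancel,
        pow_succ', Equiv.Perm.mul_apply]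
  let ι : X → ℕ := fun x => (Fintype.equivFin X x : ℕ)
  have hι : Function.Injective ι := fun a b h => (Fintype.equivFin X).injective (Fin.ext h)
  let m : X → ℕ := fun x => sInf (ι '' {y | p.SameCycle x y})
  have hmeq : ∀ x y, p.SameCycle x y → m x = m y := by
    intro x y h
    have : {z | p.SameCycle x z} = {z | p.SameCycle y z} := by
      ext z
      exact ⟨fun hz => h.symm.trans hz, fun hz => h.trans hz⟩
    simp only [m, this]
  have hmne : ∀ x y, m x = m y → p.SameCycle x y := by
    intro x y h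
    have hx : (ι '' {z | p.SameCycle x z}).Nonempty := ⟨ι x, x, Equiv.Perm.SameCycle.refl _ _, rfl⟩
    have hy : (ι '' {z | p.SameCycle y z}).Nonempty := ⟨ι y, y, Equiv.Perm.SameCycle.refl _ _, rfl⟩
    obtain ⟨a, ha, hae⟩ := Nat.sInf_mem hx
    obtain ⟨b, hb, hbe⟩ := Nat.sInf_mem hy
    have : a = b := hι (by rw [hae, hbe]; exact h)
    subst this
    exact Equiv.Perm.SameCycle.trans ha (Equiv.Perm.SameCycle.symm hb)
  have hmp : ∀ x, m (p x) = m x := by
    intro x
    apply hmeq
    exact (Equiv.Perm.sameCycle_apply_left.2 (Equiv.Perm.SameCycle.refl _ _))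
  have hmrevp : ∀ x, m (rev (p x)) = m (rev x) := by
    intro x
    rw [hstep]
    apply hmeq
    exact ⟨1, by simp⟩
  refine ⟨univ.filter (fun x => m x < m (rev x)), ?_, ?_⟩
  · intro x
    simp only [Finset.mem_filter, Finset.mem_univ, true_and]
    rw [hmp, hmrevp]
  · intro x
    simp only [Finset.mem_filter, Finset.mem_univ, true_and]
    rw [hrev]
    have hne : m x ≠ m (rev x) := fun h => hno x (hmne _ _ h)
    omega

/-- Even-degree graphs: pairing rule + orientation.  `ρ` is any symmetric rank on pairs. -/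
theorem even_orientation {V β : Type*} [Fintype V] [DecidableEq V] [LinearOrder β]
    (H : SimpleGraph V) [DecidableRel H.Adj] (hev : ∀ v, Even (H.degree v))
    (ρ : V → V → β) (hρ : ∀ x y, ρ x y = ρ y x) :
    ∃ A : Finset H.Dart, (∀ d : H.Dart, d.symm ∈ A ↔ d ∉ A) ∧
      (∀ v, (A.filter (fun a => a.snd = v)).card = (A.filter (fun a => a.fst = v)).card) ∧
      (∀ v x, ((A.filter (fun a => a.fst = v)).filter (fun a => ρ a.fst a.snd < x)).card ≤
        ((A.filter (fun a => a.snd = v)).filter (fun a => ρ a.fst a.snd < x)).card + 1) := by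
  classical
  have hq : ∀ v, ∃ q : V → V, (∀ a ∈ H.neighborFinset v, q a ∈ H.neighborFinset v ∧ q a ≠ a ∧ q (q a) = a) ∧
      ∀ x, ((H.neighborFinset v).filter (fun a => ρ v a < x ∧ ¬ ρ v (q a) < x)).card ≤ 1 := by
    intro v
    exact exists_pairing (fun a => ρ v a) _ _ rfl (by simpa using hev v)
  choose q hq1 hq2 using hq
  have hadj : ∀ (d : H.Dart), H.Adj d.snd (q d.snd d.fst) := by
    intro d
    have h : d.fst ∈ H.neighborFinset d.snd := by
      simpa using d.adj.symm
    simpa using (hq1 d.snd d.fst h).1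
  have hfst : ∀ (d : H.Dart), d.fst ∈ H.neighborFinset d.snd := by
    intro d
    simp [d.adj.symm]
  have hsnd : ∀ (d : H.Dart), d.snd ∈ H.neighborFinset d.fst := by
    intro d
    simpa using d.adj
  let pf : H.Dart → H.Dart := fun d => ⟨(d.snd, q d.snd d.fst), hadj d⟩
  let pb : H.Dart → H.Dart := fun d => ⟨(q d.fst d.snd, d.fst), by
    have := (hq1 d.fst d.snd (hsnd d)).1
    simpa using (SimpleGraph.mem_neighborFinset _ _ _).1 this |>.symm⟩
  have hpfpb : ∀ d, pf (pb d) = d := by
    intro d
    apply SimpleGraph.Dart.ext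
    have := (hq1 d.fst d.snd (hsnd d)).2.2
    simp [pf, pb, this]
  have hpbpf : ∀ d, pb (pf d) = d := by
    intro d
    apply SimpleGraph.Dart.ext
    have := (hq1 d.snd d.fst (hfst d)).2.2
    simp [pf, pb, this]
  let p : Equiv.Perm H.Dart := ⟨pf, pb, hpbpf, hpfpb⟩
  have hp : ∀ d, p d = pf d := fun _ => rfl
  obtain ⟨O, hO1, hO2⟩ := exists_orientation p (fun d => d.symm)
    (fun d => SimpleGraph.Dart.symm_symm d)
    (by
      intro d
      apply SimpleGraph.Dart.ext
      have := (hq1 d.snd d.fst (hfst d)).2.2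
      simp [p, pf, this, SimpleGraph.Dart.symm])
    (fun d => SimpleGraph.Dart.symm_ne d)
    (by
      intro d h
      have h3 := (hq1 d.snd d.fst (hfst d)).2.1
      apply h3
      have := congrArg (fun d : H.Dart => d.snd) h
      simpa [p, pf, SimpleGraph.Dart.symm] using this)
  refine ⟨O, hO2, ?_, ?_⟩
  · -- balance: `pf` is a bijection from in-arcs at `v` to out-arcs at `v`
    intro v
    apply Finset.card_bij (fun d _ => pf d)
    · intro d hd
      have hd' := Finset.mem_filter.1 hd
      refine Finset.mem_filter.2 ⟨(hO1 d).2 hd'.1, hd'.2⟩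
    · intro a _ b _ hab
      have := congrArg pb hab
      rwa [hpbpf, hpbpf] at this
    · intro b hb
      have hb' := Finset.mem_filter.1 hb
      refine ⟨pb b, Finset.mem_filter.2 ⟨?_, hb'.2⟩, hpfpb b⟩
      have := (hO1 (pb b)).1
      rw [hp, hpfpb] at this
      exact this hb'.1
  · intro v x
    -- out-arcs below the cut: `pb` maps them to in-arcs below the cut, except those with
    -- crossing pair
    set Out := (O.filter (fun a => a.fst = v)).filter (fun a => ρ a.fst a.snd < x) with hOut
    set In := (O.filter (fun a => a.snd = v)).filter (fun a => ρ a.fst a.snd < x) with hIn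
    set Cross := (H.neighborFinset v).filter (fun a => ρ v a < x ∧ ¬ ρ v (q v a) < x) with hCross
    have hsub : Out ⊆ (In.image pf) ∪ (Out.filter (fun a => a.snd ∈ Cross)) := by
      intro d hd
      have hd' := Finset.mem_filter.1 hd
      have hd'' := Finset.mem_filter.1 hd'.1
      have hv : d.fst = v := hd''.2
      by_cases hc : d.snd ∈ Cross
      · exact Finset.mem_union_right _ (Finset.mem_filter.2 ⟨hd, hc⟩)
      · apply Finset.mem_union_left
        refine Finset.mem_image.2 ⟨pb d, ?_, hpfpb d⟩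
        have hpbO : pb d ∈ O := by
          have := (hO1 (pb d)).1
          rw [hp, hpfpb] at this
          exact this hd''.1
        have hpbsnd : (pb d).snd = v := hv
        have hpbfst : (pb d).fst = q d.fst d.snd := rfl
        refine Finset.mem_filter.2 ⟨Finset.mem_filter.2 ⟨hpbO, hpbsnd⟩, ?_⟩
        rw [hpbfst, hpbsnd, hv, hρ]
        by_contra hcon
        apply hc
        refine Finset.mem_filter.2 ⟨?_, ?_, hcon⟩
        · have := hsnd d
          rwa [hv] at this
        · have := hd'.2
          rwa [hv] at this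
    have hcardcross : (Out.filter (fun a => a.snd ∈ Cross)).card ≤ 1 := by
      refine le_trans ?_ (hq2 v x)
      apply Finset.card_le_card_of_injOn (fun d => d.snd)
      · intro d hd
        have hd' : d ∈ Out.filter (fun a => a.snd ∈ Cross) := hd
        exact (Finset.mem_filter.1 hd').2
      · intro a ha b hb hab
        have ha0 : a ∈ Out.filter (fun a => a.snd ∈ Cross) := ha
        have hb0 : b ∈ Out.filter (fun a => a.snd ∈ Cross) := hb
        have ha' := (Finset.mem_filter.1 (Finset.mem_filter.1 (Finset.mem_filter.1 ha0).1).1).2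
        have hb' := (Finset.mem_filter.1 (Finset.mem_filter.1 (Finset.mem_filter.1 hb0).1).1).2
        apply SimpleGraph.Dart.ext
        exact Prod.ext (ha'.trans hb'.symm) hab
    calc Out.card ≤ ((In.image pf) ∪ (Out.filter (fun a => a.snd ∈ Cross))).card :=
          Finset.card_le_card hsub
      _ ≤ (In.image pf).card + (Out.filter (fun a => a.snd ∈ Cross)).card := Finset.card_union_le _ _
      _ ≤ In.card + 1 := Nat.add_le_add Finset.card_image_le hcardcross

end Crest.Agent.Lib.EG.Peel
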