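import Mathlib
import Crest.Agent.Lib.EG.Lines
import Crest.Agent.Lib.EG.PeelPairs

/-!
# Skeleton lemma (row 45, S0064)

`H` an even bipartite graph (the interior arcs of a class), `R` a balanced list of arcs (the skeleton),
edge-disjoint from `H`.  Each vertex `v` has a window `[a v, b v)` containing the ranks of all its
`H`-neighbours.  An `R`-in-arc of `v` is *good* if its source has rank `< a v`, an `R`-out-arc is *good* if
its target has rank `≥ b v`.  Then `H` can be oriented so that arcs = (orientation of `H`) ++ `R` is an
`EGClass` with deficiency `bIn v + bOut v + [v has an H-arc and gIn v = 0]`.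
-/

set_option linter.unusedSectionVars false

namespace Crest.Agent.Lib.EG.Skeleton

open Crest.Agent.Lib.EG.Winding
open Crest.Agent.Lib.EG.Peel

variable {V : Type*} [Fintype V] [DecidableEq V]

/-- Number of good in-arcs. -/
def gIn (r : V → ℕ) (R : List (V × V)) (a : V → ℕ) (v : V) : ℕ :=
  (R.filter (fun p => p.2 = v ∧ r p.1 < a v)).length

/-- Number of bad in-arcs. -/
def bIn (r : V → ℕ) (R : List (V × V)) (a : V → ℕ) (v : V) : ℕ :=
  (R.filter (fun p => p.2 = v ∧ ¬ r p.1 < a v)).length

/-- Number of bad out-arcs. -/
def bOut (r : V → ℕ) (R : List (V × V)) (b : V → ℕ) (v : V) : ℕ :=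
  (R.filter (fun p => p.1 = v ∧ ¬ b v ≤ r p.2)).length

/-- The deficiency of the line at `v`: the `+1` only if `v` has an `H`-arc and no good in-arc, so that a
vertex without arcs costs nothing. -/
def skelH (H : SimpleGraph V) [DecidableRel H.Adj] (r : V → ℕ) (R : List (V × V)) (a b : V → ℕ) (v : V) : ℕ :=
  bIn r R a v + bOut r R b v + if (∃ u, H.Adj v u) ∧ gIn r R a v = 0 then 1 else 0

lemma length_filter_map_toList {α β : Type*} [DecidableEq α] (S : Finset α) (f : α → β)
    (P : β → Prop) [DecidablePred P] :
    ((S.toList.map f).filter (fun p => decide (P p))).length = (S.filter (fun a => P (f a))).card := by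
  rw [List.filter_map, List.length_map]
  have h : (S.toList.filter ((fun p => decide (P p)) ∘ f)).Perm (S.filter (fun a => P (f a))).toList := by
    rw [List.perm_ext_iff_of_nodup ((Finset.nodup_toList S).filter _) (Finset.nodup_toList _)]
    intro a
    simp [Finset.mem_filter]
  rw [h.length_eq, Finset.length_toList]

/-- Orientation of an even graph as a list of arcs, with deficiency at most one. -/
theorem exists_even_arcs (H : SimpleGraph V) [DecidableRel H.Adj] (hev : ∀ v, Even (H.degree v))
    (r : V → ℕ) :
    ∃ M : List (V × V), M.Nodup ∧ (∀ p ∈ M, H.Adj p.1 p.2) ∧ (∀ p ∈ M, (p.2, p.1) ∉ M) ∧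
      (∀ x y, H.Adj x y → (x, y) ∈ M ∨ (y, x) ∈ M) ∧
      (∀ v, (M.filter (fun p => p.2 = v)).length = (M.filter (fun p => p.1 = v)).length) ∧
      (∀ v x, (M.filter (fun p => p.1 = v)).countP (fun p => r p.2 < x)
        ≤ (M.filter (fun p => p.2 = v)).countP (fun p => r p.1 < x) + 1) := by
  classical
  obtain ⟨A, h1, h2, h3⟩ := even_orientation H hev (fun x y => r x + r y) (fun x y => Nat.add_comm _ _)
  let f : H.Dart → V × V := fun d => (d.fst, d.snd)
  have hfinj : Function.Injective f := by
    intro d d' h
    apply SimpleGraph.Dart.ext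
    simpa [f] using h
  refine ⟨A.toList.map f, ?_, ?_, ?_, ?_, ?_, ?_⟩
  · exact (List.nodup_map_iff hfinj).2 (Finset.nodup_toList A)
  · intro p hp
    obtain ⟨d, -, rfl⟩ := List.mem_map.1 hp
    exact d.adj
  · intro p hp hq
    obtain ⟨d, hd, rfl⟩ := List.mem_map.1 hp
    obtain ⟨d', hd', he⟩ := List.mem_map.1 hq
    have : d' = d.symm := by
      apply hfinj
      show (d'.fst, d'.snd) = (d.snd, d.fst)
      exact he
    subst this
    have hd1 := Finset.mem_toList.1 hd
    have hd2 := Finset.mem_toList.1 hd'
    exact (h1 d).1 hd2 hd1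
  · intro x y hxy
    let d : H.Dart := ⟨(x, y), hxy⟩
    by_cases hd : d ∈ A
    · left
      exact List.mem_map.2 ⟨d, Finset.mem_toList.2 hd, rfl⟩
    · right
      exact List.mem_map.2 ⟨d.symm, Finset.mem_toList.2 ((h1 d).2 hd), rfl⟩
  · intro v
    have e1 := length_filter_map_toList A f (fun p => p.2 = v)
    have e2 := length_filter_map_toList A f (fun p => p.1 = v)
    rw [e1, e2]
    exact h2 v
  · intro v x
    have key := h3 v (r v + x)
    rw [List.countP_eq_length_filter, List.countP_eq_length_filter, List.filter_filter,
      List.filter_filter]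
    have e1 := length_filter_map_toList A f (fun p => r p.2 < x ∧ p.1 = v)
    have e2 := length_filter_map_toList A f (fun p => r p.1 < x ∧ p.2 = v)
    have e1' : (A.toList.map f).filter (fun p => decide (r p.2 < x) && decide (p.1 = v))
        = (A.toList.map f).filter (fun p => decide (r p.2 < x ∧ p.1 = v)) := by
      apply List.filter_congr
      intro p _
      simp
    have e2' : (A.toList.map f).filter (fun p => decide (r p.1 < x) && decide (p.2 = v))
        = (A.toList.map f).filter (fun p => decide (r p.1 < x ∧ p.2 = v)) := by
      apply List.filter_congr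
      intro p _
      simp
    rw [e1', e2', e1, e2]
    have c1 : (A.filter (fun d => r (f d).2 < x ∧ (f d).1 = v))
        = (A.filter (fun a => a.fst = v)).filter (fun a => r a.fst + r a.snd < r v + x) := by
      ext d
      simp only [Finset.mem_filter, f]
      constructor
      · rintro ⟨hd, h4, h5⟩
        refine ⟨⟨hd, h5⟩, ?_⟩
        rw [h5]
        omega
      · rintro ⟨⟨hd, h5⟩, h4⟩
        rw [h5] at h4
        exact ⟨hd, by omega, h5⟩
    have c2 : (A.filter (fun d => r (f d).1 < x ∧ (f d).2 = v))
        = (A.filter (fun a => a.snd = v)).filter (fun a => r a.fst + r a.snd < r v + x) := by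
      ext d
      simp only [Finset.mem_filter, f]
      constructor
      · rintro ⟨hd, h4, h5⟩
        refine ⟨⟨hd, h5⟩, ?_⟩
        rw [h5]
        omega
      · rintro ⟨⟨hd, h5⟩, h4⟩
        rw [h5] at h4
        exact ⟨hd, by omega, h5⟩
    rw [c1, c2]
    exact key

lemma length_filter_split {β : Type*} (l : List β) (P Q : β → Prop) [DecidablePred P] [DecidablePred Q] :
    (l.filter (fun p => P p)).length
      = (l.filter (fun p => P p ∧ Q p)).length + (l.filter (fun p => P p ∧ ¬ Q p)).length := by
  induction l with
  | nil => simp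
  | cons q l ih =>
    by_cases h1 : P q <;> by_cases h2 : Q q <;> simp [h1, h2, ih] <;> omega

lemma countP_filter_le_of_imp {β : Type*} (l : List β) (P Q : β → Bool) (h : ∀ p ∈ l, P p = true → Q p = true) :
    l.countP P ≤ l.countP Q := by
  exact List.countP_mono_left h

/-- **Skeleton lemma.** -/
theorem skeleton_class (r : V → ℕ) (col : V → Bool) (hr : ∀ x y, col x = col y → r x = r y → x = y)
    (H : SimpleGraph V) [DecidableRel H.Adj] (hev : ∀ v, Even (H.degree v))
    (hbip : ∀ x y, H.Adj x y → col x ≠ col y)
    (R : List (V × V)) (hR : ValidArcs col R) (hRH : ∀ p ∈ R, ¬ H.Adj p.1 p.2)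
    (hbal : ∀ v, (R.filter (fun p => p.2 = v)).length = (R.filter (fun p => p.1 = v)).length)
    (a b : V → ℕ) (hab : ∀ v, a v ≤ b v) (hwin : ∀ v u, H.Adj v u → a v ≤ r u ∧ r u < b v) :
    ∃ c : EGClass V, c.r = r ∧ c.col = col ∧
      (∀ p ∈ R, p ∈ c.A) ∧
      (∀ p ∈ c.A, p ∈ R ∨ H.Adj p.1 p.2) ∧
      (∀ x y, H.Adj x y → (x, y) ∈ c.A ∨ (y, x) ∈ c.A) ∧
      (∀ v, c.h v = skelH H r R a b v) := by
  classical
  obtain ⟨M, m1, m2, m3, m4, m5, m6⟩ := exists_even_arcs H hev r
  -- the arcs
  have hAv : ValidArcs col (M ++ R) := by
    refine ⟨?_, ?_, ?_⟩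
    · refine List.nodup_append.2 ⟨m1, hR.1, ?_⟩
      intro p hp q hq hpq
      subst hpq
      exact hRH p hq (m2 p hp)
    · intro p hp hq
      rcases List.mem_append.1 hp with hp | hp <;> rcases List.mem_append.1 hq with hq | hq
      · exact m3 p hp hq
      · exact hRH _ hq (m2 p hp).symm
      · exact hRH p hp (m2 _ hq).symm
      · exact hR.2.1 p hp hq
    · intro p hp
      rcases List.mem_append.1 hp with hp | hp
      · exact hbip _ _ (m2 p hp)
      · exact hR.2.2 p hp
  have hbalA : ∀ v, ((M ++ R).filter (fun p => p.2 = v)).length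
      = ((M ++ R).filter (fun p => p.1 = v)).length := by
    intro v
    simp only [List.filter_append, List.length_append]
    rw [m5 v, hbal v]
  -- the deficiency of M
  have hMlow : ∀ v x, x ≤ a v → (M.filter (fun p => p.1 = v)).countP (fun p => r p.2 < x) = 0 := by
    intro v x hx
    rw [List.countP_eq_zero]
    intro p hp
    simp only [List.mem_filter, decide_eq_true_eq] at hp
    have h2 := m2 p hp.1
    rw [hp.2] at h2
    have := (hwin v _ h2).1
    simp only [decide_eq_true_eq]
    omega
  have hMhigh : ∀ v x, b v ≤ x → (M.filter (fun p => p.1 = v)).countP (fun p => r p.2 < x)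
      ≤ (M.filter (fun p => p.2 = v)).countP (fun p => r p.1 < x) := by
    intro v x hx
    have e1 : (M.filter (fun p => p.1 = v)).countP (fun p => r p.2 < x)
        = (M.filter (fun p => p.1 = v)).length := by
      rw [List.countP_eq_length]
      intro p hp
      simp only [List.mem_filter, decide_eq_true_eq] at hp
      have h2 := m2 p hp.1
      rw [hp.2] at h2
      have := (hwin v _ h2).2
      simp only [decide_eq_true_eq]
      omega
    have e2 : (M.filter (fun p => p.2 = v)).countP (fun p => r p.1 < x)
        = (M.filter (fun p => p.2 = v)).length := by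
      rw [List.countP_eq_length]
      intro p hp
      simp only [List.mem_filter, decide_eq_true_eq] at hp
      have h2 := m2 p hp.1
      rw [hp.2] at h2
      have := (hwin v _ h2.symm).2
      simp only [decide_eq_true_eq]
      omega
    rw [e1, e2, m5 v]
  -- decompositions of R at a vertex
  have hin : ∀ v, (R.filter (fun p => p.2 = v)).length = gIn r R a v + bIn r R a v := by
    intro v
    exact length_filter_split R (fun p => p.2 = v) (fun p => r p.1 < a v)
  have hout : ∀ v, (R.filter (fun p => p.1 = v)).length
      = (R.filter (fun p => p.1 = v ∧ b v ≤ r p.2)).length + bOut r R b v := by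
    intro v
    exact length_filter_split R (fun p => p.1 = v) (fun p => b v ≤ r p.2)
  -- R-in count at x lower bound
  have hRin : ∀ v x, a v ≤ x → gIn r R a v
      ≤ (R.filter (fun p => p.2 = v)).countP (fun p => r p.1 < x) := by
    intro v x hx
    rw [List.countP_eq_length_filter, List.filter_filter, gIn]
    apply List.Sublist.length_le
    apply List.monotone_filter_right
    intro p hp
    simp only [Bool.and_eq_true, decide_eq_true_eq] at hp ⊢
    exact ⟨by omega, hp.1⟩
  -- R-out count at x upper bound
  have hRout : ∀ v x, x ≤ b v → (R.filter (fun p => p.1 = v)).countP (fun p => r p.2 < x)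
      ≤ bOut r R b v := by
    intro v x hx
    rw [List.countP_eq_length_filter, List.filter_filter, bOut]
    apply List.Sublist.length_le
    apply List.monotone_filter_right
    intro p hp
    simp only [Bool.and_eq_true, decide_eq_true_eq] at hp ⊢
    exact ⟨hp.2, by omega⟩
  have hRoutTot : ∀ v x, (R.filter (fun p => p.1 = v)).countP (fun p => r p.2 < x)
      ≤ (R.filter (fun p => p.1 = v)).length := fun v x => List.countP_le_length
  -- main inequality
  have hdefA : ∀ v x, ((M ++ R).filter (fun p => p.1 = v)).countP (fun p => r p.2 < x)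
      ≤ ((M ++ R).filter (fun p => p.2 = v)).countP (fun p => r p.1 < x) + skelH H r R a b v := by
    intro v x
    simp only [List.filter_append, List.countP_append]
    have g1 := hab v
    have t1 := m6 v x
    unfold skelH
    by_cases hx1 : x ≤ a v
    · have := hMlow v x hx1
      have t2 := hRout v x (by omega)
      omega
    · by_cases hx2 : b v ≤ x
      · have := hMhigh v x hx2
        have t2 := hRin v x (by omega)
        have t3 := hRoutTot v x
        have t4 := hin v
        have t5 := hbal v
        omega
      · have t2 := hRout v x (by omega)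
        have t3 := hRin v x (by omega)
        by_cases hH : ∃ u, H.Adj v u
        · by_cases h0 : gIn r R a v = 0
          · simp only [hH, h0, and_self, if_true]
            omega
          · simp only [hH, h0, and_false, if_false]
            omega
        · have t6 : (M.filter (fun p => p.1 = v)).countP (fun p => r p.2 < x) = 0 := by
            rw [List.countP_eq_zero]
            intro p hp
            simp only [List.mem_filter, decide_eq_true_eq] at hp
            have h2 := m2 p hp.1
            rw [hp.2] at h2
            exact absurd ⟨_, h2⟩ hH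
          simp only [hH, false_and, if_false]
          omega
  refine ⟨⟨r, col, hr, M ++ R, hAv, skelH H r R a b, hbalA, hdefA⟩, rfl, rfl, ?_, ?_, ?_, ?_⟩
  · intro p hp
    exact List.mem_append_right _ hp
  · intro p hp
    rcases List.mem_append.1 hp with hp | hp
    · exact Or.inr (m2 p hp)
    · exact Or.inl hp
  · intro x y hxy
    rcases m4 x y hxy with h | h
    · exact Or.inl (List.mem_append_left _ h)
    · exact Or.inr (List.mem_append_left _ h)
  · intro v
    rfl

end Crest.Agent.Lib.EG.Skeleton
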