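import Mathlib
import Crest.Agent.Lib.EG.Skeleton

/-!
# The class of a level (row 45, S0064, module M3)

`j : V → ℕ` (the cell of a vertex), `H` even and bipartite with all arcs inside cells, `R` a balanced list of
arcs.  An arc `(x, y)` is *good* if `j y = j x + 1`.  Then `R` plus an orientation of `H` is an `EGClass` of cost
at most `2 * #bad arcs + #{v with an H-arc and no good in-arc}`.

`level_class_zmod`: the same with cells in `ZMod L`, a good arc `j y = j x + 1` in `ZMod L`, for the best cut of
the ring: `L * cost ≤ L * (2 * bad + nogood) + 2 * |R| + n`.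
-/

set_option linter.unusedSectionVars false

namespace Crest.Agent.Lib.EG.Skeleton

open Crest.Agent.Lib.EG.Winding

variable {V : Type*} [Fintype V] [DecidableEq V]

lemma sum_filter_fst (R : List (V × V)) (P : V × V → Prop) [DecidablePred P] :
    ∑ v, (R.filter (fun p => p.1 = v ∧ P p)).length = (R.filter (fun p => P p)).length := by
  induction R with
  | nil => simp
  | cons q R ih =>
    by_cases hq : P q
    · have h1 : ∀ v, ((q :: R).filter (fun p => p.1 = v ∧ P p)).length
          = (R.filter (fun p => p.1 = v ∧ P p)).length + if q.1 = v then 1 else 0 := by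
        intro v
        by_cases h : q.1 = v <;> simp [h, hq]
      simp only [h1, Finset.sum_add_distrib, ih]
      simp [hq]
    · have h1 : ∀ v, ((q :: R).filter (fun p => p.1 = v ∧ P p)).length
          = (R.filter (fun p => p.1 = v ∧ P p)).length := by
        intro v
        simp [hq]
      simp only [h1, ih]
      simp [hq]

lemma sum_filter_snd (R : List (V × V)) (P : V × V → Prop) [DecidablePred P] :
    ∑ v, (R.filter (fun p => p.2 = v ∧ P p)).length = (R.filter (fun p => P p)).length := by
  induction R with
  | nil => simp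
  | cons q R ih =>
    by_cases hq : P q
    · have h1 : ∀ v, ((q :: R).filter (fun p => p.2 = v ∧ P p)).length
          = (R.filter (fun p => p.2 = v ∧ P p)).length + if q.2 = v then 1 else 0 := by
        intro v
        by_cases h : q.2 = v <;> simp [h, hq]
      simp only [h1, Finset.sum_add_distrib, ih]
      simp [hq]
    · have h1 : ∀ v, ((q :: R).filter (fun p => p.2 = v ∧ P p)).length
          = (R.filter (fun p => p.2 = v ∧ P p)).length := by
        intro v
        simp [hq]
      simp only [h1, ih]
      simp [hq]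

lemma length_filter_le_add {β : Type*} (l : List β) (P Q S : β → Prop) [DecidablePred P] [DecidablePred Q]
    [DecidablePred S] (h : ∀ q ∈ l, P q → Q q ∨ S q) :
    (l.filter (fun p => P p)).length ≤ (l.filter (fun p => Q p)).length + (l.filter (fun p => S p)).length := by
  induction l with
  | nil => simp
  | cons q l ih =>
    have hq := h q (by simp)
    have ih' := ih (fun x hx => h x (List.mem_cons_of_mem _ hx))
    by_cases h1 : P q
    · rcases hq h1 with h2 | h2
      · by_cases h3 : S q <;> simp [h1, h2, h3] <;> omega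
      · by_cases h3 : Q q <;> simp [h1, h2, h3] <;> omega
    · by_cases h2 : Q q <;> by_cases h3 : S q <;> simp [h1, h2, h3] <;> omega

/-- The number of bad arcs. -/
def badArcs (j : V → ℕ) (R : List (V × V)) : ℕ :=
  (R.filter (fun p => j p.2 ≠ j p.1 + 1)).length

/-- The vertices with an `H`-arc and no good in-arc. -/
def noGood (H : SimpleGraph V) [DecidableRel H.Adj] (j : V → ℕ) (R : List (V × V)) : Finset V :=
  Finset.univ.filter (fun v => (∃ u, H.Adj v u) ∧ ∀ p ∈ R, p.2 = v → j p.2 ≠ j p.1 + 1)

/-- **The class of a level, linear cells.** -/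
theorem level_class_nat (j : V → ℕ) (col : V → Bool)
    (H : SimpleGraph V) [DecidableRel H.Adj] (hev : ∀ v, Even (H.degree v))
    (hbip : ∀ x y, H.Adj x y → col x ≠ col y) (hcell : ∀ x y, H.Adj x y → j x = j y)
    (R : List (V × V)) (hR : ValidArcs col R) (hRH : ∀ p ∈ R, ¬ H.Adj p.1 p.2)
    (hbal : ∀ v, (R.filter (fun p => p.2 = v)).length = (R.filter (fun p => p.1 = v)).length) :
    ∃ c : EGClass V, c.col = col ∧
      (∀ p ∈ R, p ∈ c.A) ∧
      (∀ p ∈ c.A, p ∈ R ∨ H.Adj p.1 p.2) ∧
      (∀ x y, H.Adj x y → (x, y) ∈ c.A ∨ (y, x) ∈ c.A) ∧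
      c.cost ≤ 2 * badArcs j R + (noGood H j R).card := by
  classical
  let n := Fintype.card V
  let e := Fintype.equivFin V
  let r : V → ℕ := fun v => j v * n + (e v).val
  have hid : ∀ v, (e v).val < n := fun v => (e v).isLt
  have hn : ∀ (a b : ℕ), a < b → a * n + n ≤ b * n := by
    intro a b hab
    have : (a + 1) * n ≤ b * n := Nat.mul_le_mul_right _ hab
    nlinarith
  have hr : ∀ x y, col x = col y → r x = r y → x = y := by
    intro x y _ hxy
    have hx := hid x
    have hy := hid y
    have h1 : j x = j y := by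
      by_contra hne
      rcases lt_or_gt_of_ne hne with h | h
      · have := hn _ _ h
        simp only [r] at hxy
        omega
      · have := hn _ _ h
        simp only [r] at hxy
        omega
    simp only [r, h1] at hxy
    have : (e x).val = (e y).val := by omega
    exact e.injective (Fin.ext this)
  let a : V → ℕ := fun v => j v * n
  let b : V → ℕ := fun v => (j v + 1) * n
  have hab : ∀ v, a v ≤ b v := fun v => Nat.mul_le_mul_right _ (by omega)
  have hwin : ∀ v u, H.Adj v u → a v ≤ r u ∧ r u < b v := by
    intro v u huv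
    have h1 := hcell v u huv
    have h2 := hid u
    simp only [a, b, r, h1]
    constructor
    · omega
    · have : (j u + 1) * n = j u * n + n := by ring
      omega
  obtain ⟨c, c1, c2, c3, c4, c5, c6⟩ := skeleton_class r col hr H hev hbip R hR hRH hbal a b hab hwin
  refine ⟨c, c2, c3, c4, c5, ?_⟩
  have hbadIn : ∀ v, bIn r R a v ≤ (R.filter (fun p => p.2 = v ∧ j p.2 ≠ j p.1 + 1)).length := by
    intro v
    apply List.Sublist.length_le
    apply List.monotone_filter_right
    intro p hp
    simp only [decide_eq_true_eq] at hp ⊢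
    refine ⟨hp.1, ?_⟩
    intro hg
    apply hp.2
    have h3 := hid p.1
    simp only [r, a, ← hp.1, hg]
    have : (j p.1 + 1) * n = j p.1 * n + n := by ring
    omega
  have hbadOut : ∀ v, bOut r R b v ≤ (R.filter (fun p => p.1 = v ∧ j p.2 ≠ j p.1 + 1)).length := by
    intro v
    apply List.Sublist.length_le
    apply List.monotone_filter_right
    intro p hp
    simp only [decide_eq_true_eq] at hp ⊢
    refine ⟨hp.1, ?_⟩
    intro hg
    apply hp.2
    simp only [r, b, ← hp.1, hg]
    omega
  have hlast : ∀ v, (if (∃ u, H.Adj v u) ∧ gIn r R a v = 0 then 1 else 0)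
      ≤ (if v ∈ noGood H j R then 1 else 0) := by
    intro v
    by_cases h : (∃ u, H.Adj v u) ∧ gIn r R a v = 0
    · have hmem : v ∈ noGood H j R := by
        simp only [noGood, Finset.mem_filter, Finset.mem_univ, true_and]
        refine ⟨h.1, ?_⟩
        intro p hp hpv hg
        have h0 : gIn r R a v = 0 := h.2
        rw [gIn, List.length_eq_zero_iff, List.filter_eq_nil_iff] at h0
        apply h0 p hp
        simp only [decide_eq_true_eq]
        refine ⟨hpv, ?_⟩
        have h3 := hid p.1
        simp only [r, a, ← hpv, hg]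
        have : (j p.1 + 1) * n = j p.1 * n + n := by ring
        omega
      simp [h, hmem]
    · simp [h]
  have hsum : c.cost ≤ ∑ v, ((R.filter (fun p => p.2 = v ∧ j p.2 ≠ j p.1 + 1)).length
      + (R.filter (fun p => p.1 = v ∧ j p.2 ≠ j p.1 + 1)).length
      + (if v ∈ noGood H j R then 1 else 0)) := by
    rw [EGClass.cost]
    apply Finset.sum_le_sum
    intro v _
    rw [c6 v, skelH]
    have := hbadIn v
    have := hbadOut v
    have := hlast v
    omega
  refine le_trans hsum ?_
  rw [Finset.sum_add_distrib, Finset.sum_add_distrib,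
    sum_filter_snd R (fun p => j p.2 ≠ j p.1 + 1), sum_filter_fst R (fun p => j p.2 ≠ j p.1 + 1)]
  have h9 : ∑ v, (if v ∈ noGood H j R then 1 else 0) = (noGood H j R).card := by
    simp [Finset.sum_ite_mem]
  rw [h9, badArcs]
  omega

/-- **The class of a level, cells on the ring `ZMod L`, best cut.** -/
theorem level_class_zmod (L : ℕ) [NeZero L] (j : V → ZMod L) (col : V → Bool)
    (H : SimpleGraph V) [DecidableRel H.Adj] (hev : ∀ v, Even (H.degree v))
    (hbip : ∀ x y, H.Adj x y → col x ≠ col y) (hcell : ∀ x y, H.Adj x y → j x = j y)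
    (R : List (V × V)) (hR : ValidArcs col R) (hRH : ∀ p ∈ R, ¬ H.Adj p.1 p.2)
    (hbal : ∀ v, (R.filter (fun p => p.2 = v)).length = (R.filter (fun p => p.1 = v)).length) :
    ∃ c : EGClass V, c.col = col ∧
      (∀ p ∈ R, p ∈ c.A) ∧
      (∀ p ∈ c.A, p ∈ R ∨ H.Adj p.1 p.2) ∧
      (∀ x y, H.Adj x y → (x, y) ∈ c.A ∨ (y, x) ∈ c.A) ∧
      L * c.cost ≤ L * (2 * (R.filter (fun p => j p.2 ≠ j p.1 + 1)).length
          + (Finset.univ.filter (fun v => (∃ u, H.Adj v u) ∧ ∀ p ∈ R, p.2 = v → j p.2 ≠ j p.1 + 1)).card)
        + 2 * R.length + Fintype.card V := by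
  classical
  let bad := (R.filter (fun p => j p.2 ≠ j p.1 + 1)).length
  let ng := Finset.univ.filter (fun v => (∃ u, H.Adj v u) ∧ ∀ p ∈ R, p.2 = v → j p.2 ≠ j p.1 + 1)
  let jx : ZMod L → V → ℕ := fun x0 v => (j v - x0).val
  -- a good arc not entering cell `x0` is a good arc of the linear cells
  have hkey : ∀ (x0 : ZMod L) (p : V × V), j p.2 = j p.1 + 1 → j p.2 ≠ x0 →
      jx x0 p.2 = jx x0 p.1 + 1 := by
    intro x0 p hg hne
    have e1 : j p.2 - x0 = (j p.1 - x0) + 1 := by rw [hg]; ring
    simp only [jx]
    rw [e1]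
    have h1 : (j p.1 - x0).val < L := ZMod.val_lt _
    have h3 : ((j p.1 - x0).val : ZMod L) = j p.1 - x0 := ZMod.natCast_zmod_val _
    by_cases hlt : (j p.1 - x0).val + 1 < L
    · have h6 : (j p.1 - x0) + 1 = (((j p.1 - x0).val + 1 : ℕ) : ZMod L) := by
        push_cast
        rw [h3]
      rw [h6]
      exact ZMod.val_natCast_of_lt hlt
    · exfalso
      have h2 : (j p.1 - x0).val + 1 = L := by omega
      apply hne
      have h4 : (((j p.1 - x0).val + 1 : ℕ) : ZMod L) = 0 := by
        rw [h2]; simp
      have h5 : j p.1 - x0 + 1 = 0 := by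
        rw [← h3]
        simpa using h4
      have : j p.2 - x0 = 0 := by rw [e1]; exact h5
      exact sub_eq_zero.1 this
  have hbad : ∀ x0, badArcs (jx x0) R ≤ bad + (R.filter (fun p => j p.2 = j p.1 + 1 ∧ j p.2 = x0)).length := by
    intro x0
    refine length_filter_le_add R _ _ _ ?_
    intro q _ hq
    by_cases h1 : j q.2 = j q.1 + 1
    · right
      refine ⟨h1, ?_⟩
      by_contra h2
      exact hq (hkey x0 q h1 h2)
    · exact Or.inl h1
  have hng : ∀ x0, (noGood H (jx x0) R).card ≤ ng.card + (Finset.univ.filter (fun v => j v = x0)).card := by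
    intro x0
    refine le_trans (Finset.card_le_card ?_) (Finset.card_union_le _ _)
    intro v hv
    simp only [noGood, Finset.mem_filter, Finset.mem_univ, true_and] at hv
    simp only [Finset.mem_union, Finset.mem_filter, Finset.mem_univ, true_and, ng]
    by_cases hvx : j v = x0
    · exact Or.inr hvx
    · left
      refine ⟨hv.1, ?_⟩
      intro p hp hpv hg
      refine hv.2 p hp hpv (hkey x0 p hg ?_)
      rw [hpv]
      exact hvx
  -- sums over the cut
  have hcross : ∑ x0 : ZMod L, (R.filter (fun p => j p.2 = j p.1 + 1 ∧ j p.2 = x0)).length ≤ R.length := by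
    have : ∀ (l : List (V × V)), ∑ x0 : ZMod L, (l.filter (fun p => j p.2 = j p.1 + 1 ∧ j p.2 = x0)).length
        ≤ l.length := by
      intro l
      induction l with
      | nil => simp
      | cons q l ih =>
        by_cases h1 : j q.2 = j q.1 + 1
        · have h2 : ∀ x0 : ZMod L, ((q :: l).filter (fun p => j p.2 = j p.1 + 1 ∧ j p.2 = x0)).length
              = (l.filter (fun p => j p.2 = j p.1 + 1 ∧ j p.2 = x0)).length + if j q.2 = x0 then 1 else 0 := by
            intro x0
            by_cases h : j q.2 = x0
            · rw [List.filter_cons_of_pos (by simp only [decide_eq_true_eq]; exact ⟨h1, h⟩)]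
              simp only [List.length_cons, h, if_true]
            · rw [List.filter_cons_of_neg (by simp only [decide_eq_true_eq]; exact fun hh => h hh.2)]
              simp only [h, if_false, add_zero]
          simp only [h2, Finset.sum_add_distrib]
          have h3 : ∑ x0 : ZMod L, (if j q.2 = x0 then 1 else 0) = 1 := by simp
          rw [h3, List.length_cons]
          omega
        · have h2 : ∀ x0 : ZMod L, ((q :: l).filter (fun p => j p.2 = j p.1 + 1 ∧ j p.2 = x0)).length
              = (l.filter (fun p => j p.2 = j p.1 + 1 ∧ j p.2 = x0)).length := by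
            intro x0
            rw [List.filter_cons_of_neg (by simp only [decide_eq_true_eq]; exact fun hh => h1 hh.1)]
          simp only [h2, List.length_cons]
          omega
    exact this R
  have hcells : ∑ x0 : ZMod L, (Finset.univ.filter (fun v => j v = x0)).card = Fintype.card V := by
    have := Finset.card_eq_sum_card_fiberwise (s := (Finset.univ : Finset V)) (t := (Finset.univ : Finset (ZMod L)))
      (f := j) (fun _ _ => Finset.mem_univ _)
    rw [Finset.card_univ] at this
    exact this.symm
  have hclass : ∀ x0 : ZMod L, ∃ c : EGClass V, c.col = col ∧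
      (∀ p ∈ R, p ∈ c.A) ∧
      (∀ p ∈ c.A, p ∈ R ∨ H.Adj p.1 p.2) ∧
      (∀ x y, H.Adj x y → (x, y) ∈ c.A ∨ (y, x) ∈ c.A) ∧
      c.cost ≤ 2 * badArcs (jx x0) R + (noGood H (jx x0) R).card := by
    intro x0
    refine level_class_nat (jx x0) col H hev hbip ?_ R hR hRH hbal
    intro x y hxy
    simp only [jx, hcell x y hxy]
  let S : ℕ := L * (2 * bad + ng.card) + 2 * R.length + Fintype.card V
  have hsum : ∑ x0 : ZMod L, L * (2 * badArcs (jx x0) R + (noGood H (jx x0) R).card)
      ≤ ∑ _x0 : ZMod L, S := by
    rw [← Finset.mul_sum, Finset.sum_const, Finset.card_univ, ZMod.card, smul_eq_mul]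
    apply Nat.mul_le_mul_left
    have h1 : ∑ x0 : ZMod L, (2 * badArcs (jx x0) R + (noGood H (jx x0) R).card)
        ≤ ∑ x0 : ZMod L, (2 * (bad + (R.filter (fun p => j p.2 = j p.1 + 1 ∧ j p.2 = x0)).length)
            + (ng.card + (Finset.univ.filter (fun v => j v = x0)).card)) := by
      apply Finset.sum_le_sum
      intro x0 _
      have := hbad x0
      have := hng x0
      omega
    refine le_trans h1 ?_
    simp only [mul_add, Finset.sum_add_distrib, Finset.sum_const, Finset.card_univ, ZMod.card, smul_eq_mul,
      ← Finset.mul_sum, hcells]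
    simp only [S]
    nlinarith [hcross]
  obtain ⟨x0, -, hx0⟩ := Finset.exists_le_of_sum_le (s := (Finset.univ : Finset (ZMod L))) Finset.univ_nonempty hsum
  obtain ⟨c, c1, c2, c3, c4, c5⟩ := hclass x0
  refine ⟨c, c1, c2, c3, c4, ?_⟩
  calc L * c.cost ≤ L * (2 * badArcs (jx x0) R + (noGood H (jx x0) R).card) := Nat.mul_le_mul_left _ c5
    _ ≤ S := hx0

end Crest.Agent.Lib.EG.Skeleton
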