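/-
  Row 45 (S0064), scheme independent tool, no reference to any statement.

  PARITY IN A FINITE MULTIGRAPH.  Arcs `a b : I → V`.  `bd a b J v : ZMod 2` is the parity of the
  degree of `v` in the edge set `J`.  `conn a b H` is the partition of `V` into the components of `H`.

  * `tjoin`: a function `T : V → ZMod 2` of even sum on every component of `H` is the boundary of a
    subset `J ⊆ H`, and `|J| + #components(H) ≤ |V|` (the join is a forest).
  * `numComp_le_sum`: `#components(H) ≤ ∑ v, 1 / (d v + 1)`, `d v` the number of neighbours of `v`.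
  * `even_fix`: for edge sets `N`, `Q` there are `F ⊆ N`, `J ⊆ Q` with `(N \ F) + J` of even degree
    at every vertex, `|F| ≤` the number of components of `Q` touched by `N`.
-/
import Mathlib

set_option autoImplicit false
set_option linter.unusedSectionVars false

open Finset

namespace Crest.Agent.Lib.EG.TJoin

variable {I V : Type*} [Fintype V] [DecidableEq V] [DecidableEq I]

/-- Parity of the degree of `v` in `J`. -/
def bd (a b : I → V) (J : Finset I) (v : V) : ZMod 2 :=
  ∑ e ∈ J, ((if a e = v then 1 else 0) + (if b e = v then 1 else 0))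

@[simp] lemma bd_empty (a b : I → V) (v : V) : bd a b ∅ v = 0 := by simp [bd]

lemma bd_insert (a b : I → V) (J : Finset I) (e : I) (he : e ∉ J) (v : V) :
    bd a b (insert e J) v = ((if a e = v then 1 else 0) + (if b e = v then 1 else 0)) + bd a b J v := by
  simp [bd, Finset.sum_insert he]

/-- The generators of the connectivity relation. -/
def link (a b : I → V) (H : Finset I) (x y : V) : Prop := ∃ e ∈ H, a e = x ∧ b e = y

/-- The partition of `V` into the components of `H`. -/
def conn (a b : I → V) (H : Finset I) : Setoid V := Relation.EqvGen.setoid (link a b H)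

/-- The number of components of `H` (isolated vertices included). -/
noncomputable def numComp (a b : I → V) (H : Finset I) : ℕ := Nat.card (Quotient (conn a b H))

lemma conn_gen (a b : I → V) (H : Finset I) {e : I} (he : e ∈ H) : (conn a b H).r (a e) (b e) :=
  Relation.EqvGen.rel _ _ ⟨e, he, rfl, rfl⟩

lemma conn_mono (a b : I → V) {H H' : Finset I} (h : H ⊆ H') {x y : V} (hxy : (conn a b H).r x y) :
    (conn a b H').r x y := by
  induction hxy with
  | rel x y hr =>
    obtain ⟨e, he, h1, h2⟩ := hr
    exact Relation.EqvGen.rel _ _ ⟨e, h he, h1, h2⟩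
  | refl x => exact Relation.EqvGen.refl _
  | symm x y _ ih => exact Relation.EqvGen.symm _ _ ih
  | trans x y z _ _ ih1 ih2 => exact Relation.EqvGen.trans _ _ _ ih1 ih2

lemma conn_empty (a b : I → V) {x y : V} (h : (conn a b ∅).r x y) : x = y := by
  induction h with
  | rel x y hr =>
    obtain ⟨e, he, -, -⟩ := hr
    simp at he
  | refl x => rfl
  | symm x y _ ih => exact ih.symm
  | trans x y z _ _ ih1 ih2 => exact ih1.trans ih2

/-- Adding an edge merges the classes of its ends. -/
lemma conn_insert (a b : I → V) (H : Finset I) (e : I) (x y : V) :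
    (conn a b (insert e H)).r x y ↔ (conn a b H).r x y ∨
      ((conn a b H).r x (a e) ∧ (conn a b H).r (b e) y) ∨
      ((conn a b H).r x (b e) ∧ (conn a b H).r (a e) y) := by
  set s := conn a b H with hs
  have tr : ∀ {u v w : V}, s.r u v → s.r v w → s.r u w := fun h1 h2 => s.trans' h1 h2
  have sy : ∀ {u v : V}, s.r u v → s.r v u := fun h => s.symm' h
  have rf : ∀ u : V, s.r u u := fun u => s.refl' u
  constructor
  · intro h
    induction h with
    | rel x y hr =>
      obtain ⟨e', he', h1, h2⟩ := hr
      rcases Finset.mem_insert.1 he' with rfl | he'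
      · subst h1 h2
        exact Or.inr (Or.inl ⟨rf _, rf _⟩)
      · refine Or.inl ?_
        exact Relation.EqvGen.rel _ _ ⟨e', he', h1, h2⟩
    | refl x => exact Or.inl (rf x)
    | symm x y _ ih =>
      rcases ih with h | ⟨h1, h2⟩ | ⟨h1, h2⟩
      · exact Or.inl (sy h)
      · exact Or.inr (Or.inr ⟨sy h2, sy h1⟩)
      · exact Or.inr (Or.inl ⟨sy h2, sy h1⟩)
    | trans x y z _ _ ih1 ih2 =>
      rcases ih1 with h | ⟨h1, h2⟩ | ⟨h1, h2⟩ <;> rcases ih2 with g | ⟨g1, g2⟩ | ⟨g1, g2⟩
      · exact Or.inl (tr h g)
      · exact Or.inr (Or.inl ⟨tr h g1, g2⟩)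
      · exact Or.inr (Or.inr ⟨tr h g1, g2⟩)
      · exact Or.inr (Or.inl ⟨h1, tr h2 g⟩)
      · exact Or.inl (tr h1 (tr (sy g1) (tr (sy h2) g2)))
      · exact Or.inl (tr h1 g2)
      · exact Or.inr (Or.inr ⟨h1, tr h2 g⟩)
      · exact Or.inl (tr h1 g2)
      · exact Or.inl (tr h1 (tr (sy g1) (tr (sy h2) g2)))
  · have hm : ∀ {u v : V}, s.r u v → (conn a b (insert e H)).r u v :=
      fun h => conn_mono a b (Finset.subset_insert e H) h
    have he : (conn a b (insert e H)).r (a e) (b e) := conn_gen a b _ (Finset.mem_insert_self e H)
    rintro (h | ⟨h1, h2⟩ | ⟨h1, h2⟩)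
    · exact hm h
    · exact (conn a b (insert e H)).trans' (hm h1) ((conn a b (insert e H)).trans' he (hm h2))
    · exact (conn a b (insert e H)).trans' (hm h1)
        ((conn a b (insert e H)).trans' ((conn a b (insert e H)).symm' he) (hm h2))

open Classical in
/-- The class of `x`, as a finset. -/
noncomputable def cls (s : Setoid V) (x : V) : Finset V := univ.filter (fun v => s.r x v)

lemma mem_cls (s : Setoid V) (x v : V) : v ∈ cls s x ↔ s.r x v := by
  classical
  simp [cls]

lemma cls_eq_of_r (s : Setoid V) {x y : V} (h : s.r x y) : cls s x = cls s y := by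
  ext v
  rw [mem_cls, mem_cls]
  exact ⟨fun g => s.trans' (s.symm' h) g, fun g => s.trans' h g⟩

/-- Merging a class with another one makes fewer classes; refining never decreases them. -/
lemma numComp_insert_le (a b : I → V) (H : Finset I) (e : I) :
    numComp a b (insert e H) ≤ numComp a b H := by
  classical
  unfold numComp
  refine Nat.card_le_card_of_surjective
    (Quotient.map' id (fun x y h => conn_mono a b (Finset.subset_insert e H) h)) ?_
  intro q
  induction q using Quotient.inductionOn with
  | h x => exact ⟨Quotient.mk _ x, rfl⟩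

lemma numComp_insert_lt (a b : I → V) (H : Finset I) (e : I) (hne : ¬ (conn a b H).r (a e) (b e)) :
    numComp a b (insert e H) + 1 ≤ numComp a b H := by
  classical
  unfold numComp
  have hsurj : Function.Surjective
      (Quotient.map' id (fun x y h => conn_mono a b (Finset.subset_insert e H) h) :
        Quotient (conn a b H) → Quotient (conn a b (insert e H))) := by
    intro q
    induction q using Quotient.inductionOn with
    | h x => exact ⟨Quotient.mk _ x, rfl⟩
  have hninj : ¬ Function.Injective
      (Quotient.map' id (fun x y h => conn_mono a b (Finset.subset_insert e H) h) :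
        Quotient (conn a b H) → Quotient (conn a b (insert e H))) := by
    intro hinj
    have h1 : (Quotient.mk (conn a b H) (a e)) = Quotient.mk (conn a b H) (b e) := by
      apply hinj
      exact Quotient.sound (conn_gen a b _ (Finset.mem_insert_self e H))
    exact hne (Quotient.exact h1)
  have := Fintype.card_lt_of_surjective_not_injective _ hsurj hninj
  simp only [Nat.card_eq_fintype_card]
  omega

lemma numComp_le_card (a b : I → V) (H : Finset I) : numComp a b H ≤ Fintype.card V := by
  classical
  unfold numComp
  rw [← Nat.card_eq_fintype_card (α := V)]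
  exact Nat.card_le_card_of_surjective (Quotient.mk _) Quotient.mk_surjective

/-- **T-join with a forest bound.** -/
theorem tjoin (a b : I → V) (H : Finset I) (T : V → ZMod 2)
    (hT : ∀ x : V, ∑ v ∈ cls (conn a b H) x, T v = 0) :
    ∃ J ⊆ H, (∀ v, bd a b J v = T v) ∧ J.card + numComp a b H ≤ Fintype.card V := by
  classical
  induction H using Finset.induction_on generalizing T with
  | empty =>
    refine ⟨∅, subset_rfl, ?_, by simpa using numComp_le_card a b ∅⟩
    intro v
    have h := hT v
    have hc : cls (conn a b ∅) v = {v} := by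
      ext w
      rw [mem_cls, Finset.mem_singleton]
      constructor
      · intro g
        exact (conn_empty a b g).symm
      · rintro rfl
        exact (conn a b ∅).refl' _
    rw [hc, Finset.sum_singleton] at h
    simp [h]
  | insert e H he ih =>
    set s := conn a b H with hs
    set x0 := a e with hx0
    set y0 := b e with hy0
    by_cases h0 : s.r x0 y0
    · -- the edge joins nothing new
      have hsame : ∀ u v, (conn a b (insert e H)).r u v ↔ s.r u v := by
        intro u v
        rw [conn_insert]
        constructor
        · rintro (g | ⟨g1, g2⟩ | ⟨g1, g2⟩)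
          · exact g
          · exact s.trans' g1 (s.trans' h0 g2)
          · exact s.trans' g1 (s.trans' (s.symm' h0) g2)
        · exact fun g => Or.inl g
      have hcl : ∀ x, cls (conn a b (insert e H)) x = cls s x := by
        intro x
        ext v
        rw [mem_cls, mem_cls]
        exact hsame x v
      obtain ⟨J, hJ, h1, h2⟩ := ih T (fun x => by rw [← hcl]; exact hT x)
      refine ⟨J, hJ.trans (Finset.subset_insert e H), h1, ?_⟩
      have := numComp_insert_le a b H e
      omega
    · -- two distinct classes merge
      have hdisj : Disjoint (cls s x0) (cls s y0) := by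
        rw [Finset.disjoint_left]
        intro v h1 h2
        rw [mem_cls] at h1 h2
        exact h0 (s.trans' h1 (s.symm' h2))
      have hmerge : ∀ x, (s.r x x0 ∨ s.r x y0) →
          cls (conn a b (insert e H)) x = cls s x0 ∪ cls s y0 := by
        intro x hx
        ext v
        rw [mem_cls, conn_insert, Finset.mem_union, mem_cls, mem_cls]
        rcases hx with hx | hx
        · constructor
          · rintro (g | ⟨g1, g2⟩ | ⟨g1, g2⟩)
            · exact Or.inl (s.trans' (s.symm' hx) g)
            · exact Or.inr g2
            · exact Or.inl g2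
          · rintro (g | g)
            · exact Or.inl (s.trans' hx g)
            · exact Or.inr (Or.inl ⟨hx, g⟩)
        · constructor
          · rintro (g | ⟨g1, g2⟩ | ⟨g1, g2⟩)
            · exact Or.inr (s.trans' (s.symm' hx) g)
            · exact Or.inr g2
            · exact Or.inl g2
          · rintro (g | g)
            · exact Or.inr (Or.inr ⟨hx, g⟩)
            · exact Or.inl (s.trans' hx g)
      have hother : ∀ x, ¬ s.r x x0 → ¬ s.r x y0 →
          cls (conn a b (insert e H)) x = cls s x := by
        intro x h1 h2
        ext v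
        rw [mem_cls, conn_insert, mem_cls]
        constructor
        · rintro (g | ⟨g1, g2⟩ | ⟨g1, g2⟩)
          · exact g
          · exact absurd g1 h1
          · exact absurd g1 h2
        · exact fun g => Or.inl g
      have htot : ∑ v ∈ cls s x0, T v + ∑ v ∈ cls s y0, T v = 0 := by
        rw [← Finset.sum_union hdisj, ← hmerge x0 (Or.inl (s.refl' x0))]
        exact hT x0
      have hZ : ∀ z : ZMod 2, z = 0 ∨ z = 1 := by decide
      rcases hZ (∑ v ∈ cls s x0, T v) with hs0 | hs1
      · -- even parity already: ignore the edge
        have hy : ∑ v ∈ cls s y0, T v = 0 := by rw [hs0, zero_add] at htot; exact htot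
        obtain ⟨J, hJ, h1, h2⟩ := ih T (by
          intro x
          by_cases g1 : s.r x x0
          · rw [cls_eq_of_r s g1]; exact hs0
          by_cases g2 : s.r x y0
          · rw [cls_eq_of_r s g2]; exact hy
          rw [← hother x g1 g2]; exact hT x)
        refine ⟨J, hJ.trans (Finset.subset_insert e H), h1, ?_⟩
        have := numComp_insert_le a b H e
        omega
      · -- odd parity: use the edge
        have hy : ∑ v ∈ cls s y0, T v = 1 := by
          rw [hs1] at htot
          have hZ2 : ∀ z : ZMod 2, 1 + z = 0 → z = 1 := by decide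
          exact hZ2 _ htot
        let T' : V → ZMod 2 := fun v => T v + ((if x0 = v then 1 else 0) + (if y0 = v then 1 else 0))
        have hsum : ∀ x, ∑ v ∈ cls s x, T' v =
            ∑ v ∈ cls s x, T v + ((if s.r x x0 then 1 else 0) + (if s.r x y0 then 1 else 0)) := by
          intro x
          simp only [T', Finset.sum_add_distrib, Finset.sum_ite_eq, mem_cls]
        obtain ⟨J, hJ, h1, h2⟩ := ih T' (by
          intro x
          rw [hsum]
          by_cases g1 : s.r x x0
          · have g2 : ¬ s.r x y0 := fun g => h0 (s.trans' (s.symm' g1) g)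
            rw [cls_eq_of_r s g1, if_pos g1, if_neg g2, hs1]
            decide
          by_cases g2 : s.r x y0
          · rw [cls_eq_of_r s g2, if_neg g1, if_pos g2, hy]
            decide
          rw [if_neg g1, if_neg g2, ← hother x g1 g2, hT x]
          decide)
        have heJ : e ∉ J := fun g => he (hJ g)
        refine ⟨insert e J, Finset.insert_subset_insert e hJ, ?_, ?_⟩
        · intro v
          rw [bd_insert a b J e heJ v, h1 v]
          simp only [T']
          generalize T v = t
          generalize ((if x0 = v then (1 : ZMod 2) else 0) + (if y0 = v then 1 else 0)) = u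
          have hZ3 : ∀ t u : ZMod 2, u + (t + u) = t := by decide
          exact hZ3 t u
        · rw [Finset.card_insert_of_notMem heJ]
          have := numComp_insert_lt a b H e h0
          omega

/-- `∑` of the boundary of `H` over a class of `conn H` vanishes: every edge is inside or outside. -/
lemma sum_bd_cls (a b : I → V) (H : Finset I) (x : V) :
    ∑ v ∈ cls (conn a b H) x, bd a b H v = 0 := by
  classical
  unfold bd
  rw [Finset.sum_comm]
  refine Finset.sum_eq_zero fun e he => ?_
  rw [Finset.sum_add_distrib, Finset.sum_ite_eq, Finset.sum_ite_eq]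
  have hr : (conn a b H).r (a e) (b e) := conn_gen a b H he
  simp only [mem_cls]
  by_cases g : (conn a b H).r x (a e)
  · have g' : (conn a b H).r x (b e) := (conn a b H).trans' g hr
    rw [if_pos g, if_pos g']
    decide
  · have g' : ¬ (conn a b H).r x (b e) := fun h => g ((conn a b H).trans' h ((conn a b H).symm' hr))
    rw [if_neg g, if_neg g']
    simp

/-- The distinct neighbours of `v` in `H`. -/
noncomputable def nbrs (a b : I → V) (H : Finset I) (v : V) : Finset V := by
  classical
  exact univ.filter (fun w => w ≠ v ∧ ∃ e ∈ H, (a e = v ∧ b e = w) ∨ (a e = w ∧ b e = v))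

lemma mem_nbrs (a b : I → V) (H : Finset I) (v w : V) :
    w ∈ nbrs a b H v ↔ w ≠ v ∧ ∃ e ∈ H, (a e = v ∧ b e = w) ∨ (a e = w ∧ b e = v) := by
  classical
  simp [nbrs]

lemma card_nbrs_add_one_le (a b : I → V) (H : Finset I) (v : V) :
    (nbrs a b H v).card + 1 ≤ (cls (conn a b H) v).card := by
  classical
  have hsub : insert v (nbrs a b H v) ⊆ cls (conn a b H) v := by
    intro w hw
    rw [mem_cls]
    rcases Finset.mem_insert.1 hw with rfl | hw
    · exact (conn a b H).refl' _
    · obtain ⟨-, e, he, (⟨h1, h2⟩ | ⟨h1, h2⟩)⟩ := (mem_nbrs a b H v w).1 hw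
      · subst h1 h2; exact conn_gen a b H he
      · subst h1 h2; exact (conn a b H).symm' (conn_gen a b H he)
  have hv : v ∉ nbrs a b H v := fun h => ((mem_nbrs a b H v v).1 h).1 rfl
  have := Finset.card_le_card hsub
  rwa [Finset.card_insert_of_notMem hv] at this

/-- The number of classes meeting a family, as a sum of reciprocal sizes over the union. -/
lemma card_classes_eq_sum (s : Setoid V) (W : Finset V) (hW : ∀ x ∈ W, cls s x ⊆ W) :
    ((W.image (fun x => cls s x)).card : ℝ) = ∑ v ∈ W, 1 / ((cls s v).card : ℝ) := by
  classical
  have h : ∑ v ∈ W, 1 / ((cls s v).card : ℝ) =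
      ∑ C ∈ W.image (fun x => cls s x), ∑ v ∈ W.filter (fun v => cls s v = C), 1 / ((cls s v).card : ℝ) := by
    rw [Finset.sum_fiberwise_of_maps_to (fun x hx => Finset.mem_image_of_mem _ hx)]
  rw [h, Finset.card_eq_sum_ones]
  push_cast
  refine Finset.sum_congr rfl fun C hC => ?_
  obtain ⟨x, hx, rfl⟩ := Finset.mem_image.1 hC
  have hfil : W.filter (fun v => cls s v = cls s x) = cls s x := by
    ext v
    simp only [Finset.mem_filter]
    constructor
    · rintro ⟨-, h2⟩
      rw [← h2, mem_cls]
    · intro h2
      refine ⟨hW x hx h2, ?_⟩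
      exact (cls_eq_of_r s ((mem_cls s x v).1 h2)).symm
  rw [hfil]
  have h3 : ∀ v ∈ cls s x, 1 / ((cls s v).card : ℝ) = 1 / ((cls s x).card : ℝ) := by
    intro v hv
    rw [cls_eq_of_r s ((mem_cls s x v).1 hv)]
  rw [Finset.sum_congr rfl h3, Finset.sum_const, nsmul_eq_mul]
  have hne : ((cls s x).card : ℝ) ≠ 0 := by
    have : x ∈ cls s x := (mem_cls s x x).2 (s.refl' x)
    exact_mod_cast (Finset.card_pos.2 ⟨x, this⟩).ne'
  field_simp

/-- Components of `H` contained in `W` are few when degrees are large. -/
theorem card_classes_le_sum (a b : I → V) (H : Finset I) (W : Finset V)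
    (hW : ∀ x ∈ W, cls (conn a b H) x ⊆ W) :
    ((W.image (fun x => cls (conn a b H) x)).card : ℝ) ≤
      ∑ v ∈ W, 1 / (((nbrs a b H v).card : ℝ) + 1) := by
  rw [card_classes_eq_sum _ W hW]
  refine Finset.sum_le_sum fun v _ => ?_
  have h := card_nbrs_add_one_le a b H v
  have h' : ((nbrs a b H v).card : ℝ) + 1 ≤ ((cls (conn a b H) v).card : ℝ) := by exact_mod_cast h
  apply one_div_le_one_div_of_le _ h'
  positivity

/-- The components of `H`, all of them. -/
theorem numComp_le_sum (a b : I → V) (H : Finset I) :
    (numComp a b H : ℝ) ≤ ∑ v : V, 1 / (((nbrs a b H v).card : ℝ) + 1) := by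
  classical
  have h := card_classes_le_sum a b H univ (fun _ _ => Finset.subset_univ _)
  refine le_trans (le_of_eq ?_) h
  congr 1
  unfold numComp
  rw [Nat.card_eq_fintype_card, ← Finset.card_univ]
  let f : Quotient (conn a b H) → Finset V := fun q =>
    Quotient.liftOn q (cls (conn a b H)) (fun x y h => cls_eq_of_r _ h)
  have hf : Function.Injective f := by
    intro p q
    induction p using Quotient.inductionOn with
    | h x =>
      induction q using Quotient.inductionOn with
      | h y =>
        intro hxy
        apply Quotient.sound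
        have h1 : cls (conn a b H) x = cls (conn a b H) y := hxy
        have h2 : y ∈ cls (conn a b H) x := by
          rw [h1]
          exact (mem_cls _ y y).2 ((conn a b H).refl' y)
        exact (mem_cls _ x y).1 h2
  have himg : (univ : Finset (Quotient (conn a b H))).image f =
      (univ : Finset V).image (fun x => cls (conn a b H) x) := by
    ext C
    simp only [Finset.mem_image, Finset.mem_univ, true_and]
    constructor
    · rintro ⟨q, rfl⟩
      induction q using Quotient.inductionOn with
      | h x => exact ⟨x, rfl⟩
    · rintro ⟨x, rfl⟩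
      exact ⟨Quotient.mk _ x, rfl⟩
  rw [← himg, Finset.card_image_of_injective _ hf]

/-- The vertices touched by `H`. -/
def touch (a b : I → V) (H : Finset I) : Finset V := H.image a ∪ H.image b

lemma conn_touch (a b : I → V) (H : Finset I) {x y : V} (h : (conn a b H).r x y) :
    x = y ∨ (x ∈ touch a b H ∧ y ∈ touch a b H) := by
  classical
  induction h with
  | rel x y hr =>
    obtain ⟨e, he, h1, h2⟩ := hr
    refine Or.inr ⟨?_, ?_⟩
    · exact Finset.mem_union_left _ (Finset.mem_image.2 ⟨e, he, h1⟩)
    · exact Finset.mem_union_right _ (Finset.mem_image.2 ⟨e, he, h2⟩)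
  | refl x => exact Or.inl rfl
  | symm x y _ ih =>
    rcases ih with g | ⟨g1, g2⟩
    · exact Or.inl g.symm
    · exact Or.inr ⟨g2, g1⟩
  | trans x y z _ _ ih1 ih2 =>
    rcases ih1 with g | ⟨g1, g2⟩ <;> rcases ih2 with k | ⟨k1, k2⟩
    · exact Or.inl (g.trans k)
    · subst g; exact Or.inr ⟨k1, k2⟩
    · subst k; exact Or.inr ⟨g1, g2⟩
    · exact Or.inr ⟨g1, k2⟩

/-- Untouched vertices are isolated, so the join is at most as large as the touched set. -/
lemma card_le_touch (a b : I → V) (H : Finset I) (k : ℕ) (hk : k + numComp a b H ≤ Fintype.card V) :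
    k ≤ (touch a b H).card := by
  classical
  have h : Fintype.card V - (touch a b H).card ≤ numComp a b H := by
    have h1 : ((univ \ touch a b H : Finset V)).card ≤ numComp a b H := by
      unfold numComp
      rw [Nat.card_eq_fintype_card, ← Finset.card_univ]
      refine Finset.card_le_card_of_injOn (fun x => Quotient.mk _ x) (fun _ _ => Finset.mem_univ _) ?_
      intro x hx y _ hxy
      have hx' : x ∉ touch a b H := by simpa using hx
      rcases conn_touch a b H (Quotient.exact hxy) with g | ⟨g1, -⟩
      · exact g
      · exact absurd g1 hx'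
    rw [Finset.card_sdiff_of_subset (Finset.subset_univ _), Finset.card_univ] at h1
    exact h1
  omega

/-- Summing the boundary over a class of a partition: the boundary in the quotient. -/
lemma sum_bd_quot (s : Setoid V) (a b : I → V) (K : Finset I) (x : V) [Fintype (Quotient s)]
    [DecidableEq (Quotient s)] :
    ∑ v ∈ cls s x, bd a b K v =
      bd (fun e => Quotient.mk s (a e)) (fun e => Quotient.mk s (b e)) K (Quotient.mk s x) := by
  classical
  unfold bd
  rw [Finset.sum_comm]
  refine Finset.sum_congr rfl fun e _ => ?_
  rw [Finset.sum_add_distrib, Finset.sum_ite_eq, Finset.sum_ite_eq]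
  simp only [mem_cls]
  have h1 : ∀ y, (s.r x y) ↔ (Quotient.mk s y = Quotient.mk s x) := by
    intro y
    constructor
    · intro h; exact (Quotient.sound h).symm
    · intro h; exact Quotient.exact h.symm
  simp only [h1]

/-- **Parity fix by the quotient.**  Given edge sets `N` and `Q`, and a union `W` of components of `Q`
containing the ends of `N`, a small `F ⊆ N` and a `J ⊆ Q` make `(N \ F) + J` even at every vertex. -/
theorem even_fix (a b : I → V) (N Q : Finset I) (W : Finset V)
    (hW : ∀ x ∈ W, cls (conn a b Q) x ⊆ W) (hN : ∀ e ∈ N, a e ∈ W ∧ b e ∈ W) :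
    ∃ F ⊆ N, ∃ J ⊆ Q, (∀ v, bd a b (N \ F) v + bd a b J v = 0) ∧
      (F.card : ℝ) ≤ ∑ v ∈ W, 1 / (((nbrs a b Q v).card : ℝ) + 1) := by
  classical
  set s := conn a b Q with hs
  let a' : I → Quotient s := fun e => Quotient.mk s (a e)
  let b' : I → Quotient s := fun e => Quotient.mk s (b e)
  obtain ⟨F, hF, h1, h2⟩ := tjoin a' b' N (bd a' b' N) (fun x => sum_bd_cls a' b' N x)
  have hsplit : ∀ q, bd a' b' (N \ F) q = 0 := by
    intro q
    have h3 : bd a' b' N q = bd a' b' (N \ F) q + bd a' b' F q := by
      unfold bd
      rw [← Finset.sum_sdiff hF]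
    rw [h1 q] at h3
    have hZ : ∀ x y : ZMod 2, y = x + y → x = 0 := by decide
    exact hZ _ _ h3
  obtain ⟨J, hJ, h4, -⟩ := tjoin a b Q (bd a b (N \ F)) (fun x => by
    rw [sum_bd_quot s a b (N \ F) x]
    exact hsplit _)
  refine ⟨F, hF, J, hJ, ?_, ?_⟩
  · intro v
    rw [h4 v]
    exact CharTwo.add_self_eq_zero _
  · have h5 : F.card ≤ (touch a' b' N).card := card_le_touch a' b' N F.card h2
    have h6 : (touch a' b' N).card ≤ (W.image (fun x => cls s x)).card := by
      let g : Quotient s → Finset V := fun q => Quotient.liftOn q (cls s) (fun x y h => cls_eq_of_r _ h)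
      have hg : Function.Injective g := by
        intro p q
        induction p using Quotient.inductionOn with
        | h x =>
          induction q using Quotient.inductionOn with
          | h y =>
            intro hxy
            apply Quotient.sound
            have h1 : cls s x = cls s y := hxy
            have h2 : y ∈ cls s x := by
              rw [h1]
              exact (mem_cls _ y y).2 (s.refl' y)
            exact (mem_cls _ x y).1 h2
      refine Finset.card_le_card_of_injOn g ?_ hg.injOn
      intro q hq
      have hq' : q ∈ touch a' b' N := hq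
      unfold touch at hq'
      rcases Finset.mem_union.1 hq' with hq1 | hq1
      · obtain ⟨e, he, rfl⟩ := Finset.mem_image.1 hq1
        exact Finset.mem_coe.2 (Finset.mem_image.2 ⟨a e, (hN e he).1, rfl⟩)
      · obtain ⟨e, he, rfl⟩ := Finset.mem_image.1 hq1
        exact Finset.mem_coe.2 (Finset.mem_image.2 ⟨b e, (hN e he).2, rfl⟩)
    have h7 := card_classes_le_sum a b Q W hW
    have h8 : (F.card : ℝ) ≤ ((W.image (fun x => cls s x)).card : ℝ) := by
      exact_mod_cast h5.trans h6
    exact h8.trans h7

end Crest.Agent.Lib.EG.TJoin
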