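import Crest.Agent.Lib.EG.Lines
import Crest.Agent.Lib.EG.TJoin
import Crest.Agent.Lib.EG.LevelClass

/-!
# Deterministic level assembly for S0064

From level data (native edge sets `nat l`, cores `Z l`, parity candidates `Q l`, skeleton edge sets
`Rs l`, and a class maker `mk`) build the classes and single edges needed by `s0064_of_classes`,
with an exact cost formula.  No probability here.
-/

set_option linter.unusedSectionVars false

namespace Crest.Agent.Lib.EG.LevelAsm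

open Crest.Agent.Lib.EG.Winding Finset

variable {V : Type} [Fintype V] [DecidableEq V]

/-- Number of edges of `S` at `v`. -/
def edeg (S : Finset (Sym2 V)) (v : V) : ℕ := (S.filter (fun e => v ∈ e)).card

/-- `e` has both ends in `Z`. -/
def Inside (Z : Finset V) (e : Sym2 V) : Prop := ∀ v ∈ e, v ∈ Z

open Classical in
/-- The edges of `S` inside `Z`. -/
noncomputable def ins (Z : Finset V) (S : Finset (Sym2 V)) : Finset (Sym2 V) :=
  S.filter (fun e => Inside Z e)

open Classical in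
/-- The edges of `S` not inside `Z`. -/
noncomputable def outs (Z : Finset V) (S : Finset (Sym2 V)) : Finset (Sym2 V) :=
  S.filter (fun e => ¬ Inside Z e)

omit [Fintype V] [DecidableEq V] in
lemma mem_ins {Z : Finset V} {S : Finset (Sym2 V)} {e : Sym2 V} :
    e ∈ ins Z S ↔ e ∈ S ∧ Inside Z e := by
  classical
  simp [ins]

omit [Fintype V] [DecidableEq V] in
lemma mem_outs {Z : Finset V} {S : Finset (Sym2 V)} {e : Sym2 V} :
    e ∈ outs Z S ↔ e ∈ S ∧ ¬ Inside Z e := by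
  classical
  simp [outs]

/-! ### Parity on `Sym2 V` from `TJoin.even_fix` -/

section Parity

/-- Reference ends of an unordered pair. -/
noncomputable def fstE (e : Sym2 V) : V := (Quot.out e).1
/-- Reference ends of an unordered pair. -/
noncomputable def sndE (e : Sym2 V) : V := (Quot.out e).2

omit [Fintype V] [DecidableEq V] in
lemma mk_fst_snd (e : Sym2 V) : s(fstE e, sndE e) = e := Quot.out_eq e

omit [Fintype V] [DecidableEq V] in
lemma mem_iff_ends (e : Sym2 V) (v : V) : v ∈ e ↔ fstE e = v ∨ sndE e = v := by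
  conv_lhs => rw [← mk_fst_snd e]
  simp [Sym2.mem_iff, eq_comm]

omit [Fintype V] [DecidableEq V] in
lemma ends_ne (e : Sym2 V) (he : ¬ e.IsDiag) : fstE e ≠ sndE e := by
  intro h
  apply he
  rw [← mk_fst_snd e]
  simp [h]

lemma bd_eq (S : Finset (Sym2 V)) (hS : ∀ e ∈ S, ¬ e.IsDiag) (v : V) :
    TJoin.bd fstE sndE S v = (edeg S v : ZMod 2) := by
  unfold TJoin.bd edeg
  rw [Finset.card_filter]
  push_cast
  apply Finset.sum_congr rfl
  intro e he
  have hne := ends_ne e (hS e he)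
  by_cases h1 : fstE e = v
  · have h2 : sndE e ≠ v := fun h => hne (h1.trans h.symm)
    have h3 : v ∈ e := (mem_iff_ends e v).2 (Or.inl h1)
    simp [h1, h2, h3]
  · by_cases h2 : sndE e = v
    · have h3 : v ∈ e := (mem_iff_ends e v).2 (Or.inr h2)
      simp [h1, h2, h3]
    · have h3 : v ∉ e := fun h => ((mem_iff_ends e v).1 h).elim h1 h2
      simp [h1, h2, h3]

lemma edeg_le_nbrs (Q : Finset (Sym2 V)) (hQ : ∀ e ∈ Q, ¬ e.IsDiag) (v : V) :
    edeg Q v ≤ (TJoin.nbrs fstE sndE Q v).card := by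
  classical
  unfold edeg
  let f : Sym2 V → V := fun e => if fstE e = v then sndE e else fstE e
  apply Finset.card_le_card_of_injOn f
  · intro e he
    have he' := Finset.mem_coe.1 he
    obtain ⟨h1, h2⟩ := Finset.mem_filter.1 he'
    have hne := ends_ne e (hQ e h1)
    rw [Finset.mem_coe, TJoin.mem_nbrs]
    have h3 := (mem_iff_ends e v).1 h2
    by_cases h4 : fstE e = v
    · simp only [f, if_pos h4]
      refine ⟨fun h => hne (h4.trans h.symm), e, h1, Or.inl ⟨h4, rfl⟩⟩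
    · have h5 : sndE e = v := h3.resolve_left h4
      simp only [f, if_neg h4]
      exact ⟨h4, e, h1, Or.inr ⟨rfl, h5⟩⟩
  · intro e he e' he' hff
    have he1 := Finset.mem_filter.1 (Finset.mem_coe.1 he)
    have he2 := Finset.mem_filter.1 (Finset.mem_coe.1 he')
    have key : ∀ d : Sym2 V, v ∈ d → d = s(v, f d) := by
      intro d hd
      have h3 := (mem_iff_ends d v).1 hd
      by_cases h4 : fstE d = v
      · simp only [f, if_pos h4]
        conv_lhs => rw [← mk_fst_snd d, h4]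
      · have h5 : sndE d = v := h3.resolve_left h4
        simp only [f, if_neg h4]
        conv_lhs => rw [← mk_fst_snd d, h5]
        exact Sym2.eq_swap
    rw [key e he1.2, key e' he2.2, hff]

lemma edeg_union (A B : Finset (Sym2 V)) (h : Disjoint A B) (v : V) :
    edeg (A ∪ B) v = edeg A v + edeg B v := by
  unfold edeg
  rw [Finset.filter_union, Finset.card_union_of_disjoint]
  exact Finset.disjoint_filter_filter h

/-- **The parity fix on unordered pairs.** -/
theorem parity (Q N : Finset (Sym2 V)) (Z : Finset V) (hd : Disjoint N Q)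
    (hQd : ∀ e ∈ Q, ¬ e.IsDiag) (hNd : ∀ e ∈ N, ¬ e.IsDiag)
    (hQZ : ∀ e ∈ Q, Inside Z e) (hNZ : ∀ e ∈ N, Inside Z e) :
    ∃ F ⊆ N, ∃ J ⊆ Q, (∀ v, Even (edeg ((N \ F) ∪ J) v)) ∧
      (F.card : ℝ) ≤ ∑ v ∈ Z, 1 / ((edeg Q v : ℝ) + 1) := by
  classical
  have hW : ∀ x ∈ Z, TJoin.cls (TJoin.conn fstE sndE Q) x ⊆ Z := by
    intro x hx w hw
    rw [TJoin.mem_cls] at hw
    have key : ∀ y z, (TJoin.conn fstE sndE Q).r y z → (y ∈ Z ↔ z ∈ Z) := by
      intro y z hyz
      induction hyz with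
      | rel y z hr =>
        obtain ⟨e, he, h1, h2⟩ := hr
        have h3 : y ∈ e := (mem_iff_ends e y).2 (Or.inl h1)
        have h4 : z ∈ e := (mem_iff_ends e z).2 (Or.inr h2)
        exact ⟨fun _ => hQZ e he z h4, fun _ => hQZ e he y h3⟩
      | refl y => exact Iff.rfl
      | symm y z _ ih => exact ih.symm
      | trans y z t _ _ ih1 ih2 => exact ih1.trans ih2
    exact (key x w hw).1 hx
  have hN : ∀ e ∈ N, fstE e ∈ Z ∧ sndE e ∈ Z := fun e he =>
    ⟨hNZ e he _ ((mem_iff_ends e _).2 (Or.inl rfl)), hNZ e he _ ((mem_iff_ends e _).2 (Or.inr rfl))⟩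
  obtain ⟨F, hF, J, hJ, h1, h2⟩ := TJoin.even_fix fstE sndE N Q Z hW hN
  refine ⟨F, hF, J, hJ, ?_, ?_⟩
  · intro v
    have h3 := h1 v
    rw [bd_eq _ (fun e he => hNd e (Finset.mem_sdiff.1 he).1), bd_eq _ (fun e he => hQd e (hJ he))] at h3
    have hdisj : Disjoint (N \ F) J := by
      apply Finset.disjoint_of_subset_left Finset.sdiff_subset
      exact Finset.disjoint_of_subset_right hJ hd
    rw [edeg_union _ _ hdisj]
    have h4 : ((edeg (N \ F) v + edeg J v : ℕ) : ZMod 2) = 0 := by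
      push_cast
      exact h3
    exact (ZMod.natCast_eq_zero_iff_even).1 h4
  · refine h2.trans (Finset.sum_le_sum ?_)
    intro v _
    apply one_div_le_one_div_of_le
    · positivity
    · have := edeg_le_nbrs Q hQd v
      have h5 : (edeg Q v : ℝ) ≤ ((TJoin.nbrs fstE sndE Q v).card : ℝ) := by exact_mod_cast this
      linarith

end Parity

/-! ### Deep-first recursion -/

section DeepFirst

/-- The edges taken by levels deeper than `l`. -/
def taken (N : ℕ) (J : ℕ → Finset (Sym2 V)) (l : ℕ) : Finset (Sym2 V) :=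
  ((Finset.range N).filter (fun l' => l < l')).biUnion J

/-- The native edges of level `l` that stay inside the core and are still free. -/
noncomputable def pool (Z : ℕ → Finset V) (nat : ℕ → Finset (Sym2 V)) (AR : Finset (Sym2 V)) (N : ℕ)
    (J : ℕ → Finset (Sym2 V)) (l : ℕ) : Finset (Sym2 V) :=
  ins (Z l) ((nat l \ AR) \ taken N J l)

lemma taken_update (N : ℕ) (J : ℕ → Finset (Sym2 V)) (m l : ℕ) (hml : m ≤ l) (X : Finset (Sym2 V)) :
    taken N (Function.update J m X) l = taken N J l := by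
  unfold taken
  apply Finset.biUnion_congr rfl
  intro l' hl'
  have : l < l' := (Finset.mem_filter.1 hl').2
  rw [Function.update_of_ne (by omega)]

theorem deep_first (Z : ℕ → Finset V) (nat Q : ℕ → Finset (Sym2 V)) (AR : Finset (Sym2 V)) (N : ℕ)
    (hnd : ∀ l, ∀ e ∈ nat l, ¬ e.IsDiag) (hQd : ∀ l, ∀ e ∈ Q l, ¬ e.IsDiag)
    (hQZ : ∀ l, ∀ e ∈ Q l, Inside (Z l) e) (hQn : ∀ l, Disjoint (Q l) (nat l)) :
    ∃ J F : ℕ → Finset (Sym2 V), ∀ l < N, F l ⊆ pool Z nat AR N J l ∧ J l ⊆ Q l ∧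
      (∀ v, Even (edeg ((pool Z nat AR N J l \ F l) ∪ J l) v)) ∧
      ((F l).card : ℝ) ≤ ∑ v ∈ Z l, 1 / ((edeg (Q l) v : ℝ) + 1) := by
  classical
  have key : ∀ k, ∃ J F : ℕ → Finset (Sym2 V), ∀ l < N, N ≤ l + k →
      F l ⊆ pool Z nat AR N J l ∧ J l ⊆ Q l ∧
      (∀ v, Even (edeg ((pool Z nat AR N J l \ F l) ∪ J l) v)) ∧
      ((F l).card : ℝ) ≤ ∑ v ∈ Z l, 1 / ((edeg (Q l) v : ℝ) + 1) := by
    intro k
    induction k with
    | zero =>
      refine ⟨fun _ => ∅, fun _ => ∅, fun l hl hk => ?_⟩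
      omega
    | succ k ih =>
      obtain ⟨J, F, hJF⟩ := ih
      -- the new level
      let m := N - (k + 1)
      have hsub : ∀ e ∈ pool Z nat AR N J m, e ∈ nat m ∧ Inside (Z m) e := by
        intro e he
        obtain ⟨h1, h2⟩ := mem_ins.1 he
        exact ⟨(Finset.mem_sdiff.1 (Finset.mem_sdiff.1 h1).1).1, h2⟩
      obtain ⟨F', hF', J', hJ', h1, h2⟩ := parity (Q m) (pool Z nat AR N J m) (Z m)
        (Finset.disjoint_of_subset_left (fun e he => (hsub e he).1) (hQn m).symm)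
        (hQd m) (fun e he => hnd m e (hsub e he).1) (hQZ m) (fun e he => (hsub e he).2)
      refine ⟨Function.update J m J', Function.update F m F', fun l hl hk => ?_⟩
      by_cases hlm : l = m
      · subst hlm
        have hp : pool Z nat AR N (Function.update J m J') m = pool Z nat AR N J m := by
          unfold pool
          rw [taken_update _ _ _ _ le_rfl]
        rw [hp]
        simp only [Function.update_self]
        exact ⟨hF', hJ', h1, h2⟩
      · have hml : m < l := by omega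
        have hp : pool Z nat AR N (Function.update J m J') l = pool Z nat AR N J l := by
          unfold pool
          rw [taken_update _ _ _ _ hml.le]
        rw [hp]
        simp only [Function.update_of_ne hlm]
        exact hJF l hl (by omega)
  obtain ⟨J, F, h⟩ := key N
  exact ⟨J, F, fun l hl => h l hl (by omega)⟩

end DeepFirst

/-! ### The assembly -/

section Assemble

lemma egclass_nonempty : Nonempty (EGClass V) := by
  refine ⟨⟨fun v => (Fintype.equivFin V v).val, fun _ => true, ?_, [], ?_, fun _ => 0, ?_, ?_⟩⟩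
  · intro x y _ h
    exact (Fintype.equivFin V).injective (Fin.ext h)
  · exact ⟨List.nodup_nil, by simp, by simp⟩
  · simp
  · simp

/-- **Deterministic assembly.**  `nat l` are the native edges of level `l`, `Z l` the core, `Q l` the
parity candidates, `Rs l` the edges of the skeleton; `mk` makes the class of level `l` from any even
set `H` of interior edges. -/
theorem assemble (G : SimpleGraph V) [DecidableRel G.Adj] (N : ℕ) (Z : ℕ → Finset V)
    (nat Q Rs : ℕ → Finset (Sym2 V)) (C : ℕ → ℝ)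
    (hnatG : ∀ l, nat l ⊆ G.edgeFinset)
    (hnatD : ∀ l l', l ≠ l' → Disjoint (nat l) (nat l'))
    (hQG : ∀ l, Q l ⊆ G.edgeFinset)
    (hQZ : ∀ l, ∀ e ∈ Q l, Inside (Z l) e)
    (hQD : ∀ l l', l ≠ l' → Disjoint (Q l) (Q l'))
    (hQn : ∀ l l', l ≤ l' → Disjoint (Q l) (nat l'))
    (hQR : ∀ l l', Disjoint (Q l) (Rs l'))
    (hRD : ∀ l l', l ≠ l' → Disjoint (Rs l) (Rs l'))
    (mk : ∀ l < N, ∀ H : Finset (Sym2 V), H ⊆ ins (Z l) (nat l) ∪ Q l → (∀ e ∈ H, e ∉ Rs l) →
      (∀ v, Even (edeg H v)) →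
      ∃ c : EGClass V, (∀ p ∈ c.A, G.Adj p.1 p.2) ∧
        (∀ p ∈ c.A, s(p.1, p.2) ∈ H ∨ s(p.1, p.2) ∈ Rs l) ∧
        (∀ e ∈ H, ∃ p ∈ c.A, s(p.1, p.2) = e) ∧ (∀ e ∈ Rs l, ∃ p ∈ c.A, s(p.1, p.2) = e) ∧
        (c.cost : ℝ) ≤ C l) :
    ∃ (cl : List (EGClass V)) (Ss : List (Sym2 V)),
      (∀ p ∈ cl.flatMap EGClass.A, G.Adj p.1 p.2) ∧
      (cl.flatMap EGClass.A).Nodup ∧
      (∀ p ∈ cl.flatMap EGClass.A, (p.2, p.1) ∉ cl.flatMap EGClass.A) ∧
      (∀ e ∈ Ss, e ∈ G.edgeSet) ∧ Ss.Nodup ∧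
      (∀ p ∈ cl.flatMap EGClass.A, s(p.1, p.2) ∉ Ss) ∧
      (∀ e ∈ G.edgeSet, e ∈ Ss ∨ ∃ p ∈ cl.flatMap EGClass.A, s(p.1, p.2) = e) ∧
      (((cl.map EGClass.cost).sum + Ss.length : ℕ) : ℝ) ≤ ∑ l ∈ range N, C l
        + ∑ l ∈ range N, ((outs (Z l) (nat l)).card : ℝ)
        + ∑ l ∈ range N, ∑ v ∈ Z l, 1 / ((edeg (Q l) v : ℝ) + 1)
        + ((G.edgeFinset.filter (fun e => ∀ l ∈ range N, e ∉ nat l)).card : ℝ) := by
  classical
  have hnotdiag : ∀ e ∈ G.edgeFinset, ¬ e.IsDiag := fun e he =>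
    G.not_isDiag_of_mem_edgeSet (SimpleGraph.mem_edgeFinset.1 he)
  set AR : Finset (Sym2 V) := (range N).biUnion Rs with hAR
  obtain ⟨J, F, hJF⟩ := deep_first Z nat Q AR N (fun l e he => hnotdiag e (hnatG l he))
    (fun l e he => hnotdiag e (hQG l he)) hQZ (fun l => hQn l l le_rfl)
  -- interior edges
  let H : ℕ → Finset (Sym2 V) := fun l => (pool Z nat AR N J l \ F l) ∪ J l
  have hpool : ∀ l, ∀ e ∈ pool Z nat AR N J l,
      e ∈ nat l ∧ e ∉ AR ∧ e ∉ taken N J l ∧ Inside (Z l) e := by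
    intro l e he
    obtain ⟨h1, h2⟩ := mem_ins.1 he
    obtain ⟨h3, h4⟩ := Finset.mem_sdiff.1 h1
    obtain ⟨h5, h6⟩ := Finset.mem_sdiff.1 h3
    exact ⟨h5, h6, h4, h2⟩
  have hHmem : ∀ l < N, ∀ e ∈ H l, (e ∈ pool Z nat AR N J l ∧ e ∉ F l) ∨ e ∈ J l := by
    intro l _ e he
    rcases Finset.mem_union.1 he with h | h
    · exact Or.inl (Finset.mem_sdiff.1 h)
    · exact Or.inr h
  have hHR : ∀ l < N, ∀ l' < N, ∀ e ∈ H l, e ∉ Rs l' := by
    intro l hl l' hl' e he he'
    rcases hHmem l hl e he with ⟨h, -⟩ | h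
    · exact (hpool l e h).2.1 (Finset.mem_biUnion.2 ⟨l', Finset.mem_range.2 hl', he'⟩)
    · exact Finset.disjoint_left.1 (hQR l l') ((hJF l hl).2.1 h) he'
  -- existence of the classes
  have hex : ∀ l, l < N → ∃ c : EGClass V, (∀ p ∈ c.A, G.Adj p.1 p.2) ∧
        (∀ p ∈ c.A, s(p.1, p.2) ∈ H l ∨ s(p.1, p.2) ∈ Rs l) ∧
        (∀ e ∈ H l, ∃ p ∈ c.A, s(p.1, p.2) = e) ∧ (∀ e ∈ Rs l, ∃ p ∈ c.A, s(p.1, p.2) = e) ∧
        (c.cost : ℝ) ≤ C l := by
    intro l hl
    refine mk l hl (H l) ?_ (fun e he => hHR l hl l hl e he) (hJF l hl).2.2.1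
    intro e he
    rcases hHmem l hl e he with ⟨h, -⟩ | h
    · exact Finset.mem_union_left _ (mem_ins.2 ⟨(hpool l e h).1, (hpool l e h).2.2.2⟩)
    · exact Finset.mem_union_right _ ((hJF l hl).2.1 h)
  have := egclass_nonempty (V := V)
  choose! c hc1 hc2 hc3 hc4 hc5 using hex
  -- disjointness of the edge sets of the levels
  let E : ℕ → Finset (Sym2 V) := fun l => H l ∪ Rs l
  have hHH : ∀ l < N, ∀ l' < N, l < l' → ∀ e ∈ H l, e ∉ H l' := by
    intro l hl l' hl' hll e he he'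
    rcases hHmem l hl e he with ⟨h, -⟩ | h <;> rcases hHmem l' hl' e he' with ⟨h', -⟩ | h'
    · exact Finset.disjoint_left.1 (hnatD l l' (by omega)) (hpool l e h).1 (hpool l' e h').1
    · apply (hpool l e h).2.2.1
      exact Finset.mem_biUnion.2 ⟨l', Finset.mem_filter.2 ⟨Finset.mem_range.2 hl', hll⟩, h'⟩
    · exact Finset.disjoint_left.1 (hQn l l' hll.le) ((hJF l hl).2.1 h) (hpool l' e h').1
    · exact Finset.disjoint_left.1 (hQD l l' (by omega)) ((hJF l hl).2.1 h) ((hJF l' hl').2.1 h')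
  have hEE : ∀ l < N, ∀ l' < N, l ≠ l' → ∀ e ∈ E l, e ∉ E l' := by
    intro l hl l' hl' hne e he he'
    rcases Finset.mem_union.1 he with h | h <;> rcases Finset.mem_union.1 he' with h' | h'
    · rcases lt_or_gt_of_ne hne with hlt | hlt
      · exact hHH l hl l' hl' hlt e h h'
      · exact hHH l' hl' l hl hlt e h' h
    · exact hHR l hl l' hl' e h h'
    · exact hHR l' hl' l hl e h' h
    · exact Finset.disjoint_left.1 (hRD l l' hne) h h'
  have hAE : ∀ l < N, ∀ p ∈ (c l).A, s(p.1, p.2) ∈ E l := by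
    intro l hl p hp
    rcases hc2 l hl p hp with h | h
    · exact Finset.mem_union_left _ h
    · exact Finset.mem_union_right _ h
  have hEG : ∀ l < N, ∀ e ∈ E l, e ∈ G.edgeFinset := by
    intro l hl e he
    rcases Finset.mem_union.1 he with h | h
    · obtain ⟨p, hp, rfl⟩ := hc3 l hl e h
      exact SimpleGraph.mem_edgeFinset.2 (hc1 l hl p hp)
    · obtain ⟨p, hp, rfl⟩ := hc4 l hl e h
      exact SimpleGraph.mem_edgeFinset.2 (hc1 l hl p hp)
  let cl : List (EGClass V) := (List.range N).map c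
  have hflat : ∀ p, p ∈ cl.flatMap EGClass.A ↔ ∃ l < N, p ∈ (c l).A := by
    intro p
    simp only [cl, List.flatMap_map, List.mem_flatMap, List.mem_range]
  let U : Finset (Sym2 V) := (range N).biUnion E
  let Sf : Finset (Sym2 V) := G.edgeFinset \ U
  refine ⟨cl, Sf.toList, ?_, ?_, ?_, ?_, Finset.nodup_toList _, ?_, ?_, ?_⟩
  · intro p hp
    obtain ⟨l, hl, hp⟩ := (hflat p).1 hp
    exact hc1 l hl p hp
  · simp only [cl, List.flatMap_map]
    rw [List.nodup_flatMap]
    refine ⟨fun l _ => (c l).hA.1, ?_⟩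
    have hpw : (List.range N).Pairwise (fun a b => a ≠ b) := by
      exact List.nodup_range
    refine List.Pairwise.imp_of_mem ?_ hpw
    intro a b ha hb hne
    have ha' := List.mem_range.1 ha
    have hb' := List.mem_range.1 hb
    simp only [Function.onFun]
    rw [List.disjoint_left]
    intro p hpa hpb
    exact hEE a ha' b hb' hne _ (hAE a ha' p hpa) (hAE b hb' p hpb)
  · intro p hp hq
    obtain ⟨l, hl, hp⟩ := (hflat p).1 hp
    obtain ⟨l', hl', hq⟩ := (hflat _).1 hq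
    by_cases hll : l = l'
    · subst hll
      exact (c l).hA.2.1 p hp hq
    · have h1 := hAE l hl p hp
      have h2 := hAE l' hl' _ hq
      rw [Sym2.eq_swap] at h2
      exact hEE l hl l' hl' hll _ h1 h2
  · intro e he
    have := Finset.mem_toList.1 he
    exact SimpleGraph.mem_edgeFinset.1 (Finset.mem_sdiff.1 this).1
  · intro p hp hq
    obtain ⟨l, hl, hp⟩ := (hflat p).1 hp
    have h1 := Finset.mem_sdiff.1 (Finset.mem_toList.1 hq)
    exact h1.2 (Finset.mem_biUnion.2 ⟨l, Finset.mem_range.2 hl, hAE l hl p hp⟩)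
  · intro e he
    by_cases heU : e ∈ U
    · right
      obtain ⟨l, hl, he'⟩ := Finset.mem_biUnion.1 heU
      have hl := Finset.mem_range.1 hl
      rcases Finset.mem_union.1 he' with h | h
      · obtain ⟨p, hp, hpe⟩ := hc3 l hl e h
        exact ⟨p, (hflat p).2 ⟨l, hl, hp⟩, hpe⟩
      · obtain ⟨p, hp, hpe⟩ := hc4 l hl e h
        exact ⟨p, (hflat p).2 ⟨l, hl, hp⟩, hpe⟩
    · left
      exact Finset.mem_toList.2 (Finset.mem_sdiff.2 ⟨SimpleGraph.mem_edgeFinset.2 he, heU⟩)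
  · -- the count
    have hcost : ((cl.map EGClass.cost).sum : ℝ) ≤ ∑ l ∈ range N, C l := by
      have h1 : ((cl.map EGClass.cost).sum) = ∑ l ∈ range N, (c l).cost := by
        simp only [cl, List.map_map]
        generalize N = M
        induction M with
        | zero => simp
        | succ M ih =>
          rw [List.range_succ, List.map_append, List.sum_append, ih, Finset.sum_range_succ]
          simp
      rw [h1]
      push_cast
      exact Finset.sum_le_sum (fun l hl => hc5 l (Finset.mem_range.1 hl))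
    have hsing : Sf ⊆ ((range N).biUnion (fun l => outs (Z l) (nat l))) ∪
        ((range N).biUnion F) ∪ (G.edgeFinset.filter (fun e => ∀ l ∈ range N, e ∉ nat l)) := by
      intro e he
      obtain ⟨he1, he2⟩ := Finset.mem_sdiff.1 he
      by_cases h0 : ∀ l ∈ range N, e ∉ nat l
      · exact Finset.mem_union_right _ (Finset.mem_filter.2 ⟨he1, h0⟩)
      · push Not at h0
        obtain ⟨l, hl, hel⟩ := h0
        have hl' := Finset.mem_range.1 hl
        apply Finset.mem_union_left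
        by_cases hin : Inside (Z l) e
        · apply Finset.mem_union_right
          refine Finset.mem_biUnion.2 ⟨l, hl, ?_⟩
          by_contra hF
          apply he2
          refine Finset.mem_biUnion.2 ⟨l, hl, Finset.mem_union_left _ (Finset.mem_union_left _ ?_)⟩
          refine Finset.mem_sdiff.2 ⟨?_, hF⟩
          refine mem_ins.2 ⟨Finset.mem_sdiff.2 ⟨Finset.mem_sdiff.2 ⟨hel, ?_⟩, ?_⟩, hin⟩
          · intro hAR'
            obtain ⟨l', hl'', hR⟩ := Finset.mem_biUnion.1 hAR'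
            apply he2
            exact Finset.mem_biUnion.2 ⟨l', hl'', Finset.mem_union_right _ hR⟩
          · intro ht
            obtain ⟨l', hl'', hJ⟩ := Finset.mem_biUnion.1 ht
            apply he2
            refine Finset.mem_biUnion.2 ⟨l', (Finset.mem_filter.1 hl'').1, ?_⟩
            exact Finset.mem_union_left _ (Finset.mem_union_right _ hJ)
        · apply Finset.mem_union_left
          exact Finset.mem_biUnion.2 ⟨l, hl, mem_outs.2 ⟨hel, hin⟩⟩
    have hcard : (Sf.card : ℝ) ≤ ∑ l ∈ range N, ((outs (Z l) (nat l)).card : ℝ)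
        + ∑ l ∈ range N, ∑ v ∈ Z l, 1 / ((edeg (Q l) v : ℝ) + 1)
        + ((G.edgeFinset.filter (fun e => ∀ l ∈ range N, e ∉ nat l)).card : ℝ) := by
      have h1 := Finset.card_le_card hsing
      have h2 := Finset.card_union_le (((range N).biUnion (fun l => outs (Z l) (nat l))) ∪
        ((range N).biUnion F)) (G.edgeFinset.filter (fun e => ∀ l ∈ range N, e ∉ nat l))
      have h3 := Finset.card_union_le ((range N).biUnion (fun l => outs (Z l) (nat l)))
        ((range N).biUnion F)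
      have h4 := Finset.card_biUnion_le (s := range N) (t := fun l => outs (Z l) (nat l))
      have h5 := Finset.card_biUnion_le (s := range N) (t := F)
      have h6 : ((∑ l ∈ range N, (F l).card : ℕ) : ℝ)
          ≤ ∑ l ∈ range N, ∑ v ∈ Z l, 1 / ((edeg (Q l) v : ℝ) + 1) := by
        push_cast
        exact Finset.sum_le_sum (fun l hl => (hJF l (Finset.mem_range.1 hl)).2.2.2)
      have h7 : ((∑ l ∈ range N, (outs (Z l) (nat l)).card : ℕ) : ℝ)
          = ∑ l ∈ range N, ((outs (Z l) (nat l)).card : ℝ) := by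
        push_cast
        rfl
      have h8 : (Sf.card : ℝ) ≤ ((∑ l ∈ range N, (outs (Z l) (nat l)).card : ℕ) : ℝ)
          + ((∑ l ∈ range N, (F l).card : ℕ) : ℝ)
          + ((G.edgeFinset.filter (fun e => ∀ l ∈ range N, e ∉ nat l)).card : ℝ) := by
        exact_mod_cast (by omega)
      rw [h7] at h8
      linarith
    have hlen : (Sf.toList.length : ℝ) = (Sf.card : ℝ) := by
      rw [Finset.length_toList]
    have hcost' : (((cl.map EGClass.cost).sum : ℕ) : ℝ) ≤ ∑ l ∈ range N, C l := hcost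
    rw [Nat.cast_add, hlen]
    linarith

end Assemble

/-! ### The class maker from `Skeleton.level_class_nat`, `level_class_zmod` -/

section Maker

open Crest.Agent.Lib.EG.Skeleton

/-- The graph of an edge set. -/
abbrev graphOf (H : Finset (Sym2 V)) : SimpleGraph V := SimpleGraph.fromEdgeSet (H : Set (Sym2 V))

instance graphOf_dec (H : Finset (Sym2 V)) : DecidableRel (graphOf H).Adj := by
  intro x y
  rw [SimpleGraph.fromEdgeSet_adj]
  exact inferInstance

lemma graphOf_adj (H : Finset (Sym2 V)) (x y : V) :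
    (graphOf H).Adj x y ↔ s(x, y) ∈ H ∧ x ≠ y := by
  simp [graphOf, SimpleGraph.fromEdgeSet_adj]

lemma graphOf_degree (H : Finset (Sym2 V)) (hH : ∀ e ∈ H, ¬ e.IsDiag) (v : V) :
    (graphOf H).degree v = edeg H v := by
  classical
  rw [← SimpleGraph.card_neighborFinset_eq_degree]
  unfold edeg
  apply Finset.card_bij (fun w _ => s(v, w))
  · intro w hw
    have h := (SimpleGraph.mem_neighborFinset _ _ _).1 hw
    have h2 := (graphOf_adj H v w).1 h
    exact Finset.mem_filter.2 ⟨h2.1, Sym2.mem_mk_left _ _⟩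
  · intro a _ b _ hab
    exact Sym2.congr_right.1 hab
  · intro e he
    obtain ⟨h1, h2⟩ := Finset.mem_filter.1 he
    obtain ⟨w, rfl⟩ := Sym2.mem_iff_exists.1 h2 |>.imp (fun _ h => h.symm)
    refine ⟨w, ?_, rfl⟩
    rw [SimpleGraph.mem_neighborFinset, graphOf_adj]
    refine ⟨h1, ?_⟩
    intro hvw
    apply hH _ h1
    simp [hvw]

/-- The data of one level for the maker. -/
structure LevelOK (G : SimpleGraph V) (col : V → Bool) (R : List (V × V)) : Prop where
  adj : ∀ p ∈ R, G.Adj p.1 p.2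
  valid : ValidArcs col R
  bal : ∀ v, (R.filter (fun p => p.2 = v)).length = (R.filter (fun p => p.1 = v)).length

/-- The edges of an arc list. -/
def edgesOf (R : List (V × V)) : Finset (Sym2 V) := (R.map (fun p => s(p.1, p.2))).toFinset

lemma mem_edgesOf (R : List (V × V)) (e : Sym2 V) :
    e ∈ edgesOf R ↔ ∃ p ∈ R, s(p.1, p.2) = e := by
  simp [edgesOf]

/-- Class maker: linear cells, wrap arcs are bad. -/
theorem mk_nat (G : SimpleGraph V) [DecidableRel G.Adj] (col : V → Bool) (j : V → ℕ) (R : List (V × V))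
    (hR : LevelOK G col R) (Z : Finset V) (H : Finset (Sym2 V)) (hHG : H ⊆ G.edgeFinset)
    (hHZ : ∀ e ∈ H, Inside Z e) (hHR : ∀ e ∈ H, e ∉ edgesOf R)
    (hHc : ∀ x y, s(x, y) ∈ H → j x = j y ∧ col x ≠ col y) (hev : ∀ v, Even (edeg H v)) :
    ∃ c : EGClass V, (∀ p ∈ c.A, G.Adj p.1 p.2) ∧
      (∀ p ∈ c.A, s(p.1, p.2) ∈ H ∨ s(p.1, p.2) ∈ edgesOf R) ∧
      (∀ e ∈ H, ∃ p ∈ c.A, s(p.1, p.2) = e) ∧ (∀ e ∈ edgesOf R, ∃ p ∈ c.A, s(p.1, p.2) = e) ∧
      (c.cost : ℝ) ≤ 2 * (badArcs j R : ℝ)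
        + ((Z.filter (fun v => ∀ p ∈ R, p.2 = v → j p.2 ≠ j p.1 + 1)).card : ℝ) := by
  classical
  have hdiag : ∀ e ∈ H, ¬ e.IsDiag := fun e he =>
    G.not_isDiag_of_mem_edgeSet (SimpleGraph.mem_edgeFinset.1 (hHG he))
  obtain ⟨c, h1, h2, h3, h4, h5⟩ := level_class_nat j col (graphOf H)
    (fun v => by rw [graphOf_degree H hdiag]; exact hev v)
    (fun x y hxy => (hHc x y ((graphOf_adj H x y).1 hxy).1).2)
    (fun x y hxy => (hHc x y ((graphOf_adj H x y).1 hxy).1).1)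
    R hR.valid
    (fun p hp hadj => hHR _ ((graphOf_adj H _ _).1 hadj).1 ((mem_edgesOf R _).2 ⟨p, hp, rfl⟩))
    hR.bal
  refine ⟨c, ?_, ?_, ?_, ?_, ?_⟩
  · intro p hp
    rcases h3 p hp with h | h
    · exact hR.adj p h
    · exact SimpleGraph.mem_edgeFinset.1 (hHG ((graphOf_adj H _ _).1 h).1)
  · intro p hp
    rcases h3 p hp with h | h
    · exact Or.inr ((mem_edgesOf R _).2 ⟨p, h, rfl⟩)
    · exact Or.inl ((graphOf_adj H _ _).1 h).1
  · intro e he
    induction e using Sym2.ind with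
    | _ x y =>
      have hne : x ≠ y := fun hxy => hdiag _ he (by simp [hxy])
      rcases h4 x y ((graphOf_adj H x y).2 ⟨he, hne⟩) with h | h
      · exact ⟨(x, y), h, rfl⟩
      · exact ⟨(y, x), h, Sym2.eq_swap⟩
  · intro e he
    obtain ⟨p, hp, rfl⟩ := (mem_edgesOf R e).1 he
    exact ⟨p, h2 p hp, rfl⟩
  · have hsub : noGood (graphOf H) j R ⊆ Z.filter (fun v => ∀ p ∈ R, p.2 = v → j p.2 ≠ j p.1 + 1) := by
      intro v hv
      obtain ⟨⟨u, hu⟩, hg⟩ := by simpa [noGood] using hv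
      refine Finset.mem_filter.2 ⟨?_, ?_⟩
      · exact hHZ _ ((graphOf_adj H _ _).1 hu).1 v (Sym2.mem_mk_left _ _)
      · intro p hp hpv
        exact hg p.1 p.2 hp hpv
    have h6 := Finset.card_le_card hsub
    have h7 : (c.cost : ℝ) ≤ ((2 * badArcs j R + (noGood (graphOf H) j R).card : ℕ) : ℝ) := by
      exact_mod_cast h5
    have h8 : ((noGood (graphOf H) j R).card : ℝ)
        ≤ ((Z.filter (fun v => ∀ p ∈ R, p.2 = v → j p.2 ≠ j p.1 + 1)).card : ℝ) := by
      exact_mod_cast h6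
    push_cast at h7
    linarith

/-- Class maker: cyclic cells, with the best cut of the ring. -/
theorem mk_zmod (G : SimpleGraph V) [DecidableRel G.Adj] (col : V → Bool) (L : ℕ) [NeZero L]
    (j : V → ZMod L) (R : List (V × V))
    (hR : LevelOK G col R) (Z : Finset V) (H : Finset (Sym2 V)) (hHG : H ⊆ G.edgeFinset)
    (hHZ : ∀ e ∈ H, Inside Z e) (hHR : ∀ e ∈ H, e ∉ edgesOf R)
    (hHc : ∀ x y, s(x, y) ∈ H → j x = j y ∧ col x ≠ col y) (hev : ∀ v, Even (edeg H v)) :
    ∃ c : EGClass V, (∀ p ∈ c.A, G.Adj p.1 p.2) ∧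
      (∀ p ∈ c.A, s(p.1, p.2) ∈ H ∨ s(p.1, p.2) ∈ edgesOf R) ∧
      (∀ e ∈ H, ∃ p ∈ c.A, s(p.1, p.2) = e) ∧ (∀ e ∈ edgesOf R, ∃ p ∈ c.A, s(p.1, p.2) = e) ∧
      (c.cost : ℝ) ≤ 2 * ((R.filter (fun p => j p.2 ≠ j p.1 + 1)).length : ℝ)
        + ((Z.filter (fun v => ∀ p ∈ R, p.2 = v → j p.2 ≠ j p.1 + 1)).card : ℝ)
        + (2 * (R.length : ℝ) + (Fintype.card V : ℝ)) / (L : ℝ) := by
  classical
  have hdiag : ∀ e ∈ H, ¬ e.IsDiag := fun e he =>
    G.not_isDiag_of_mem_edgeSet (SimpleGraph.mem_edgeFinset.1 (hHG he))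
  obtain ⟨c, h1, h2, h3, h4, h5⟩ := level_class_zmod L j col (graphOf H)
    (fun v => by rw [graphOf_degree H hdiag]; exact hev v)
    (fun x y hxy => (hHc x y ((graphOf_adj H x y).1 hxy).1).2)
    (fun x y hxy => (hHc x y ((graphOf_adj H x y).1 hxy).1).1)
    R hR.valid
    (fun p hp hadj => hHR _ ((graphOf_adj H _ _).1 hadj).1 ((mem_edgesOf R _).2 ⟨p, hp, rfl⟩))
    hR.bal
  refine ⟨c, ?_, ?_, ?_, ?_, ?_⟩
  · intro p hp
    rcases h3 p hp with h | h
    · exact hR.adj p h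
    · exact SimpleGraph.mem_edgeFinset.1 (hHG ((graphOf_adj H _ _).1 h).1)
  · intro p hp
    rcases h3 p hp with h | h
    · exact Or.inr ((mem_edgesOf R _).2 ⟨p, h, rfl⟩)
    · exact Or.inl ((graphOf_adj H _ _).1 h).1
  · intro e he
    induction e using Sym2.ind with
    | _ x y =>
      have hne : x ≠ y := fun hxy => hdiag _ he (by simp [hxy])
      rcases h4 x y ((graphOf_adj H x y).2 ⟨he, hne⟩) with h | h
      · exact ⟨(x, y), h, rfl⟩
      · exact ⟨(y, x), h, Sym2.eq_swap⟩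
  · intro e he
    obtain ⟨p, hp, rfl⟩ := (mem_edgesOf R e).1 he
    exact ⟨p, h2 p hp, rfl⟩
  · have hsub : (Finset.univ.filter (fun v => (∃ u, (graphOf H).Adj v u) ∧
        ∀ p ∈ R, p.2 = v → j p.2 ≠ j p.1 + 1)) ⊆
        Z.filter (fun v => ∀ p ∈ R, p.2 = v → j p.2 ≠ j p.1 + 1) := by
      intro v hv
      obtain ⟨-, ⟨u, hu⟩, hg⟩ := Finset.mem_filter.1 hv
      refine Finset.mem_filter.2 ⟨?_, hg⟩
      exact hHZ _ ((graphOf_adj H _ _).1 hu).1 v (Sym2.mem_mk_left _ _)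
    have h6 := Finset.card_le_card hsub
    have hLpos : (0 : ℝ) < (L : ℝ) := by
      have : 0 < L := Nat.pos_of_ne_zero (NeZero.ne L)
      exact_mod_cast this
    have h7 : (L : ℝ) * (c.cost : ℝ) ≤ (L : ℝ) * (2 * ((R.filter (fun p => j p.2 ≠ j p.1 + 1)).length : ℝ)
        + ((Finset.univ.filter (fun v => (∃ u, (graphOf H).Adj v u) ∧
          ∀ p ∈ R, p.2 = v → j p.2 ≠ j p.1 + 1)).card : ℝ))
        + 2 * (R.length : ℝ) + (Fintype.card V : ℝ) := by
      exact_mod_cast h5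
    have h8 : ((Finset.univ.filter (fun v => (∃ u, (graphOf H).Adj v u) ∧
          ∀ p ∈ R, p.2 = v → j p.2 ≠ j p.1 + 1)).card : ℝ)
        ≤ ((Z.filter (fun v => ∀ p ∈ R, p.2 = v → j p.2 ≠ j p.1 + 1)).card : ℝ) := by
      exact_mod_cast h6
    have h9 : (c.cost : ℝ) ≤ 2 * ((R.filter (fun p => j p.2 ≠ j p.1 + 1)).length : ℝ)
        + ((Finset.univ.filter (fun v => (∃ u, (graphOf H).Adj v u) ∧
          ∀ p ∈ R, p.2 = v → j p.2 ≠ j p.1 + 1)).card : ℝ)
        + (2 * (R.length : ℝ) + (Fintype.card V : ℝ)) / (L : ℝ) := by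
      have e1 : (2 * (R.length : ℝ) + (Fintype.card V : ℝ)) / (L : ℝ) * (L : ℝ)
          = 2 * (R.length : ℝ) + (Fintype.card V : ℝ) := by
        field_simp
      nlinarith
    linarith

end Maker

/-! ### The final forms -/

section Final

open Crest.Agent.Lib.EG.Skeleton

/-- **Deterministic assembly, linear cells** (`j l : V → ℕ`, wrap arcs count as bad). -/
theorem assemble_nat (G : SimpleGraph V) [DecidableRel G.Adj] (N : ℕ) (Z : ℕ → Finset V)
    (nat Q : ℕ → Finset (Sym2 V)) (col : ℕ → V → Bool) (j : ℕ → V → ℕ) (R : ℕ → List (V × V))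
    (hnatG : ∀ l, nat l ⊆ G.edgeFinset)
    (hnatD : ∀ l l', l ≠ l' → Disjoint (nat l) (nat l'))
    (hQG : ∀ l, Q l ⊆ G.edgeFinset)
    (hQZ : ∀ l, ∀ e ∈ Q l, Inside (Z l) e)
    (hQD : ∀ l l', l ≠ l' → Disjoint (Q l) (Q l'))
    (hQn : ∀ l l', l ≤ l' → Disjoint (Q l) (nat l'))
    (hQR : ∀ l l', Disjoint (Q l) (edgesOf (R l')))
    (hRD : ∀ l l', l ≠ l' → Disjoint (edgesOf (R l)) (edgesOf (R l')))
    (hR : ∀ l < N, LevelOK G (col l) (R l))
    (hnatC : ∀ l < N, ∀ x y, s(x, y) ∈ nat l → j l x = j l y ∧ col l x ≠ col l y)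
    (hQC : ∀ l < N, ∀ x y, s(x, y) ∈ Q l → j l x = j l y ∧ col l x ≠ col l y) :
    ∃ (cl : List (EGClass V)) (Ss : List (Sym2 V)),
      (∀ p ∈ cl.flatMap EGClass.A, G.Adj p.1 p.2) ∧
      (cl.flatMap EGClass.A).Nodup ∧
      (∀ p ∈ cl.flatMap EGClass.A, (p.2, p.1) ∉ cl.flatMap EGClass.A) ∧
      (∀ e ∈ Ss, e ∈ G.edgeSet) ∧ Ss.Nodup ∧
      (∀ p ∈ cl.flatMap EGClass.A, s(p.1, p.2) ∉ Ss) ∧
      (∀ e ∈ G.edgeSet, e ∈ Ss ∨ ∃ p ∈ cl.flatMap EGClass.A, s(p.1, p.2) = e) ∧
      (((cl.map EGClass.cost).sum + Ss.length : ℕ) : ℝ) ≤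
        ∑ l ∈ range N, (2 * (badArcs (j l) (R l) : ℝ)
          + (((Z l).filter (fun v => ∀ p ∈ R l, p.2 = v → j l p.2 ≠ j l p.1 + 1)).card : ℝ))
        + ∑ l ∈ range N, ((outs (Z l) (nat l)).card : ℝ)
        + ∑ l ∈ range N, ∑ v ∈ Z l, 1 / ((edeg (Q l) v : ℝ) + 1)
        + ((G.edgeFinset.filter (fun e => ∀ l ∈ range N, e ∉ nat l)).card : ℝ) := by
  refine assemble G N Z nat Q (fun l => edgesOf (R l)) _ hnatG hnatD hQG hQZ hQD hQn hQR hRD ?_
  intro l hl H hH hHR hev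
  have hmem : ∀ e ∈ H, (e ∈ nat l ∧ Inside (Z l) e) ∨ e ∈ Q l := by
    intro e he
    rcases Finset.mem_union.1 (hH he) with h | h
    · exact Or.inl (mem_ins.1 h)
    · exact Or.inr h
  refine mk_nat G (col l) (j l) (R l) (hR l hl) (Z l) H ?_ ?_ hHR ?_ hev
  · intro e he
    rcases hmem e he with h | h
    · exact hnatG l h.1
    · exact hQG l h
  · intro e he
    rcases hmem e he with h | h
    · exact h.2
    · exact hQZ l e h
  · intro x y hxy
    rcases hmem _ hxy with h | h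
    · exact hnatC l hl x y h.1
    · exact hQC l hl x y h

/-- **Deterministic assembly, cyclic cells** (`j l : V → ZMod (L l)`, best cut of each ring). -/
theorem assemble_zmod (G : SimpleGraph V) [DecidableRel G.Adj] (N : ℕ) (Z : ℕ → Finset V)
    (nat Q : ℕ → Finset (Sym2 V)) (col : ℕ → V → Bool) (L : ℕ → ℕ) [∀ l, NeZero (L l)]
    (j : ∀ l, V → ZMod (L l)) (R : ℕ → List (V × V))
    (hnatG : ∀ l, nat l ⊆ G.edgeFinset)
    (hnatD : ∀ l l', l ≠ l' → Disjoint (nat l) (nat l'))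
    (hQG : ∀ l, Q l ⊆ G.edgeFinset)
    (hQZ : ∀ l, ∀ e ∈ Q l, Inside (Z l) e)
    (hQD : ∀ l l', l ≠ l' → Disjoint (Q l) (Q l'))
    (hQn : ∀ l l', l ≤ l' → Disjoint (Q l) (nat l'))
    (hQR : ∀ l l', Disjoint (Q l) (edgesOf (R l')))
    (hRD : ∀ l l', l ≠ l' → Disjoint (edgesOf (R l)) (edgesOf (R l')))
    (hR : ∀ l < N, LevelOK G (col l) (R l))
    (hnatC : ∀ l < N, ∀ x y, s(x, y) ∈ nat l → j l x = j l y ∧ col l x ≠ col l y)
    (hQC : ∀ l < N, ∀ x y, s(x, y) ∈ Q l → j l x = j l y ∧ col l x ≠ col l y) :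
    ∃ (cl : List (EGClass V)) (Ss : List (Sym2 V)),
      (∀ p ∈ cl.flatMap EGClass.A, G.Adj p.1 p.2) ∧
      (cl.flatMap EGClass.A).Nodup ∧
      (∀ p ∈ cl.flatMap EGClass.A, (p.2, p.1) ∉ cl.flatMap EGClass.A) ∧
      (∀ e ∈ Ss, e ∈ G.edgeSet) ∧ Ss.Nodup ∧
      (∀ p ∈ cl.flatMap EGClass.A, s(p.1, p.2) ∉ Ss) ∧
      (∀ e ∈ G.edgeSet, e ∈ Ss ∨ ∃ p ∈ cl.flatMap EGClass.A, s(p.1, p.2) = e) ∧
      (((cl.map EGClass.cost).sum + Ss.length : ℕ) : ℝ) ≤
        ∑ l ∈ range N, (2 * (((R l).filter (fun p => j l p.2 ≠ j l p.1 + 1)).length : ℝ)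
          + (((Z l).filter (fun v => ∀ p ∈ R l, p.2 = v → j l p.2 ≠ j l p.1 + 1)).card : ℝ)
          + (2 * ((R l).length : ℝ) + (Fintype.card V : ℝ)) / (L l : ℝ))
        + ∑ l ∈ range N, ((outs (Z l) (nat l)).card : ℝ)
        + ∑ l ∈ range N, ∑ v ∈ Z l, 1 / ((edeg (Q l) v : ℝ) + 1)
        + ((G.edgeFinset.filter (fun e => ∀ l ∈ range N, e ∉ nat l)).card : ℝ) := by
  refine assemble G N Z nat Q (fun l => edgesOf (R l)) _ hnatG hnatD hQG hQZ hQD hQn hQR hRD ?_
  intro l hl H hH hHR hev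
  have hmem : ∀ e ∈ H, (e ∈ nat l ∧ Inside (Z l) e) ∨ e ∈ Q l := by
    intro e he
    rcases Finset.mem_union.1 (hH he) with h | h
    · exact Or.inl (mem_ins.1 h)
    · exact Or.inr h
  refine mk_zmod G (col l) (L l) (j l) (R l) (hR l hl) (Z l) H ?_ ?_ hHR ?_ hev
  · intro e he
    rcases hmem e he with h | h
    · exact hnatG l h.1
    · exact hQG l h
  · intro e he
    rcases hmem e he with h | h
    · exact h.2
    · exact hQZ l e h
  · intro x y hxy
    rcases hmem _ hxy with h | h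
    · exact hnatC l hl x y h.1
    · exact hQC l hl x y h

end Final

end Crest.Agent.Lib.EG.LevelAsm
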