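/-
  Row 45 (S0064), expectation sums of #2368, no reference to any statement.

  * `sum_outside_core_le`: the layer count. If `T` is monotone and `T l ≤ 2^l` then
      `∑_{l0 ≤ l ≤ K} 2^{-(l+1)} #{edges not inside core (T l)} ≤ n`.
  * `expect_pruned`: the expected number of edges of native level `l` not inside the core of level `l`,
    summed over the levels, is at most `n`.
  * `expect_no_bit`: edges whose first `N` bits agree.
  * `sum_inv_star_le`: `E[1/(d+1)] ≤ 6/μ` for a star sum `d` of `0/1` variables with mean `μ`, the form of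
    `E #components` in the parity step (`TJoin.numComp_le_sum`).
-/
import Crest.Agent.Lib.EG.Core
import Crest.Agent.Lib.EG.Sample

set_option autoImplicit false
set_option linter.unusedSectionVars false

open Finset

namespace Crest.Agent.Lib.EG.Pruned

open Crest.Agent.Lib.EG.Core Crest.Agent.Lib.EG.Sample

variable {V : Type*} [Fintype V] [DecidableEq V] (G : SimpleGraph V) [DecidableRel G.Adj]

/-- Edges not inside `Z`. -/
def outside (Z : Finset V) : Finset (Sym2 V) :=
  G.edgeFinset.filter (fun e => ¬ ∀ x ∈ e, x ∈ Z)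

lemma mem_outside {Z : Finset V} {e : Sym2 V} :
    e ∈ outside G Z ↔ e ∈ G.edgeFinset ∧ ¬ ∀ x ∈ e, x ∈ Z := by
  simp [outside]

/-- Edges outside the core: the sharp form, with `|V \ core|`. -/
lemma card_outside_core_le (T : ℕ) :
    (outside G (core G T)).card ≤ T * (Fintype.card V - (core G T).card) := by
  have h := card_edgesIn_sdiff_le G T (core G T) rfl _ univ (subset_univ _) rfl
  have hsub : outside G (core G T) ⊆ edgesIn G univ \ edgesIn G (core G T) := by
    intro e he
    rw [mem_outside] at he
    rw [mem_sdiff, mem_edgesIn, mem_edgesIn]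
    exact ⟨⟨he.1, fun _ _ => mem_univ _⟩, fun h' => he.2 h'.2⟩
  have hc : (univ \ core G T).card = Fintype.card V - (core G T).card := by
    rw [Finset.card_sdiff_of_subset (subset_univ _), Finset.card_univ]
  rw [hc] at h
  exact (card_le_card hsub).trans h

/-- One layer: edges outside the core of `T'` are outside the core of `T`, or in the layer. -/
lemma card_outside_step {T T' : ℕ} (h : T ≤ T') :
    (outside G (core G T')).card
      ≤ (outside G (core G T)).card + T' * ((core G T).card - (core G T').card) := by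
  have hsub' := core_anti G h
  have hlayer := card_edgesIn_sdiff_le G T' (core G T') rfl _ (core G T) hsub' rfl
  have hc : (core G T \ core G T').card = (core G T).card - (core G T').card :=
    Finset.card_sdiff_of_subset hsub'
  rw [hc] at hlayer
  have hsub : outside G (core G T') ⊆
      outside G (core G T) ∪ (edgesIn G (core G T) \ edgesIn G (core G T')) := by
    intro e he
    rw [mem_outside] at he
    rw [mem_union, mem_outside, mem_sdiff, mem_edgesIn, mem_edgesIn]
    by_cases hin : ∀ x ∈ e, x ∈ core G T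
    · exact Or.inr ⟨⟨he.1, hin⟩, fun h' => he.2 h'.2⟩
    · exact Or.inl ⟨he.1, hin⟩
  calc (outside G (core G T')).card ≤ _ := card_le_card hsub
    _ ≤ _ := card_union_le _ _
    _ ≤ _ := Nat.add_le_add_left hlayer _

/-- THE LAYER COUNT. -/
theorem sum_outside_core_le (T : ℕ → ℕ) (hmono : Monotone T) (hT2 : ∀ l, T l ≤ 2 ^ l)
    (l0 K : ℕ) :
    ∑ l ∈ Finset.Icc l0 K, ((1 : ℝ) / 2) ^ (l + 1) * ((outside G (core G (T l))).card : ℝ)
      ≤ Fintype.card V := by
  classical
  by_cases hK : l0 ≤ K
  swap
  · rw [Finset.Icc_eq_empty hK, Finset.sum_empty]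
    positivity
  -- the invariant
  have key : ∀ d : ℕ,
      ∑ l ∈ Finset.Icc l0 (l0 + d), ((1 : ℝ) / 2) ^ (l + 1) * ((outside G (core G (T l))).card : ℝ)
        + ((1 : ℝ) / 2) ^ (l0 + d + 1) * ((outside G (core G (T (l0 + d)))).card : ℝ)
      ≤ (Fintype.card V : ℝ) - ((core G (T (l0 + d))).card : ℝ) := by
    intro d
    induction d with
    | zero =>
      have h1 := card_outside_core_le G (T l0)
      have hle : (core G (T l0)).card ≤ Fintype.card V := Finset.card_le_univ _
      have h2 : ((outside G (core G (T l0))).card : ℝ)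
          ≤ (T l0 : ℝ) * ((Fintype.card V : ℝ) - ((core G (T l0)).card : ℝ)) := by
        have : (((Fintype.card V - (core G (T l0)).card : ℕ)) : ℝ)
            = (Fintype.card V : ℝ) - ((core G (T l0)).card : ℝ) := by
          rw [Nat.cast_sub hle]
        rw [← this]
        exact_mod_cast h1
      have h3 : (T l0 : ℝ) ≤ 2 ^ l0 := by exact_mod_cast hT2 l0
      have h4 : 0 ≤ (Fintype.card V : ℝ) - ((core G (T l0)).card : ℝ) := by
        have : ((core G (T l0)).card : ℝ) ≤ Fintype.card V := by exact_mod_cast hle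
        linarith
      simp only [add_zero, Finset.Icc_self, Finset.sum_singleton]
      have h5 : ((1 : ℝ) / 2) ^ (l0 + 1) * ((outside G (core G (T l0))).card : ℝ)
          + ((1 : ℝ) / 2) ^ (l0 + 1) * ((outside G (core G (T l0))).card : ℝ)
          = ((1 : ℝ) / 2) ^ l0 * ((outside G (core G (T l0))).card : ℝ) := by
        rw [pow_succ]; ring
      rw [h5]
      have h6 : ((1 : ℝ) / 2) ^ l0 * (2 : ℝ) ^ l0 = 1 := by
        rw [← mul_pow]; norm_num
      have h7 : (0 : ℝ) < (1 / 2) ^ l0 := by positivity
      calc ((1 : ℝ) / 2) ^ l0 * ((outside G (core G (T l0))).card : ℝ)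
          ≤ ((1 : ℝ) / 2) ^ l0 * ((T l0 : ℝ) * ((Fintype.card V : ℝ) - ((core G (T l0)).card : ℝ))) :=
            mul_le_mul_of_nonneg_left h2 h7.le
        _ ≤ ((1 : ℝ) / 2) ^ l0 * ((2 : ℝ) ^ l0 * ((Fintype.card V : ℝ) - ((core G (T l0)).card : ℝ))) :=
            mul_le_mul_of_nonneg_left (mul_le_mul_of_nonneg_right h3 h4) h7.le
        _ = (Fintype.card V : ℝ) - ((core G (T l0)).card : ℝ) := by
            rw [← mul_assoc, h6, one_mul]
    | succ d ih =>
      have hT : T (l0 + d) ≤ T (l0 + (d + 1)) := hmono (by omega)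
      have h1 := card_outside_step G hT
      have hle : (core G (T (l0 + (d + 1)))).card ≤ (core G (T (l0 + d))).card :=
        card_le_card (core_anti G hT)
      set K' := l0 + d with hK'
      set a := ((outside G (core G (T K'))).card : ℝ) with ha
      set a' := ((outside G (core G (T (l0 + (d + 1))))).card : ℝ) with ha'
      set z := ((core G (T K')).card : ℝ) with hz
      set z' := ((core G (T (l0 + (d + 1)))).card : ℝ) with hz'
      have h2 : a' ≤ a + (T (l0 + (d + 1)) : ℝ) * (z - z') := by
        have : (((core G (T K')).card - (core G (T (l0 + (d + 1)))).card : ℕ) : ℝ) = z - z' := by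
          rw [Nat.cast_sub hle]
        rw [← this, ha', ha]
        exact_mod_cast h1
      have h3 : (T (l0 + (d + 1)) : ℝ) ≤ 2 ^ (K' + 1) := by
        have := hT2 (l0 + (d + 1))
        have h' : l0 + (d + 1) = K' + 1 := by omega
        rw [h'] at this ⊢
        exact_mod_cast this
      have hzz : 0 ≤ z - z' := by
        have : z' ≤ z := by
          rw [hz', hz]; exact_mod_cast hle
        linarith
      have hIcc : Finset.Icc l0 (l0 + (d + 1)) = insert (K' + 1) (Finset.Icc l0 K') := by
        ext x
        simp only [Finset.mem_Icc, Finset.mem_insert]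
        omega
      have hnot : K' + 1 ∉ Finset.Icc l0 K' := by
        simp only [Finset.mem_Icc]; omega
      have hK1 : l0 + (d + 1) = K' + 1 := by omega
      rw [hIcc, Finset.sum_insert hnot]
      rw [hK1] at ha' hz' h2 h3 ⊢
      have h6 : ((1 : ℝ) / 2) ^ (K' + 1) * (2 : ℝ) ^ (K' + 1) = 1 := by
        rw [← mul_pow]; norm_num
      have h7 : (0 : ℝ) < (1 / 2) ^ (K' + 1) := by positivity
      have h8 : ((1 : ℝ) / 2) ^ (K' + 1 + 1) = (1 / 2) ^ (K' + 1) * (1 / 2) := pow_succ _ _
      rw [← ha', h8]
      have h9 : ((1 : ℝ) / 2) ^ (K' + 1) * a'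
          ≤ ((1 : ℝ) / 2) ^ (K' + 1) * a + (z - z') := by
        calc ((1 : ℝ) / 2) ^ (K' + 1) * a'
            ≤ ((1 : ℝ) / 2) ^ (K' + 1) * (a + (2 : ℝ) ^ (K' + 1) * (z - z')) := by
              apply mul_le_mul_of_nonneg_left _ h7.le
              have := mul_le_mul_of_nonneg_right h3 hzz
              linarith
          _ = ((1 : ℝ) / 2) ^ (K' + 1) * a + (((1 : ℝ) / 2) ^ (K' + 1) * (2 : ℝ) ^ (K' + 1)) * (z - z') := by
              ring
          _ = _ := by rw [h6, one_mul]
      nlinarith [ih, h9]
  obtain ⟨d, rfl⟩ := Nat.exists_eq_add_of_le hK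
  have h1 := key d
  have h2 : 0 ≤ ((1 : ℝ) / 2) ^ (l0 + d + 1) * ((outside G (core G (T (l0 + d)))).card : ℝ) := by
    positivity
  have h3 : (0 : ℝ) ≤ ((core G (T (l0 + d))).card : ℝ) := by positivity
  linarith

variable {N : ℕ}

/-- Native level of an edge: a predicate on `Sym2 V` which implies `Native` on each representation. -/
def NativeAt (G : SimpleGraph V) (nat : (V → Fin N → Bool) → ℕ → Sym2 V → Prop) : Prop :=
  ∀ a b, G.Adj a b → ∀ pos l, nat pos l s(a, b) → Native l (pos a) (pos b)

/-- The expected number of pruned edges. -/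
theorem expect_pruned (T : ℕ → ℕ) (hmono : Monotone T) (hT2 : ∀ l, T l ≤ 2 ^ l)
    (nat : (V → Fin N → Bool) → ℕ → Sym2 V → Prop)
    [∀ pos l e, Decidable (nat pos l e)]
    (hnat : NativeAt G nat) (l0 K : ℕ) (hK : K < N) :
    ∑ pos : V → Fin N → Bool, ∑ l ∈ Finset.Icc l0 K,
        (((outside G (core G (T l))).filter fun e => nat pos l e).card : ℝ)
      ≤ (Fintype.card V : ℝ) * Fintype.card (V → Fin N → Bool) := by
  classical
  rw [Finset.sum_comm]
  have h1 : ∀ l ∈ Finset.Icc l0 K, ∑ pos : V → Fin N → Bool,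
      (((outside G (core G (T l))).filter fun e => nat pos l e).card : ℝ)
      ≤ ((1 : ℝ) / 2) ^ (l + 1) * ((outside G (core G (T l))).card : ℝ)
          * Fintype.card (V → Fin N → Bool) := by
    intro l hl
    have hlK : l < N := lt_of_le_of_lt (Finset.mem_Icc.1 hl).2 hK
    rw [sum_card_filter_comm]
    calc ∑ e ∈ outside G (core G (T l)),
          ((Finset.univ.filter fun pos : V → Fin N → Bool => nat pos l e).card : ℝ)
        ≤ ∑ _e ∈ outside G (core G (T l)),
            ((1 : ℝ) / 2) ^ (l + 1) * Fintype.card (V → Fin N → Bool) := by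
          refine Finset.sum_le_sum fun e he => ?_
          have heG := ((mem_outside G).1 he).1
          induction e using Sym2.inductionOn with
          | _ a b =>
            have hadj : G.Adj a b := by simpa using heG
            rw [← card_native hlK a b hadj.ne]
            have hsub : (Finset.univ.filter fun pos : V → Fin N → Bool => nat pos l s(a, b))
                ⊆ Finset.univ.filter fun pos : V → Fin N → Bool => Native l (pos a) (pos b) := by
              intro pos hpos
              simp only [Finset.mem_filter, Finset.mem_univ, true_and] at hpos ⊢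
              exact hnat a b hadj pos l hpos
            exact_mod_cast Finset.card_le_card hsub
      _ = _ := by
          rw [Finset.sum_const, nsmul_eq_mul]
          ring
  calc ∑ l ∈ Finset.Icc l0 K, ∑ pos : V → Fin N → Bool,
        (((outside G (core G (T l))).filter fun e => nat pos l e).card : ℝ)
      ≤ ∑ l ∈ Finset.Icc l0 K, ((1 : ℝ) / 2) ^ (l + 1) * ((outside G (core G (T l))).card : ℝ)
          * Fintype.card (V → Fin N → Bool) := Finset.sum_le_sum h1
    _ = (∑ l ∈ Finset.Icc l0 K, ((1 : ℝ) / 2) ^ (l + 1) * ((outside G (core G (T l))).card : ℝ))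
          * Fintype.card (V → Fin N → Bool) := by rw [Finset.sum_mul]
    _ ≤ _ := mul_le_mul_of_nonneg_right (sum_outside_core_le G T hmono hT2 l0 K) (by positivity)

/-- The expected number of edges on which all `N` bits agree. -/
theorem expect_no_bit (same : (V → Fin N → Bool) → Sym2 V → Prop)
    [∀ pos e, Decidable (same pos e)]
    (hsame : ∀ a b, G.Adj a b → ∀ pos, same pos s(a, b) → AgreeUpTo N (pos a) (pos b)) :
    ∑ pos : V → Fin N → Bool, ((G.edgeFinset.filter fun e => same pos e).card : ℝ)
      ≤ ((1 : ℝ) / 2) ^ N * (G.edgeFinset.card : ℝ) * Fintype.card (V → Fin N → Bool) := by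
  classical
  rw [sum_card_filter_comm]
  calc ∑ e ∈ G.edgeFinset, ((Finset.univ.filter fun pos : V → Fin N → Bool => same pos e).card : ℝ)
      ≤ ∑ _e ∈ G.edgeFinset, ((1 : ℝ) / 2) ^ N * Fintype.card (V → Fin N → Bool) := by
        refine Finset.sum_le_sum fun e he => ?_
        induction e using Sym2.inductionOn with
        | _ a b =>
          have hadj : G.Adj a b := by simpa using he
          rw [← card_agree (le_refl N) a b hadj.ne]
          have hsub : (Finset.univ.filter fun pos : V → Fin N → Bool => same pos s(a, b))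
              ⊆ Finset.univ.filter fun pos : V → Fin N → Bool => AgreeUpTo N (pos a) (pos b) := by
            intro pos hpos
            simp only [Finset.mem_filter, Finset.mem_univ, true_and] at hpos ⊢
            exact hsame a b hadj pos hpos
          exact_mod_cast Finset.card_le_card hsub
    _ = _ := by
        rw [Finset.sum_const, nsmul_eq_mul]
        ring

/-- `E[1/(d+1)] ≤ 6/μ` for a star sum `d = ∑_{u ∈ W} y u (j v) (j u)` of variables in `[0,1]`
with constant conditional means. -/
theorem sum_inv_star_le {Λ : Type*} [Fintype Λ] [DecidableEq Λ] [Nonempty Λ]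
    (v : V) (W : Finset V) (hW : v ∉ W) (y : V → Λ → Λ → ℝ) (θ : V → ℝ)
    (h01 : ∀ u x x', 0 ≤ y u x x' ∧ y u x x' ≤ 1)
    (hy : ∀ u ∈ W, ∀ x, ∑ x', y u x x' = θ u * Fintype.card Λ)
    (μ : ℝ) (hμ : μ = ∑ u ∈ W, θ u) (hμ0 : 0 < μ) :
    ∑ j : V → Λ, 1 / (∑ u ∈ W, y u (j v) (j u) + 1)
      ≤ 6 / μ * Fintype.card (V → Λ) := by
  classical
  have hcount := card_star_lt_half_mean v W hW y θ h01 hy μ hμ hμ0
  set X : (V → Λ) → ℝ := fun j => ∑ u ∈ W, y u (j v) (j u) with hX
  have hX0 : ∀ j, 0 ≤ X j := fun j => Finset.sum_nonneg fun u _ => (h01 _ _ _).1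
  have hpt : ∀ j, 1 / (X j + 1)
      ≤ (if X j < μ / 2 then (1 : ℝ) else 0) + 2 / μ := by
    intro j
    have h1 : 0 < X j + 1 := by linarith [hX0 j]
    split_ifs with h
    · have : 1 / (X j + 1) ≤ 1 := by
        rw [div_le_one h1]; linarith [hX0 j]
      have h2 : 0 < 2 / μ := by positivity
      linarith
    · push_neg at h
      rw [zero_add, div_le_div_iff₀ h1 hμ0]
      linarith
  calc ∑ j : V → Λ, 1 / (X j + 1)
      ≤ ∑ j : V → Λ, ((if X j < μ / 2 then (1 : ℝ) else 0) + 2 / μ) :=
        Finset.sum_le_sum fun j _ => hpt j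
    _ = ((Finset.univ.filter fun j : V → Λ => X j < μ / 2).card : ℝ)
          + 2 / μ * Fintype.card (V → Λ) := by
        rw [Finset.sum_add_distrib, Finset.sum_boole]
        simp [Finset.card_univ, mul_comm]
    _ ≤ 4 / μ * Fintype.card (V → Λ) + 2 / μ * Fintype.card (V → Λ) := by
        linarith [hcount]
    _ = _ := by ring

end Crest.Agent.Lib.EG.Pruned
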