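import Crest.Agent.Lib.EG.LevelAsm
import Crest.Agent.Lib.EG.Sample
import Crest.Agent.Lib.EG.Pruned

/-!
# Level assembly in terms of bits (row 45, S0064)

`pos : V → Fin M → Bool`.  The native edges of level `l` are the edges first differing at bit `l`.
Here everything in `LevelAsm.assemble_nat` about native edges is discharged.
-/

set_option linter.unusedSectionVars false

namespace Crest.Agent.Lib.EG.LevelBits

open Crest.Agent.Lib.EG.Winding Crest.Agent.Lib.EG.LevelAsm Crest.Agent.Lib.EG.Sample Finset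

variable {V : Type} [Fintype V] [DecidableEq V] {M : ℕ}

lemma native_symm {l : ℕ} {x y : Fin M → Bool} (h : Native l x y) : Native l y x :=
  ⟨fun i hi => (h.1 i hi).symm, fun i hi => (h.2 i hi).symm⟩

lemma native_unique {l l' : ℕ} {x y : Fin M → Bool} (hl : l < M) (hl' : l' < M)
    (h : Native l x y) (h' : Native l' x y) : l = l' := by
  by_contra hne
  rcases lt_or_gt_of_ne hne with hlt | hlt
  · exact h.2 ⟨l, hl⟩ rfl (h'.1 ⟨l, hl⟩ hlt)
  · exact h'.2 ⟨l', hl'⟩ rfl (h.1 ⟨l', hl'⟩ hlt)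

/-- Either all bits agree, or there is a first differing bit. -/
lemma exists_native (x y : Fin M → Bool) : AgreeUpTo M x y ∨ ∃ l < M, Native l x y := by
  by_cases h : AgreeUpTo M x y
  · exact Or.inl h
  · right
    have hex : ∃ l, l < M ∧ ∃ h : l < M, x ⟨l, h⟩ ≠ y ⟨l, h⟩ := by
      unfold AgreeUpTo at h
      push Not at h
      obtain ⟨i, hi, hne⟩ := h
      exact ⟨i.val, hi, hi, hne⟩
    classical
    let l := Nat.find hex
    have hl := Nat.find_spec hex
    refine ⟨l, hl.1, ?_, ?_⟩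
    · intro i hi
      by_contra hne
      exact Nat.find_min hex hi ⟨i.isLt.trans_le le_rfl, i.isLt, hne⟩
    · intro i hi
      obtain ⟨_, h2, h3⟩ := hl
      have : i = ⟨l, h2⟩ := Fin.ext hi
      rw [this]
      exact h3

/-- The native level as a predicate on unordered pairs. -/
def NatE (pos : V → Fin M → Bool) (l : ℕ) (e : Sym2 V) : Prop :=
  l < M ∧ ∀ x y, e = s(x, y) → Native l (pos x) (pos y)

lemma natE_mk {pos : V → Fin M → Bool} {l : ℕ} {x y : V} :
    NatE pos l s(x, y) ↔ l < M ∧ Native l (pos x) (pos y) := by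
  constructor
  · rintro ⟨h1, h2⟩
    exact ⟨h1, h2 x y rfl⟩
  · rintro ⟨h1, h2⟩
    refine ⟨h1, fun a b hab => ?_⟩
    rcases Sym2.eq_iff.1 hab with ⟨rfl, rfl⟩ | ⟨rfl, rfl⟩
    · exact h2
    · exact native_symm h2

open Classical in
/-- The native edges of level `l`. -/
noncomputable def natEdges (G : SimpleGraph V) [DecidableRel G.Adj] (pos : V → Fin M → Bool) (l : ℕ) :
    Finset (Sym2 V) :=
  G.edgeFinset.filter (NatE pos l)

lemma mem_natEdges {G : SimpleGraph V} [DecidableRel G.Adj] {pos : V → Fin M → Bool} {l : ℕ}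
    {e : Sym2 V} : e ∈ natEdges G pos l ↔ e ∈ G.edgeFinset ∧ NatE pos l e := by
  classical
  simp [natEdges]

/-- **The assembly for bits.** -/
theorem assemble_bits (G : SimpleGraph V) [DecidableRel G.Adj] (pos : V → Fin M → Bool)
    (Z : ℕ → Finset V) (Q : ℕ → Finset (Sym2 V)) (col : ℕ → V → Bool) (j : ℕ → V → ℕ)
    (R : ℕ → List (V × V))
    (hj : ∀ l < M, ∀ x y, AgreeUpTo l (pos x) (pos y) → j l x = j l y)
    (hcol : ∀ l < M, ∀ x y, Native l (pos x) (pos y) → col l x ≠ col l y)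
    (hQG : ∀ l, Q l ⊆ G.edgeFinset)
    (hQZ : ∀ l, ∀ e ∈ Q l, Inside (Z l) e)
    (hQD : ∀ l l', l ≠ l' → Disjoint (Q l) (Q l'))
    (hQs : ∀ l, ∀ x y, s(x, y) ∈ Q l → ∃ l' < l, Native l' (pos x) (pos y))
    (hQR : ∀ l l', Disjoint (Q l) (edgesOf (R l')))
    (hRD : ∀ l l', l ≠ l' → Disjoint (edgesOf (R l)) (edgesOf (R l')))
    (hR : ∀ l < M, LevelOK G (col l) (R l))
    (hQC : ∀ l < M, ∀ x y, s(x, y) ∈ Q l → j l x = j l y ∧ col l x ≠ col l y) :
    ∃ (cl : List (EGClass V)) (Ss : List (Sym2 V)),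
      (∀ p ∈ cl.flatMap EGClass.A, G.Adj p.1 p.2) ∧
      (cl.flatMap EGClass.A).Nodup ∧
      (∀ p ∈ cl.flatMap EGClass.A, (p.2, p.1) ∉ cl.flatMap EGClass.A) ∧
      (∀ e ∈ Ss, e ∈ G.edgeSet) ∧ Ss.Nodup ∧
      (∀ p ∈ cl.flatMap EGClass.A, s(p.1, p.2) ∉ Ss) ∧
      (∀ e ∈ G.edgeSet, e ∈ Ss ∨ ∃ p ∈ cl.flatMap EGClass.A, s(p.1, p.2) = e) ∧
      (((cl.map EGClass.cost).sum + Ss.length : ℕ) : ℝ) ≤
        ∑ l ∈ range M, (2 * (Skeleton.badArcs (j l) (R l) : ℝ)
          + (((Z l).filter (fun v => ∀ p ∈ R l, p.2 = v → j l p.2 ≠ j l p.1 + 1)).card : ℝ))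
        + ∑ l ∈ range M, ((outs (Z l) (natEdges G pos l)).card : ℝ)
        + ∑ l ∈ range M, ∑ v ∈ Z l, 1 / ((edeg (Q l) v : ℝ) + 1)
        + ((G.edgeFinset.filter (fun e => ∀ l ∈ range M, e ∉ natEdges G pos l)).card : ℝ) := by
  refine assemble_nat G M Z (natEdges G pos) Q col j R ?_ ?_ hQG hQZ hQD ?_ hQR hRD hR ?_ hQC
  · intro l e he
    exact (mem_natEdges.1 he).1
  · intro l l' hne
    rw [Finset.disjoint_left]
    intro e he he'
    have h1 := (mem_natEdges.1 he).2
    have h2 := (mem_natEdges.1 he').2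
    induction e using Sym2.ind with
    | _ x y =>
      obtain ⟨h3, h4⟩ := natE_mk.1 h1
      obtain ⟨h5, h6⟩ := natE_mk.1 h2
      exact hne (native_unique h3 h5 h4 h6)
  · intro l l' hll
    rw [Finset.disjoint_left]
    intro e he he'
    have h2 := (mem_natEdges.1 he').2
    induction e using Sym2.ind with
    | _ x y =>
      obtain ⟨h5, h6⟩ := natE_mk.1 h2
      obtain ⟨l'', hl'', h7⟩ := hQs l x y he
      have := native_unique (by omega) h5 h7 h6
      omega
  · intro l hl x y hxy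
    obtain ⟨-, h1⟩ := natE_mk.1 (mem_natEdges.1 hxy).2
    exact ⟨hj l hl x y h1.1, hcol l hl x y h1⟩
    
/-- An edge in no native set has all bits equal. -/
lemma agree_of_not_nat (G : SimpleGraph V) [DecidableRel G.Adj] (pos : V → Fin M → Bool) {x y : V}
    (hxy : G.Adj x y) (h : ∀ l ∈ range M, s(x, y) ∉ natEdges G pos l) :
    AgreeUpTo M (pos x) (pos y) := by
  rcases exists_native (pos x) (pos y) with h1 | ⟨l, hl, h1⟩
  · exact h1
  · exfalso
    apply h l (Finset.mem_range.2 hl)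
    exact mem_natEdges.2 ⟨SimpleGraph.mem_edgeFinset.2 hxy, natE_mk.2 ⟨hl, h1⟩⟩

open Classical in
/-- The pruned edges of level `l` are the native edges outside `Z`. -/
lemma outs_natEdges_subset (G : SimpleGraph V) [DecidableRel G.Adj] (pos : V → Fin M → Bool)
    (Z : Finset V) (l : ℕ) :
    ((outs Z (natEdges G pos l)).card : ℝ) ≤
      (((Pruned.outside G Z).filter (fun e => NatE pos l e)).card : ℝ) := by
  classical
  have : outs Z (natEdges G pos l) ⊆ (Pruned.outside G Z).filter (fun e => NatE pos l e) := by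
    intro e he
    obtain ⟨h1, h2⟩ := mem_outs.1 he
    obtain ⟨h3, h4⟩ := mem_natEdges.1 h1
    refine Finset.mem_filter.2 ⟨(Pruned.mem_outside G).2 ⟨h3, ?_⟩, h4⟩
    exact h2
  exact_mod_cast Finset.card_le_card this

end Crest.Agent.Lib.EG.LevelBits
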