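/-
  Row 45 (S0064), helper12.  The one-level statement: `freeze_graph` + `level_flow` + conversion of the integer
  circulations to lists of arcs, in the form used by `level_class_nat`.
-/
import Crest.Agent.Lib.EG.FreezeGraph
import Crest.Agent.Lib.EG.LevelFlow
import Crest.Agent.Lib.EG.LevelClass

set_option autoImplicit false
set_option linter.unusedSectionVars false

open Finset Crest.Agent.Lib.EG.Round Crest.Agent.Lib.EG.LevelRound Crest.Agent.Lib.EG.LevelFlow
  Crest.Agent.Lib.EG.Winding Crest.Agent.Lib.EG.Skeleton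

namespace Crest.Agent.Lib.EG.LevelOne

variable {V : Type*} [Fintype V] [DecidableEq V]

/-- The arcs of the list of an integer circulation on `E`. -/
def dart {E : Finset (V × V)} (q : {e // e ∈ E} → ℤ) (e : {e // e ∈ E}) : V × V :=
  if q e = 1 then e.1 else (e.1.2, e.1.1)

/-- The list of arcs. -/
noncomputable def arcList {E : Finset (V × V)} (q : {e // e ∈ E} → ℤ) : List (V × V) :=
  ((univ.filter (fun e => q e ≠ 0)).toList).map (dart q)

lemma length_filter_toList {α : Type*} [DecidableEq α] (S : Finset α) (P : α → Prop) [DecidablePred P] :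
    (S.toList.filter P).length = (S.filter P).card := by
  have h1 : (S.toList.filter P).Nodup := (Finset.nodup_toList S).filter _
  rw [← List.toFinset_card_of_nodup h1]
  congr 1
  ext x
  simp

lemma length_filter_arcList {E : Finset (V × V)} (q : {e // e ∈ E} → ℤ) (P : V × V → Prop)
    [DecidablePred P] :
    ((arcList q).filter P).length = (univ.filter (fun e => q e ≠ 0 ∧ P (dart q e))).card := by
  unfold arcList
  rw [List.filter_map, List.length_map]
  have := length_filter_toList (univ.filter (fun e => q e ≠ 0)) (fun e => P (dart q e))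
  rw [Finset.filter_filter] at this
  rw [← this]
  rfl

lemma mem_arcList {E : Finset (V × V)} (q : {e // e ∈ E} → ℤ) (p : V × V) :
    p ∈ arcList q ↔ ∃ e, q e ≠ 0 ∧ dart q e = p := by
  unfold arcList
  simp

lemma arcList_mem {E : Finset (V × V)} (q : {e // e ∈ E} → ℤ) (p : V × V) (hp : p ∈ arcList q) :
    p ∈ E ∨ (p.2, p.1) ∈ E := by
  obtain ⟨e, _, rfl⟩ := (mem_arcList q p).1 hp
  unfold dart
  split_ifs
  · exact Or.inl e.2
  · exact Or.inr e.2

lemma arcList_valid {E : Finset (V × V)} (hloop : ∀ e ∈ E, e.1 ≠ e.2) (hrev : ∀ e ∈ E, (e.2, e.1) ∉ E)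
    (col : V → Bool) (hcol : ∀ e ∈ E, col e.1 ≠ col e.2) (q : {e // e ∈ E} → ℤ) :
    ValidArcs col (arcList q) := by
  have hdart : ∀ e f : {e // e ∈ E}, dart q e = dart q f → e = f := by
    intro e f h
    unfold dart at h
    apply Subtype.ext
    split_ifs at h with h1 h2 h2
    · exact h
    · exfalso
      have := hrev f.1 f.2
      rw [← h] at this
      exact this e.2
    · exfalso
      have := hrev e.1 e.2
      rw [h] at this
      exact this f.2
    · have h3 := congrArg Prod.fst h
      have h4 := congrArg Prod.snd h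
      exact Prod.ext h4 h3
  refine ⟨?_, ?_, ?_⟩
  · unfold arcList
    refine List.Nodup.map_on ?_ (Finset.nodup_toList _)
    intro x _ y _ h
    exact hdart x y h
  · intro p hp hq
    obtain ⟨e, _, he⟩ := (mem_arcList q p).1 hp
    obtain ⟨f, _, hf⟩ := (mem_arcList q _).1 hq
    unfold dart at he hf
    split_ifs at he hf with h1 h2 h2
    · -- both forward
      apply hrev e.1 e.2
      have : f.1 = ((e.1).2, (e.1).1) := by rw [hf, he]
      rw [← this]; exact f.2
    · -- same arc, contradiction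
      have h3 : f.1 = e.1 := by
        apply Prod.ext
        · have := congrArg Prod.snd hf
          simp only at this
          rw [this, he]
        · have := congrArg Prod.fst hf
          simp only at this
          rw [this, he]
      have h4 : e = f := Subtype.ext h3.symm
      rw [h4] at h1
      exact h2 h1
    · have h3 : f.1 = e.1 := by
        rw [hf, ← he]
      have h4 : e = f := Subtype.ext h3.symm
      rw [h4] at h1
      exact h1 h2
    · apply hrev e.1 e.2
      have : f.1 = ((e.1).2, (e.1).1) := by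
        apply Prod.ext
        · have := congrArg Prod.snd hf
          simp only at this
          rw [this, ← he]
        · have := congrArg Prod.fst hf
          simp only at this
          rw [this, ← he]
      rw [← this]; exact f.2
  · intro p hp
    obtain ⟨e, _, rfl⟩ := (mem_arcList q p).1 hp
    unfold dart
    split_ifs
    · exact hcol e.1 e.2
    · exact (hcol e.1 e.2).symm


/-- Balance of the list from the vanishing boundary. -/
lemma arcList_balanced {E : Finset (V × V)} (q : {e // e ∈ E} → ℤ)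
    (hq : ∀ e, q e = -1 ∨ q e = 0 ∨ q e = 1)
    (hb : ∀ v, bdry (fun e : {e // e ∈ E} => e.1.1) (fun e => e.1.2) (fun e => (q e : ℝ)) v = 0) (v : V) :
    ((arcList q).filter (fun p => p.2 = v)).length = ((arcList q).filter (fun p => p.1 = v)).length := by
  rw [length_filter_arcList, length_filter_arcList]
  have h := hb v
  unfold bdry at h
  rw [Finset.card_filter, Finset.card_filter]
  have h2 : ∀ e : {e // e ∈ E},
      ((if q e ≠ 0 ∧ (dart q e).2 = v then 1 else 0 : ℕ) : ℝ) - ((if q e ≠ 0 ∧ (dart q e).1 = v then 1 else 0 : ℕ) : ℝ)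
      = (if e.1.2 = v then (q e : ℝ) else 0) - (if e.1.1 = v then (q e : ℝ) else 0) := by
    intro e
    unfold dart
    rcases hq e with h1 | h1 | h1
    · have h3 : q e ≠ 1 := by omega
      have h4 : q e ≠ 0 := by omega
      simp only [if_neg h3, h1]
      by_cases h5 : e.1.1 = v <;> by_cases h6 : e.1.2 = v <;> simp [h5, h6]
    · simp [h1]
    · simp only [h1]
      by_cases h5 : e.1.1 = v <;> by_cases h6 : e.1.2 = v <;> simp [h5, h6]
  have h3 : (∑ e, ((if q e ≠ 0 ∧ (dart q e).2 = v then 1 else 0 : ℕ) : ℝ))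
      - ∑ e, ((if q e ≠ 0 ∧ (dart q e).1 = v then 1 else 0 : ℕ) : ℝ) = 0 := by
    rw [← Finset.sum_sub_distrib, Finset.sum_congr rfl (fun e _ => h2 e), Finset.sum_sub_distrib]
    exact h
  have h4 : ((∑ e, (if q e ≠ 0 ∧ (dart q e).2 = v then 1 else 0 : ℕ) : ℕ) : ℝ)
      = ((∑ e, (if q e ≠ 0 ∧ (dart q e).1 = v then 1 else 0 : ℕ) : ℕ) : ℝ) := by
    push_cast
    push_cast at h3
    linarith
  exact_mod_cast h4


lemma val_iff (L : ℕ) [NeZero L] (hL : 3 ≤ L) (x y : ZMod L) : x.val = (y.val + 1) % L ↔ x = y + 1 := by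
  haveI : Fact (1 < L) := ⟨by omega⟩
  have h : (y + 1).val = (y.val + 1) % L := by
    rw [ZMod.val_add, ZMod.val_one]
  rw [← h]
  exact (ZMod.val_injective L).eq_iff

lemma sgn_eq_sigma (L : ℕ) [NeZero L] (hL : 3 ≤ L) {E : Finset (V × V)} (j : V → ZMod L) (e : {e // e ∈ E}) :
    sgn L (nat L j) (fun e : {e // e ∈ E} => e.1.1) (fun e => e.1.2) e = FreezeGraph.sigma j e.1 := by
  unfold sgn FreezeGraph.sigma
  simp only [nat, val_iff L hL]

open Classical in
/-- **The one-level statement.** -/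
theorem level_one (L : ℕ) [NeZero L] (hL : 3 ≤ L) (col : V → Bool) (E : Finset (V × V))
    (hloop : ∀ e ∈ E, e.1 ≠ e.2) (hrev : ∀ e ∈ E, (e.2, e.1) ∉ E) (hcol : ∀ e ∈ E, col e.1 ≠ col e.2)
    (ord : V → ℕ) (hord : Function.Injective ord) (μ : ℕ)
    (hμ : ∀ k, (E.filter (fun e => FreezeGraph.etime ord e = k)).card ≤ μ)
    (T : ℝ) (hT : 2 + 2 * Real.sqrt (2 * μ) ≤ T) (D : ℕ) (hD : 0 < D) (hTD : 2 * (L : ℝ) * T ≤ D)
    (U : Finset V) (hU : ∀ v ∈ U, ∃ W : Finset V, v ∉ W ∧ D ≤ W.card ∧ ∀ u ∈ W, (u, v) ∈ E ∨ (v, u) ∈ E) :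
    ∃ R : (V → ZMod L) → List (V × V),
      (∀ j, ValidArcs col (R j)) ∧
      (∀ j, ∀ p ∈ R j, p ∈ E ∨ (p.2, p.1) ∈ E) ∧
      (∀ j v, ((R j).filter (fun p => p.2 = v)).length = ((R j).filter (fun p => p.1 = v)).length) ∧
      ∑ j : V → ZMod L, (2 * (badArcs (nat L j) (R j) : ℝ)
        + ((U.filter (fun v => ∀ p ∈ R j, p.2 = v → nat L j p.2 ≠ nat L j p.1 + 1)).card : ℝ))
      ≤ Fintype.card (V → ZMod L) * (4 * (1 / T) * Real.sqrt (E.card * (4 / (L : ℝ) * Fintype.card V))
          + 4 * (1 / T) * E.card / (L : ℝ) ^ 2 + U.card * (1 / (L : ℝ) + 4 * L / D)) := by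
  have hs0 : 0 ≤ Real.sqrt (2 * μ) := Real.sqrt_nonneg _
  have hTpos : 0 < T := by linarith
  have hLpos := card_pos L
  obtain ⟨g, hg1, hg2, hg3, hg4⟩ := FreezeGraph.freeze_graph L E hloop hrev ord hord μ hμ T hT
  let a : {e // e ∈ E} → V := fun e => e.1.1
  let b : {e // e ∈ E} → V := fun e => e.1.2
  have hcardΩ : (Fintype.card (V → ZMod L) : ℝ) = (L : ℝ) ^ Fintype.card V := by
    rw [Fintype.card_fun, ZMod.card]
    push_cast
    rfl
  have hE' : ∑ j : V → ZMod L, ∑ e : {e // e ∈ E},
      (sgn L (nat L j) a b e - g j e.1) ^ 2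
      ≤ (4 / (L : ℝ) * Fintype.card V) * Fintype.card (V → ZMod L) := by
    have h1 : ∀ j : V → ZMod L, ∑ e : {e // e ∈ E}, (sgn L (nat L j) a b e - g j e.1) ^ 2
        = ∑ e ∈ E, (FreezeGraph.sigma j e - g j e) ^ 2 := by
      intro j
      rw [← Finset.sum_coe_sort E (fun e => (FreezeGraph.sigma j e - g j e) ^ 2)]
      refine Finset.sum_congr rfl fun e _ => ?_
      rw [sgn_eq_sigma L hL j e]
    simp_rw [h1]
    rw [hcardΩ]
    exact hg4
  have hbd : ∀ j v, bdry a b (fun e => g j e.1) v = 0 := by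
    intro j v
    have h1 := hg1 j v
    rw [Finset.sum_filter, Finset.sum_filter] at h1
    unfold bdry
    have h2 : ∑ e : {e // e ∈ E}, (if b e = v then g j e.1 else 0)
        = ∑ e ∈ E, if e.2 = v then g j e else 0 :=
      Finset.sum_coe_sort E (fun e => if e.2 = v then g j e else 0)
    have h3 : ∑ e : {e // e ∈ E}, (if a e = v then g j e.1 else 0)
        = ∑ e ∈ E, if e.1 = v then g j e else 0 :=
      Finset.sum_coe_sort E (fun e => if e.1 = v then g j e else 0)
    rw [h2, h3, h1, sub_self]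
  obtain ⟨R, hR1, hR2, hR3, hR4⟩ := level_flow L hL a b U (1 / T) T (4 / (L : ℝ) * Fintype.card V) D
    (fun j e => g j e.1) (by positivity) (by field_simp; exact le_refl _) (fun j e => hg2 j e.1 e.2) hbd hE'
    (fun e => hloop e.1 e.2) hD
    (by
      rw [div_mul_eq_mul_div, one_mul, le_div_iff₀ hTpos]
      linarith)
    (by
      intro v hv
      obtain ⟨W, h1, h2, h3⟩ := hU v hv
      refine ⟨W, h1, h2, ?_⟩
      intro u hu
      rcases h3 u hu with h | h
      · exact ⟨⟨_, h⟩, Or.inl ⟨rfl, rfl⟩⟩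
      · exact ⟨⟨_, h⟩, Or.inr ⟨rfl, rfl⟩⟩)
  refine ⟨fun j => arcList (R j), fun j => arcList_valid hloop hrev col hcol (R j),
    fun j => arcList_mem (R j), fun j v => arcList_balanced (R j) (hR1 j) (hR2 j) v, ?_⟩
  have hcard : (Fintype.card {e // e ∈ E} : ℝ) = E.card := by
    rw [Fintype.card_coe]
  rw [hcard] at hR4
  refine le_trans (Finset.sum_le_sum fun j _ => ?_) hR4
  have h1 : badArcs (nat L j) (arcList (R j))
      = (univ.filter (fun e => R j e ≠ 0 ∧ ¬ goodDir (nat L j) a b (R j) e)).card := by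
    unfold badArcs
    rw [length_filter_arcList]
    congr 1
    ext e
    simp only [mem_filter, mem_univ, true_and]
    refine and_congr_right fun h0 => ?_
    unfold dart goodDir
    rcases hR1 j e with h2 | h2 | h2
    · have h3 : R j e ≠ 1 := by omega
      simp only [if_neg h3, h2]
      simp [a, b]
    · exact absurd h2 h0
    · simp only [h2, if_true]
      simp [a, b]
  have h2 : (U.filter (fun v => ∀ p ∈ arcList (R j), p.2 = v → nat L j p.2 ≠ nat L j p.1 + 1)).card
      ≤ (U.filter (fun v => ¬ hasGoodIn (nat L j) a b (R j) v)).card := by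
    apply Finset.card_le_card
    intro v hv
    rw [Finset.mem_filter] at hv ⊢
    refine ⟨hv.1, ?_⟩
    rintro ⟨e, h3 | h3⟩
    · have hm : e.1 ∈ arcList (R j) := by
        rw [mem_arcList]
        refine ⟨e, by rw [h3.2.1]; norm_num, ?_⟩
        unfold dart
        rw [if_pos h3.2.1]
      exact hv.2 _ hm h3.1 h3.2.2
    · have hm : (e.1.2, e.1.1) ∈ arcList (R j) := by
        rw [mem_arcList]
        refine ⟨e, by rw [h3.2.1]; norm_num, ?_⟩
        unfold dart
        rw [if_neg (by rw [h3.2.1]; norm_num)]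
      exact hv.2 _ hm h3.1 h3.2.2
  rw [h1]
  have h3 : ((U.filter (fun v => ∀ p ∈ arcList (R j), p.2 = v → nat L j p.2 ≠ nat L j p.1 + 1)).card : ℝ)
      ≤ ((U.filter (fun v => ¬ hasGoodIn (nat L j) a b (R j) v)).card : ℝ) := by
    exact_mod_cast h2
  linarith

end Crest.Agent.Lib.EG.LevelOne
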