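import Mathlib
import Crest.Agent.Lib.EG.Core

/-!
# Deterministic reservation by Hall (row 45)

`exists_picks`: generic form.  `exists_picks_levels`: levels and a Bool tag (flow / parity).
Every vertex `v` of `Z l` owns exactly `K l` edges of `G[Z l]` at `v` for each tag; an edge
determines its owner (level, tag, vertex).  No randomness.

`exists_order`: a set of edges spanning at most `k |X|` edges on every `X` has a numbering with at
most `2 k` earlier neighbours.  `span_le_of_owned`: owned edges have that span property.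
-/

set_option autoImplicit false

open Finset

namespace Crest.Agent.Lib.EG.Picks

open Crest.Agent.Lib.EG.Core (nbrIn mem_nbrIn)

variable {V : Type*} [DecidableEq V]

/-- Each edge has at most two ends, so degrees add up to at most twice the edges. -/
lemma sum_card_filter_mem_le (S : Finset V) (N : Finset (Sym2 V)) :
    ∑ v ∈ S, (N.filter (fun e => v ∈ e)).card ≤ 2 * N.card := by
  have h : ∑ v ∈ S, (N.filter (fun e => v ∈ e)).card
      = ∑ e ∈ N, (S.filter (fun v => v ∈ e)).card := by
    simp only [card_filter]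
    rw [sum_comm]
  rw [h]
  calc ∑ e ∈ N, (S.filter (fun v => v ∈ e)).card ≤ ∑ _e ∈ N, 2 := by
        refine sum_le_sum (fun e _ => ?_)
        induction e using Sym2.ind with
        | _ a b =>
          calc (S.filter (fun v => v ∈ s(a, b))).card ≤ ({a, b} : Finset V).card := by
                refine card_le_card (fun x hx => ?_)
                simpa using (mem_filter.1 hx).2
            _ ≤ 2 := card_le_two
    _ = 2 * N.card := by simp [mul_comm]

variable [Fintype V] (G : SimpleGraph V)

/-- **Picks, generic form.**  `I` is a finite index set, `Z i` vertex sets, `K i` demands.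
Hypothesis: for any vertex `v` and any nonempty `J ⊆ I` with `v ∈ Z j` for all `j ∈ J`, some
`i ∈ J` has `2 * ∑_J K ≤ |N(v) ∩ Z i|`. -/
theorem exists_picks {ι : Type*} [DecidableEq ι] (I : Finset ι) (Z : ι → Finset V) (K : ι → ℕ)
    (h : ∀ (v : V) (J : Finset ι), J ⊆ I → J.Nonempty → (∀ i ∈ J, v ∈ Z i) →
      ∃ i ∈ J, 2 * ∑ j ∈ J, K j ≤ (nbrIn G (Z i) v).card) :
    ∃ own : ι → V → Finset V,
      (∀ i v, own i v ⊆ nbrIn G (Z i) v) ∧
      (∀ i ∈ I, ∀ v ∈ Z i, (own i v).card = K i) ∧
      (∀ i v, ¬ (i ∈ I ∧ v ∈ Z i) → own i v = ∅) ∧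
      (∀ i v u i' v' u', u ∈ own i v → u' ∈ own i' v' → s(v, u) = s(v', u') →
        i = i' ∧ v = v') := by
  classical
  -- units of demand
  let U := {x : ι × V × ℕ // x.1 ∈ I ∧ x.2.1 ∈ Z x.1 ∧ x.2.2 < K x.1}
  let t : U → Finset (Sym2 V) := fun x =>
    (nbrIn G (Z x.1.1) x.1.2.1).image (fun u => s(x.1.2.1, u))
  have hcardt : ∀ x : U, (t x).card = (nbrIn G (Z x.1.1) x.1.2.1).card := by
    intro x
    apply card_image_of_injective
    intro a b hab
    exact Sym2.congr_right.1 hab
  have hHall : ∀ X : Finset U, X.card ≤ (X.biUnion t).card := by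
    intro X
    set N := X.biUnion t with hN
    let vx : U → V := fun x => x.1.2.1
    have hvert : ∀ v ∈ X.image vx, 2 * (X.filter (fun x => vx x = v)).card
        ≤ (N.filter (fun e => v ∈ e)).card := by
      intro v hv
      set Xv := X.filter (fun x => vx x = v) with hXv
      have hne : Xv.Nonempty := by
        obtain ⟨x, hx, rfl⟩ := mem_image.1 hv
        exact ⟨x, mem_filter.2 ⟨hx, rfl⟩⟩
      set J := Xv.image (fun x => x.1.1) with hJ
      have hJI : J ⊆ I := by
        intro i hi
        obtain ⟨x, _, rfl⟩ := mem_image.1 hi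
        exact x.2.1
      have hJv : ∀ i ∈ J, v ∈ Z i := by
        intro i hi
        obtain ⟨x, hx, rfl⟩ := mem_image.1 hi
        have : vx x = v := (mem_filter.1 hx).2
        rw [← this]
        exact x.2.2.1
      obtain ⟨i, hiJ, hi⟩ := h v J hJI (hne.image _) hJv
      have h1 : Xv.card ≤ ∑ j ∈ J, K j := by
        have : Xv.card ≤ (J.sigma (fun j => range (K j))).card := by
          refine card_le_card_of_injOn (fun x => ⟨x.1.1, x.1.2.2⟩) ?_ ?_
          · intro x hx
            simp only [coe_sigma, Set.mem_sigma_iff, mem_coe, mem_range]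
            exact ⟨mem_image_of_mem _ hx, x.2.2.2⟩
          · intro x hx y hy hxy
            have hxv : vx x = v := (mem_filter.1 (mem_coe.1 hx)).2
            have hyv : vx y = v := (mem_filter.1 (mem_coe.1 hy)).2
            simp only [Sigma.mk.injEq] at hxy
            apply Subtype.ext
            refine Prod.ext hxy.1 (Prod.ext (hxv.trans hyv.symm) ?_)
            have := hxy.2
            simpa using this
        simpa using this
      obtain ⟨x, hx, rfl⟩ := mem_image.1 hiJ
      have hxX : x ∈ X := (mem_filter.1 hx).1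
      have hxv : vx x = v := (mem_filter.1 hx).2
      have h2 : (nbrIn G (Z x.1.1) v).card ≤ (N.filter (fun e => v ∈ e)).card := by
        have : (nbrIn G (Z x.1.1) v).image (fun u => s(v, u)) ⊆ N.filter (fun e => v ∈ e) := by
          intro e he
          obtain ⟨u, hu, rfl⟩ := mem_image.1 he
          refine mem_filter.2 ⟨?_, by simp⟩
          refine mem_biUnion.2 ⟨x, hxX, mem_image.2 ⟨u, ?_, ?_⟩⟩
          · have hxv' : x.1.2.1 = v := hxv
            rw [hxv']; exact hu
          · have hxv' : x.1.2.1 = v := hxv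
            rw [hxv']
        have h3 := card_le_card this
        rw [card_image_of_injective _ (fun a b hab => Sym2.congr_right.1 hab)] at h3
        exact h3
      omega
    have h3 : 2 * X.card ≤ 2 * N.card := by
      calc 2 * X.card = 2 * ∑ v ∈ X.image vx, (X.filter (fun x => vx x = v)).card := by
            rw [← card_eq_sum_card_image]
        _ = ∑ v ∈ X.image vx, 2 * (X.filter (fun x => vx x = v)).card := by rw [mul_sum]
        _ ≤ ∑ v ∈ X.image vx, (N.filter (fun e => v ∈ e)).card := sum_le_sum hvert
        _ ≤ 2 * N.card := sum_card_filter_mem_le _ _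
    omega
  obtain ⟨f, hfinj, hft⟩ := (all_card_le_biUnion_card_iff_exists_injective t).1 hHall
  -- the picks
  let own : ι → V → Finset V := fun i v =>
    (nbrIn G (Z i) v).filter (fun u => ∃ x : U, x.1.1 = i ∧ x.1.2.1 = v ∧ f x = s(v, u))
  refine ⟨own, fun i v => filter_subset _ _, ?_, ?_, ?_⟩
  · intro i hi v hv
    have hex : ∀ (k : ℕ) (hk : k ∈ range (K i)), ∃ u, u ∈ nbrIn G (Z i) v ∧
        f ⟨(i, v, k), hi, hv, mem_range.1 hk⟩ = s(v, u) := by
      intro k hk
      have := hft ⟨(i, v, k), hi, hv, mem_range.1 hk⟩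
      obtain ⟨u, hu, hfu⟩ := mem_image.1 this
      exact ⟨u, hu, hfu.symm⟩
    choose g hg1 hg2 using hex
    have hc := card_bij (s := range (K i)) (t := own i v) g
      (by
        intro k hk
        refine mem_filter.2 ⟨hg1 k hk, ⟨(i, v, k), hi, hv, mem_range.1 hk⟩, rfl, rfl, hg2 k hk⟩)
      (by
        intro k hk k' hk' hgg
        have h1 := hg2 k hk
        have h2 := hg2 k' hk'
        rw [hgg, ← h2] at h1
        exact congrArg (fun x : U => x.1.2.2) (hfinj h1))
      (by
        intro u hu
        obtain ⟨hu1, x, rfl, rfl, hx⟩ := mem_filter.1 hu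
        refine ⟨x.1.2.2, mem_range.2 x.2.2.2, ?_⟩
        have h1 := hg2 x.1.2.2 (mem_range.2 x.2.2.2)
        have h2 : f ⟨(x.1.1, x.1.2.1, x.1.2.2), hi, hv, x.2.2.2⟩ = f x := rfl
        rw [h2, hx] at h1
        exact (Sym2.congr_right.1 h1).symm)
    rw [← hc, card_range]
  · intro i v hn
    refine filter_eq_empty_iff.2 ?_
    rintro u - ⟨x, rfl, rfl, -⟩
    exact hn ⟨x.2.1, x.2.2.1⟩
  · intro i v u i' v' u' hu hu' he
    obtain ⟨-, x, hxi, hxv, hx⟩ := mem_filter.1 hu
    obtain ⟨-, x', hxi', hxv', hx'⟩ := mem_filter.1 hu'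
    have : x = x' := hfinj (by rw [hx, hx', he])
    subst this
    exact ⟨hxi.symm.trans hxi', hxv.symm.trans hxv'⟩

/-- **Picks, levels and two tags.** -/
theorem exists_picks_levels (top : ℕ) (Z : ℕ → Finset V) (T K : ℕ → ℕ)
    (hdense : ∀ l, ∀ v ∈ Z l, T l ≤ (nbrIn G (Z l) v).card)
    (hK : ∀ m, 4 * ∑ l ∈ range (m + 1), K l ≤ T m) :
    ∃ own : Bool → ℕ → V → Finset V,
      (∀ b l v, own b l v ⊆ nbrIn G (Z l) v) ∧
      (∀ b, ∀ l < top, ∀ v ∈ Z l, (own b l v).card = K l) ∧
      (∀ b l v, top ≤ l ∨ v ∉ Z l → own b l v = ∅) ∧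
      (∀ b l v u b' l' v' u', u ∈ own b l v → u' ∈ own b' l' v' → s(v, u) = s(v', u') →
        b = b' ∧ l = l' ∧ v = v') := by
  classical
  obtain ⟨own, h1, h2, h3, h4⟩ := exists_picks G
    ((univ : Finset Bool) ×ˢ range top) (fun i => Z i.2) (fun i => K i.2) (by
      intro v J hJI hJne hJv
      obtain ⟨i, hiJ, him⟩ := exists_mem_eq_sup' hJne (fun i : Bool × ℕ => i.2)
      have hmax : ∀ j ∈ J, j.2 ≤ i.2 := by
        intro j hj
        rw [← him]
        exact le_sup' (fun i : Bool × ℕ => i.2) hj
      refine ⟨i, hiJ, ?_⟩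
      have hle : ∑ j ∈ J, K j.2 ≤ 2 * ∑ l ∈ range (i.2 + 1), K l := by
        have hsub : J ⊆ (univ : Finset Bool) ×ˢ range (i.2 + 1) := by
          intro j hj
          refine mem_product.2 ⟨mem_univ _, mem_range.2 ?_⟩
          have := hmax j hj
          omega
        calc ∑ j ∈ J, K j.2 ≤ ∑ j ∈ (univ : Finset Bool) ×ˢ range (i.2 + 1), K j.2 :=
              sum_le_sum_of_subset hsub
          _ = 2 * ∑ l ∈ range (i.2 + 1), K l := by
              rw [sum_product]
              simp [two_mul]
      have hT := hdense i.2 v (hJv i hiJ)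
      have hKm := hK i.2
      omega)
  refine ⟨fun b l v => own (b, l) v, fun b l v => h1 _ _, ?_, ?_, ?_⟩
  · intro b l hl v hv
    exact h2 (b, l) (mem_product.2 ⟨mem_univ _, mem_range.2 hl⟩) v hv
  · intro b l v hn
    apply h3
    rintro ⟨hi, hv⟩
    have := mem_range.1 (mem_product.1 hi).2
    rcases hn with hn | hn
    · dsimp only at this; omega
    · exact hn hv
  · intro b l v u b' l' v' u' hu hu' he
    obtain ⟨hi, hv⟩ := h4 _ _ _ _ _ _ hu hu' he
    simp only [Prod.mk.injEq] at hi
    exact ⟨hi.1, hi.2, hv⟩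

/-- Owned edges span little: if every edge of `F` is owned by one of its ends and each vertex owns
at most `k` edges then every `X` spans at most `k |X|` edges of `F`. -/
theorem span_le_of_owned (F : Finset (Sym2 V)) (own : V → Finset V) (k : ℕ)
    (hcard : ∀ v, (own v).card ≤ k) (hF : ∀ e ∈ F, ∃ v u, u ∈ own v ∧ e = s(v, u))
    (X : Finset V) : (F.filter (fun e => ∀ x ∈ e, x ∈ X)).card ≤ k * X.card := by
  classical
  have hsub : F.filter (fun e => ∀ x ∈ e, x ∈ X) ⊆
      X.biUnion (fun v => (own v).image (fun u => s(v, u))) := by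
    intro e he
    obtain ⟨he1, he2⟩ := mem_filter.1 he
    obtain ⟨v, u, hu, rfl⟩ := hF e he1
    exact mem_biUnion.2 ⟨v, he2 v (by simp), mem_image_of_mem _ hu⟩
  calc _ ≤ _ := card_le_card hsub
    _ ≤ ∑ v ∈ X, ((own v).image (fun u => s(v, u))).card := card_biUnion_le
    _ ≤ ∑ v ∈ X, k := sum_le_sum (fun v _ => card_image_le.trans (hcard v))
    _ = k * X.card := by simp [mul_comm]

/-- **Numbering.** A set of edges spanning at most `k |X|` edges on every vertex set has a numbering
of the vertices in which each vertex has at most `2 k` earlier neighbours. -/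
theorem exists_order (F : Finset (Sym2 V)) (k : ℕ)
    (h : ∀ X : Finset V, (F.filter (fun e => ∀ x ∈ e, x ∈ X)).card ≤ k * X.card) :
    ∃ ord : V → ℕ, Function.Injective ord ∧
      ∀ v, ((univ : Finset V).filter (fun u => s(v, u) ∈ F ∧ ord u < ord v)).card ≤ 2 * k := by
  classical
  have key : ∀ (m : ℕ) (X : Finset V), X.card = m → ∃ ord : V → ℕ, Set.InjOn ord X ∧
      ∀ v ∈ X, (X.filter (fun u => s(v, u) ∈ F ∧ ord u < ord v)).card ≤ 2 * k := by
    intro m
    induction m with
    | zero =>
      intro X hX
      have : X = ∅ := card_eq_zero.1 hX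
      subst this
      exact ⟨fun _ => 0, by simp, by simp⟩
    | succ m ih =>
      intro X hX
      have hne : X.Nonempty := card_pos.1 (by omega)
      -- a vertex of small degree
      have hsum : ∑ v ∈ X, (X.filter (fun u => u ≠ v ∧ s(v, u) ∈ F)).card ≤ ∑ _v ∈ X, 2 * k := by
        set N := F.filter (fun e => ∀ x ∈ e, x ∈ X) with hN
        calc ∑ v ∈ X, (X.filter (fun u => u ≠ v ∧ s(v, u) ∈ F)).card
            ≤ ∑ v ∈ X, (N.filter (fun e => v ∈ e)).card := by
              refine sum_le_sum (fun v hv => ?_)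
              refine card_le_card_of_injOn (fun u => s(v, u)) ?_ ?_
              · intro u hu
                obtain ⟨hu1, _, hu3⟩ := mem_filter.1 (mem_coe.1 hu)
                refine mem_coe.2 (mem_filter.2 ⟨mem_filter.2 ⟨hu3, ?_⟩, by simp⟩)
                intro x hx
                rcases Sym2.mem_iff.1 hx with rfl | rfl
                · exact hv
                · exact hu1
              · intro a _ b _ hab
                exact Sym2.congr_right.1 hab
          _ ≤ 2 * N.card := sum_card_filter_mem_le _ _
          _ ≤ 2 * (k * X.card) := by exact Nat.mul_le_mul_left _ (h X)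
          _ = ∑ _v ∈ X, 2 * k := by simp; ring
      obtain ⟨v, hvX, hv⟩ := exists_le_of_sum_le hne hsum
      obtain ⟨ord', hinj', hord'⟩ := ih (X.erase v) (by rw [card_erase_of_mem hvX]; omega)
      set B := (X.erase v).sup ord' with hB
      have hle : ∀ x ∈ X.erase v, ord' x ≤ B := fun x hx => le_sup (f := ord') hx
      let ord : V → ℕ := fun x => if x = v then B + 1 else ord' x
      have hordv : ord v = B + 1 := by simp [ord]
      have hordx : ∀ x, x ≠ v → ord x = ord' x := by
        intro x hx; simp [ord, hx]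
      refine ⟨ord, ?_, ?_⟩
      · intro a ha b hb hab
        by_cases hav : a = v
        · by_cases hbv : b = v
          · rw [hav, hbv]
          · exfalso
            have h1 := hle b (mem_erase.2 ⟨hbv, hb⟩)
            rw [hav, hordv, hordx b hbv] at hab
            omega
        · by_cases hbv : b = v
          · exfalso
            have h1 := hle a (mem_erase.2 ⟨hav, ha⟩)
            rw [hbv, hordv, hordx a hav] at hab
            omega
          · rw [hordx a hav, hordx b hbv] at hab
            exact hinj' (mem_coe.2 (mem_erase.2 ⟨hav, ha⟩)) (mem_coe.2 (mem_erase.2 ⟨hbv, hb⟩)) hab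
      · intro w hw
        by_cases hwv : w = v
        · subst hwv
          refine le_trans (card_le_card ?_) hv
          intro u hu
          obtain ⟨hu1, hu2, hu3⟩ := mem_filter.1 hu
          refine mem_filter.2 ⟨hu1, ?_, hu2⟩
          rintro rfl
          exact lt_irrefl _ hu3
        · refine le_trans (card_le_card ?_) (hord' w (mem_erase.2 ⟨hwv, hw⟩))
          intro u hu
          obtain ⟨hu1, hu2, hu3⟩ := mem_filter.1 hu
          have hw' := hle w (mem_erase.2 ⟨hwv, hw⟩)
          rw [hordx w hwv] at hu3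
          have huv : u ≠ v := by
            rintro rfl
            rw [hordv] at hu3
            omega
          rw [hordx u huv] at hu3
          exact mem_filter.2 ⟨mem_erase.2 ⟨huv, hu1⟩, hu2, hu3⟩
  obtain ⟨ord, hinj, hord⟩ := key _ univ rfl
  refine ⟨ord, fun a b hab => hinj (by simp) (by simp) hab, fun v => hord v (mem_univ _)⟩

end Crest.Agent.Lib.EG.Picks
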