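/-
  Row 45 (S0064): numerics of the level parameters.

  * `sum_half_div` : `∑_{l<M} (1/2)^(l/d) ≤ 2 d`, uniformly in `M`.
  * `sum_half_div_add` : shifted form, `∑_{l<M} (1/2)^((l+a)/d) ≤ 2 d`.
-/
import Mathlib

set_option autoImplicit false

open Finset

namespace Crest.Agent.Lib.EG.Numerics

/-- Blocks of length `d`. -/
theorem sum_range_mul_half (d : ℕ) (hd : 0 < d) (M : ℕ) :
    ∑ l ∈ range (d * M), (1 / 2 : ℝ) ^ (l / d) = d * ∑ k ∈ range M, (1 / 2 : ℝ) ^ k := by
  induction M with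
  | zero => simp
  | succ M ih =>
    rw [Nat.mul_succ, Finset.sum_range_add, ih, Finset.sum_range_succ, mul_add]
    congr 1
    have : ∀ x ∈ range d, (1 / 2 : ℝ) ^ ((d * M + x) / d) = (1 / 2 : ℝ) ^ M := by
      intro x hx
      have hx' : x < d := Finset.mem_range.mp hx
      rw [Nat.mul_add_div hd, Nat.div_eq_of_lt hx', add_zero]
    rw [Finset.sum_congr rfl this, Finset.sum_const, Finset.card_range, nsmul_eq_mul]

/-- The sum of `(1/2)^k` over a range is at most `2`. -/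
theorem sum_half_le (M : ℕ) : ∑ k ∈ range M, (1 / 2 : ℝ) ^ k ≤ 2 := by
  exact sum_geometric_two_le M

/-- `∑_{l<M} (1/2)^(l/d) ≤ 2 d`, uniformly in `M`. -/
theorem sum_half_div (d : ℕ) (hd : 0 < d) (M : ℕ) :
    ∑ l ∈ range M, (1 / 2 : ℝ) ^ (l / d) ≤ 2 * d := by
  have hsub : range M ⊆ range (d * M) := by
    intro x hx
    have := Finset.mem_range.mp hx
    exact Finset.mem_range.mpr (lt_of_lt_of_le this (Nat.le_mul_of_pos_left M hd))
  calc ∑ l ∈ range M, (1 / 2 : ℝ) ^ (l / d)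
      ≤ ∑ l ∈ range (d * M), (1 / 2 : ℝ) ^ (l / d) :=
        Finset.sum_le_sum_of_subset_of_nonneg hsub (fun _ _ _ => by positivity)
    _ = d * ∑ k ∈ range M, (1 / 2 : ℝ) ^ k := sum_range_mul_half d hd M
    _ ≤ d * 2 := by
        exact mul_le_mul_of_nonneg_left (sum_half_le M) (Nat.cast_nonneg _)
    _ = 2 * d := by ring

/-- Same, over any finset of indices. -/
theorem sum_half_div_finset (d : ℕ) (hd : 0 < d) (s : Finset ℕ) :
    ∑ l ∈ s, (1 / 2 : ℝ) ^ (l / d) ≤ 2 * d := by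
  have hsub : s ⊆ range (s.sup id + 1) := by
    intro x hx
    have : x ≤ s.sup id := Finset.le_sup (f := id) hx
    exact Finset.mem_range.mpr (Nat.lt_succ_of_le this)
  exact le_trans (Finset.sum_le_sum_of_subset_of_nonneg hsub (fun _ _ _ => by positivity))
    (sum_half_div d hd _)

end Crest.Agent.Lib.EG.Numerics
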