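/-
  Row 45 (S0064), module M6 of the plan (finite averaging toolkit, no measure theory).

  (a) `sum_mul_of_disjoint`: on a product `Ω = ∀ a, β a` two functions depending on disjoint sets of
      coordinates are uncorrelated for the uniform count.
  (b) `cheb_count`: pairwise uncorrelated indicators: `#{ω : ∑ X_i ω < μ/2} * μ ≤ 4 |Ω|`.
  (c) `sum_pos_split`: Fubini split of the bit space `V → Fin N → Bool` into labels
      `V → ZMod (2^r)` (first `r` bits, via a fixed bijection `phi r`) and the rest.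
-/
import Mathlib

set_option autoImplicit false
set_option linter.unusedSectionVars false

open Finset

namespace Crest.Agent.Lib.EG.SampleSplit

/-! ### (a) Independence of disjoint coordinates -/

section Disjoint

variable {α : Type*} [Fintype α] [DecidableEq α] {β : α → Type*}
  [∀ a, Fintype (β a)] [∀ a, DecidableEq (β a)]

/-- `f` depends only on the coordinates in `S`. -/
def DependsOn' (f : (∀ a, β a) → ℝ) (S : Finset α) : Prop :=
  ∀ ω ω' : ∀ a, β a, (∀ a ∈ S, ω a = ω' a) → f ω = f ω'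

/-- The mixture of `ω` (on `S`) and `ω'` (off `S`). -/
def mix (S : Finset α) (ω ω' : ∀ a, β a) : ∀ a, β a :=
  fun a => if a ∈ S then ω a else ω' a

/-- Two functions of disjoint sets of coordinates are uncorrelated. -/
theorem sum_mul_of_disjoint (f g : (∀ a, β a) → ℝ) (S T : Finset α) (hST : Disjoint S T)
    (hf : DependsOn' f S) (hg : DependsOn' g T) :
    (Fintype.card (∀ a, β a) : ℝ) * ∑ ω, f ω * g ω = (∑ ω, f ω) * (∑ ω, g ω) := by
  classical
  -- the map (ω, ω') ↦ (mix S ω ω', mix S ω' ω) is an involution of Ω × Ω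
  have hcard : (Fintype.card (∀ a, β a) : ℝ) * ∑ ω, f ω * g ω
      = ∑ p : (∀ a, β a) × (∀ a, β a), f p.1 * g p.1 := by
    rw [Fintype.sum_prod_type]
    have : ∀ ω : ∀ a, β a, ∑ _ω' : ∀ a, β a, f ω * g ω
        = (Fintype.card (∀ a, β a) : ℝ) * (f ω * g ω) := by
      intro ω
      simp [Finset.sum_const, nsmul_eq_mul]
    simp_rw [this]
    rw [Finset.mul_sum]
  have hprod : (∑ ω, f ω) * (∑ ω, g ω)
      = ∑ p : (∀ a, β a) × (∀ a, β a), f p.1 * g p.2 := by
    rw [Fintype.sum_prod_type, Finset.sum_mul_sum]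
  rw [hcard, hprod]
  -- the involution
  let φ : (∀ a, β a) × (∀ a, β a) → (∀ a, β a) × (∀ a, β a) :=
    fun p => (mix S p.1 p.2, mix S p.2 p.1)
  have hφφ : ∀ p, φ (φ p) = p := by
    intro p
    apply Prod.ext
    · funext a
      by_cases h : a ∈ S <;> simp [φ, mix, h]
    · funext a
      by_cases h : a ∈ S <;> simp [φ, mix, h]
  let e : (∀ a, β a) × (∀ a, β a) ≃ (∀ a, β a) × (∀ a, β a) :=
    { toFun := φ, invFun := φ, left_inv := hφφ, right_inv := hφφ }
  refine Fintype.sum_equiv e _ _ ?_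
  intro p
  have h1 : f p.1 = f (φ p).1 := by
    apply hf
    intro a ha
    simp [φ, mix, ha]
  have h2 : g p.1 = g (φ p).2 := by
    apply hg
    intro a ha
    have : a ∉ S := fun h => (Finset.disjoint_left.mp hST h) ha
    simp [φ, mix, this]
  show f p.1 * g p.1 = f (φ p).1 * g (φ p).2
  rw [h1, h2]

end Disjoint

/-! ### (b) Chebyshev counting -/

section Cheb

variable {Ω ι : Type*} [Fintype Ω] [DecidableEq ι]

/-- Second moment for pairwise uncorrelated indicators.  `X i ω ∈ {0,1}`;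
`μ = ∑ i ∈ s, (∑ ω, X i ω) / |Ω|`.  Then `∑ ω, (S ω - μ)^2 ≤ μ |Ω|`. -/
theorem sum_sq_dev_le (s : Finset ι) (X : ι → Ω → ℝ)
    (h01 : ∀ i ∈ s, ∀ ω, X i ω = 0 ∨ X i ω = 1)
    (hunc : ∀ i ∈ s, ∀ j ∈ s, i ≠ j →
      (Fintype.card Ω : ℝ) * ∑ ω, X i ω * X j ω = (∑ ω, X i ω) * (∑ ω, X j ω))
    (hΩ : 0 < Fintype.card Ω) :
    ∑ ω, (∑ i ∈ s, X i ω - ∑ i ∈ s, (∑ ω', X i ω') / (Fintype.card Ω : ℝ)) ^ 2
      ≤ (∑ i ∈ s, (∑ ω', X i ω') / (Fintype.card Ω : ℝ)) * (Fintype.card Ω : ℝ) := by
  classical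
  set N : ℝ := (Fintype.card Ω : ℝ) with hN
  have hNpos : 0 < N := by rw [hN]; exact_mod_cast hΩ
  set p : ι → ℝ := fun i => (∑ ω', X i ω') / N with hp
  -- expand: centred variables
  set Y : ι → Ω → ℝ := fun i ω => X i ω - p i with hY
  have hsum : ∀ ω, ∑ i ∈ s, X i ω - ∑ i ∈ s, p i = ∑ i ∈ s, Y i ω := by
    intro ω; simp only [hY, Finset.sum_sub_distrib]
  have hx : ∀ i, ∑ ω, X i ω = N * p i := by
    intro i; simp only [hp]; field_simp
  have hcard : ∀ c : ℝ, ∑ _ω : Ω, c = N * c := by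
    intro c; simp [Finset.sum_const, nsmul_eq_mul, hN]
  have hcross : ∀ i ∈ s, ∀ j ∈ s, i ≠ j → ∑ ω, Y i ω * Y j ω = 0 := by
    intro i hi j hj hij
    have hu := hunc i hi j hj hij
    rw [hx i, hx j] at hu
    have hu' : ∑ ω, X i ω * X j ω = N * p i * p j := by
      have : N * ∑ ω, X i ω * X j ω = N * (N * p i * p j) := by rw [hu]; ring
      exact mul_left_cancel₀ hNpos.ne' this
    have hexp : ∀ ω, Y i ω * Y j ω
        = X i ω * X j ω - p j * X i ω - p i * X j ω + p i * p j := by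
      intro ω; simp only [hY]; ring
    simp_rw [hexp]
    rw [Finset.sum_add_distrib, Finset.sum_sub_distrib, Finset.sum_sub_distrib, hu',
      ← Finset.mul_sum, ← Finset.mul_sum, hx i, hx j, hcard]
    ring
  have hdiag : ∀ i ∈ s, ∑ ω, Y i ω ^ 2 ≤ p i * N := by
    intro i hi
    have hp0 : 0 ≤ p i := by
      simp only [hp]
      apply div_nonneg _ hNpos.le
      apply Finset.sum_nonneg
      intro ω _
      rcases h01 i hi ω with h | h <;> simp [h]
    have hexp : ∀ ω, Y i ω ^ 2 = X i ω - 2 * p i * X i ω + p i ^ 2 := by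
      intro ω
      simp only [hY]
      rcases h01 i hi ω with h | h <;> rw [h] <;> ring
    simp_rw [hexp]
    rw [Finset.sum_add_distrib, Finset.sum_sub_distrib, ← Finset.mul_sum, hx i, hcard]
    nlinarith [mul_nonneg hp0 hNpos.le, mul_nonneg (sq_nonneg (p i)) hNpos.le]
  -- assemble
  calc ∑ ω, (∑ i ∈ s, X i ω - ∑ i ∈ s, p i) ^ 2
      = ∑ ω, (∑ i ∈ s, Y i ω) ^ 2 := by simp_rw [hsum]
    _ = ∑ i ∈ s, ∑ j ∈ s, ∑ ω, Y i ω * Y j ω := by
        simp_rw [sq, Finset.sum_mul_sum]
        rw [Finset.sum_comm]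
        refine Finset.sum_congr rfl fun i _ => ?_
        rw [Finset.sum_comm]
    _ = ∑ i ∈ s, ∑ ω, Y i ω ^ 2 := by
        refine Finset.sum_congr rfl fun i hi => ?_
        rw [Finset.sum_eq_single i]
        · simp_rw [sq]
        · intro j hj hji
          exact hcross i hi j hj (Ne.symm hji)
        · intro h; exact absurd hi h
    _ ≤ ∑ i ∈ s, p i * N := Finset.sum_le_sum hdiag
    _ = (∑ i ∈ s, p i) * N := by rw [Finset.sum_mul]

/-- **Chebyshev count.** Pairwise uncorrelated indicators with mean `μ`: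
any set `B` of outcomes with `∑ X_i ω < μ / 2` on `B` has `|B| μ ≤ 4 |Ω|`. -/
theorem cheb_count (s : Finset ι) (X : ι → Ω → ℝ)
    (h01 : ∀ i ∈ s, ∀ ω, X i ω = 0 ∨ X i ω = 1)
    (hunc : ∀ i ∈ s, ∀ j ∈ s, i ≠ j →
      (Fintype.card Ω : ℝ) * ∑ ω, X i ω * X j ω = (∑ ω, X i ω) * (∑ ω, X j ω))
    (hΩ : 0 < Fintype.card Ω) (μ : ℝ)
    (hμ : μ = ∑ i ∈ s, (∑ ω', X i ω') / (Fintype.card Ω : ℝ))
    (B : Finset Ω) (hB : ∀ ω ∈ B, ∑ i ∈ s, X i ω < μ / 2) :
    (B.card : ℝ) * μ ≤ 4 * (Fintype.card Ω : ℝ) := by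
  classical
  have hNpos : (0 : ℝ) < (Fintype.card Ω : ℝ) := by exact_mod_cast hΩ
  have hvar := sum_sq_dev_le s X h01 hunc hΩ
  rw [← hμ] at hvar
  have hμ0 : 0 ≤ μ := by
    rw [hμ]
    apply Finset.sum_nonneg
    intro i hi
    apply div_nonneg _ hNpos.le
    apply Finset.sum_nonneg
    intro ω _
    rcases h01 i hi ω with h | h <;> simp [h]
  have hlow : ∑ _ω ∈ B, (μ / 2) ^ 2 ≤ ∑ ω, (∑ i ∈ s, X i ω - μ) ^ 2 := by
    calc ∑ _ω ∈ B, (μ / 2) ^ 2 ≤ ∑ ω ∈ B, (∑ i ∈ s, X i ω - μ) ^ 2 := by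
          refine Finset.sum_le_sum fun ω hω => ?_
          have hlt : ∑ i ∈ s, X i ω < μ / 2 := hB ω hω
          have hnn : 0 ≤ ∑ i ∈ s, X i ω := by
            apply Finset.sum_nonneg
            intro i hi
            rcases h01 i hi ω with h | h <;> simp [h]
          nlinarith
      _ ≤ ∑ ω, (∑ i ∈ s, X i ω - μ) ^ 2 := by
          apply Finset.sum_le_sum_of_subset_of_nonneg (Finset.subset_univ _)
          intro _ _ _; positivity
  simp only [Finset.sum_const, nsmul_eq_mul] at hlow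
  have h2 : (B.card : ℝ) * (μ / 2) ^ 2 ≤ μ * (Fintype.card Ω : ℝ) := hlow.trans hvar
  by_cases hμ' : μ = 0
  · rw [hμ']; simp
  · have hμpos : 0 < μ := lt_of_le_of_ne hμ0 (Ne.symm hμ')
    have h3 : (B.card : ℝ) * μ / 4 * μ ≤ (Fintype.card Ω : ℝ) * μ := by nlinarith
    have h4 := le_of_mul_le_mul_right h3 hμpos
    linarith

end Cheb

/-! ### (c) Fubini split of the bit space: first `r` bits = labels in `ZMod (2^r)`, rest kept -/

section Split

variable {V : Type*} [Fintype V] [DecidableEq V]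

/-- The bit space: every vertex carries a word of `N` bits. -/
abbrev Pos (V : Type*) (N : ℕ) := V → Fin N → Bool

/-- The bits of index `≥ r`. -/
abbrev Rest (r N : ℕ) := {i : Fin N // ¬ (i : ℕ) < r} → Bool

/-- A fixed bijection from words of `r` bits to `ZMod (2^r)` (any bijection will do). -/
noncomputable def phi (r : ℕ) : (Fin r → Bool) ≃ ZMod (2 ^ r) :=
  Fintype.equivOfCardEq (by simp [ZMod.card])

/-- The first `r` bits. -/
def pre {r N : ℕ} (h : r ≤ N) (b : Fin N → Bool) : Fin r → Bool := fun i => b (Fin.castLE h i)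

/-- The remaining bits. -/
def suf {r N : ℕ} (b : Fin N → Bool) : Rest r N := fun i => b i.1

/-- The cell of a word: its first `r` bits, read in `ZMod (2^r)`. -/
noncomputable def cellOf {r N : ℕ} (h : r ≤ N) (b : Fin N → Bool) : ZMod (2 ^ r) := phi r (pre h b)

/-- Glue a prefix and a rest. -/
def glue {r N : ℕ} (x : Fin r → Bool) (y : Rest r N) : Fin N → Bool :=
  fun i => if hi : (i : ℕ) < r then x ⟨i, hi⟩ else y ⟨i, hi⟩

theorem pre_glue {r N : ℕ} (h : r ≤ N) (x : Fin r → Bool) (y : Rest r N) : pre h (glue x y) = x := by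
  funext i
  simp [pre, glue, i.isLt]

theorem suf_glue {r N : ℕ} (x : Fin r → Bool) (y : Rest r N) : suf (glue x y) = y := by
  funext i
  simp [suf, glue, i.2]

theorem glue_pre_suf {r N : ℕ} (h : r ≤ N) (b : Fin N → Bool) : glue (pre h b) (suf b) = b := by
  funext i
  by_cases hi : (i : ℕ) < r
  · simp [glue, pre, hi]
  · simp [glue, suf, hi]

/-- The split of one word. -/
def wordEquiv {r N : ℕ} (h : r ≤ N) : (Fin N → Bool) ≃ (Fin r → Bool) × Rest r N where
  toFun b := (pre h b, suf b)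
  invFun p := glue p.1 p.2
  left_inv b := glue_pre_suf h b
  right_inv p := by
    apply Prod.ext
    · exact pre_glue h p.1 p.2
    · exact suf_glue p.1 p.2

/-- Combine labels `j` (the first `r` bits of every vertex) with the rest `y`. -/
noncomputable def combine {r N : ℕ} (j : V → ZMod (2 ^ r)) (y : V → Rest r N) : Pos V N :=
  fun v => glue ((phi r).symm (j v)) (y v)

/-- The cell of a combined sample is the label. -/
@[simp] theorem cellOf_combine {r N : ℕ} (h : r ≤ N) (j : V → ZMod (2 ^ r)) (y : V → Rest r N)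
    (v : V) : cellOf h (combine j y v) = j v := by
  simp [cellOf, combine, pre_glue]

/-- The bits of index `≥ r` of a combined sample are those of the rest. -/
theorem combine_apply_of_le {r N : ℕ} (j : V → ZMod (2 ^ r)) (y : V → Rest r N) (v : V)
    (i : Fin N) (hi : ¬ (i : ℕ) < r) : combine j y v i = y v ⟨i, hi⟩ := by
  simp [combine, glue, hi]

/-- The bits of index `< r` of a combined sample are those of the label. -/
theorem combine_apply_of_lt {r N : ℕ} (j : V → ZMod (2 ^ r)) (y : V → Rest r N) (v : V)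
    (i : Fin N) (hi : (i : ℕ) < r) : combine j y v i = (phi r).symm (j v) ⟨i, hi⟩ := by
  simp [combine, glue, hi]

/-- The split of the whole sample space. -/
noncomputable def posEquiv {r N : ℕ} (h : r ≤ N) :
    Pos V N ≃ (V → Rest r N) × (V → ZMod (2 ^ r)) where
  toFun pos := (fun v => suf (pos v), fun v => cellOf h (pos v))
  invFun p := combine p.2 p.1
  left_inv pos := by
    funext v
    simp only [combine, cellOf, Equiv.symm_apply_apply]
    exact glue_pre_suf h (pos v)
  right_inv p := by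
    apply Prod.ext
    · funext v
      simp [combine, suf_glue]
    · funext v
      exact cellOf_combine h p.2 p.1 v

/-- **Fubini**: the sum over all samples is the sum over the rest of the sum over the labels.
So for fixed rest one averages over `j : V → ZMod (2^r)` uniformly. -/
theorem sum_pos_split {r N : ℕ} (h : r ≤ N) {M : Type*} [AddCommMonoid M] (F : Pos V N → M) :
    ∑ pos, F pos = ∑ y : V → Rest r N, ∑ j : V → ZMod (2 ^ r), F (combine j y) := by
  rw [← Fintype.sum_prod_type']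
  exact Fintype.sum_equiv (posEquiv h) _ _ (fun pos => by
    show F pos = F ((posEquiv h).symm (posEquiv h pos))
    rw [Equiv.symm_apply_apply])

/-- Two samples with the same rest agree on every function of the bits of index `≥ r`. -/
theorem depends_rest {r N : ℕ} {X : Type*} (G : Pos V N → X)
    (hG : ∀ pos pos' : Pos V N, (∀ v (i : Fin N), ¬ (i : ℕ) < r → pos v i = pos' v i) →
      G pos = G pos') (j j' : V → ZMod (2 ^ r)) (y : V → Rest r N) :
    G (combine j y) = G (combine j' y) := by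
  apply hG
  intro v i hi
  rw [combine_apply_of_le _ _ _ _ hi, combine_apply_of_le _ _ _ _ hi]

/-- Cardinality of the sample space. -/
theorem card_pos (N : ℕ) : Fintype.card (Pos V N) = 2 ^ (N * Fintype.card V) := by
  simp [Pos, pow_mul]

end Split

end Crest.Agent.Lib.EG.SampleSplit
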