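/-
  Row 45 (S0064): definitions of the top level chain (integrator helper37).
  Parameters, native sets, pools, skeleton candidates `flowArcs`, parity arcs `parArcs`, cells.
  Nothing is proved here except trivial facts; the probability is in `TopMoment*`.
-/
import Crest.Agent.Lib.EG.LevelAsm
import Crest.Agent.Lib.EG.LevelClass
import Crest.Agent.Lib.EG.Picks
import Crest.Agent.Lib.EG.Pruned
import Crest.Agent.Lib.EG.SampleSplit
import Crest.Agent.Lib.EG.Numerics

set_option autoImplicit false
set_option linter.unusedSectionVars false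

open Finset

namespace Crest.Agent.Lib.EG.Top

open Crest.Agent.Lib.EG.Sample Crest.Agent.Lib.EG.SampleSplit

/-! ### Parameters -/

/-- First level with a skeleton. -/
def l0 : ℕ := 64
/-- Number of cell bits at level `l`. -/
def rP (l : ℕ) : ℕ := l / 8
/-- Number of cells at level `l`. -/
def LP (l : ℕ) : ℕ := 2 ^ rP l
/-- Core threshold at level `l`. -/
def TP (l : ℕ) : ℕ := if l < l0 then 0 else 2 ^ (7 * rP l)
/-- Pool size per vertex and per tag at level `l`. -/
def KP (l : ℕ) : ℕ := if l < l0 then 0 else 2 ^ (4 * rP l)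
/-- Degree threshold of the covered set at level `l`. -/
def DP (l : ℕ) : ℕ := KP l / 4

variable {V : Type*} [Fintype V] [DecidableEq V]

/-- Bit `l` of a word (`false` beyond the length). -/
def bitAt {N : ℕ} (x : Fin N → Bool) (l : ℕ) : Bool := if h : l < N then x ⟨l, h⟩ else false

/-- An edge of native level `l`. -/
def IsNat {N : ℕ} (pos : V → Fin N → Bool) (l : ℕ) (e : Sym2 V) : Prop :=
  l < N ∧ ∃ a b, e = s(a, b) ∧ Native l (pos a) (pos b)

/-- An edge whose two ends differ at bit `l`. -/
def BitNe {N : ℕ} (pos : V → Fin N → Bool) (l : ℕ) (e : Sym2 V) : Prop :=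
  ∃ a b, e = s(a, b) ∧ bitAt (pos a) l ≠ bitAt (pos b) l

/-- A parity candidate: native `rP l` and the ends differ at bit `l`. -/
def IsPar {N : ℕ} (pos : V → Fin N → Bool) (l : ℕ) (e : Sym2 V) : Prop :=
  ∃ a b, e = s(a, b) ∧ Native (rP l) (pos a) (pos b) ∧ bitAt (pos a) l ≠ bitAt (pos b) l

/-- All edges of a pool family. -/
def poolOf (own : V → Finset V) : Finset (Sym2 V) :=
  univ.biUnion (fun v => (own v).image (fun u => s(v, u)))

lemma mem_poolOf {own : V → Finset V} {e : Sym2 V} :
    e ∈ poolOf own ↔ ∃ v u, u ∈ own v ∧ e = s(v, u) := by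
  simp only [poolOf, mem_biUnion, mem_univ, true_and, mem_image]
  constructor
  · rintro ⟨v, u, hu, rfl⟩; exact ⟨v, u, hu, rfl⟩
  · rintro ⟨v, u, hu, rfl⟩; exact ⟨v, u, hu, rfl⟩

section
variable (G : SimpleGraph V) [DecidableRel G.Adj]

open Classical in
/-- The native edges of level `l`. -/
noncomputable def natS {N : ℕ} (pos : V → Fin N → Bool) (l : ℕ) : Finset (Sym2 V) :=
  G.edgeFinset.filter (IsNat pos l)

open Classical in
/-- The flow arcs of level `l`: pool arcs with the role bit differing. Depends only on bit `l`. -/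
noncomputable def flowArcs {N : ℕ} (own : V → Finset V) (pos : V → Fin N → Bool) (l : ℕ) : Finset (Sym2 V) :=
  (poolOf own).filter (BitNe pos l)

open Classical in
/-- The parity arcs of level `l`. -/
noncomputable def parArcs {N : ℕ} (own : V → Finset V) (pos : V → Fin N → Bool) (l : ℕ) : Finset (Sym2 V) :=
  (poolOf own).filter (IsPar pos l)

end

/-- The cell of `v` at level `l`, as an element of `ZMod (2^r)`. -/
noncomputable def cellZ {N : ℕ} (l : ℕ) (hl : rP l ≤ N) (pos : V → Fin N → Bool) : V → ZMod (2 ^ rP l) :=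
  fun v => cellOf hl (pos v)

end Crest.Agent.Lib.EG.Top
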