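/-
  Row 45 (S0064), helper12.  Slice S1 of the top chain (#2451): the one-level statement for an owned arc set,
  with the numbers of the level `s`.
-/
import Crest.Agent.Lib.EG.LevelOne
import Crest.Agent.Lib.EG.FreezeLink
import Crest.Agent.Lib.EG.Picks
import Crest.Agent.Lib.EG.TopDefs

set_option autoImplicit false
set_option linter.unusedSectionVars false

open Finset Crest.Agent.Lib.EG.LevelFlow Crest.Agent.Lib.EG.Winding Crest.Agent.Lib.EG.Skeleton
  Crest.Agent.Lib.EG.LevelOne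

namespace Crest.Agent.Lib.EG.Top

variable {V : Type*} [Fintype V] [DecidableEq V]

/-- A reference orientation of an edge. -/
noncomputable def refArc (e : Sym2 V) : V × V := Quot.out e

lemma refArc_spec (e : Sym2 V) : s((refArc e).1, (refArc e).2) = e := by
  have := Quot.out_eq e
  unfold refArc
  exact this

/-- The numbers of one level. -/
lemma level_two_numeric (s : ℕ) (hs : 8 ≤ s) (n E U : ℝ) (hn : 0 ≤ n) (hE0 : 0 ≤ E) (hE : E ≤ 2 ^ (4 * s) * n)
    (hU0 : 0 ≤ U) (hU : U ≤ n) :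
    4 * (1 / (2 : ℝ) ^ (3 * s - 3)) * Real.sqrt (E * (4 / ((2 ^ s : ℕ) : ℝ) * n))
      + 4 * (1 / (2 : ℝ) ^ (3 * s - 3)) * E / (((2 ^ s : ℕ) : ℝ)) ^ 2
      + U * (1 / ((2 ^ s : ℕ) : ℝ) + 4 * ((2 ^ s : ℕ) : ℝ) / ((2 ^ (4 * s - 2) : ℕ) : ℝ))
      ≤ n * (113 * (1 / 2) ^ s) := by
  set L : ℝ := 2 ^ s with hLdef
  have hL1 : 1 ≤ L := one_le_pow₀ (by norm_num)
  have hL0 : 0 < L := by linarith
  have hLc : (((2 ^ s : ℕ) : ℝ)) = L := by push_cast; rfl
  have hT : (2 : ℝ) ^ (3 * s - 3) = L ^ 3 / 8 := by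
    have h1 : (2 : ℝ) ^ (3 * s - 3) * 2 ^ 3 = 2 ^ (3 * s) := by
      rw [← pow_add]; congr 1; omega
    have h2 : (2 : ℝ) ^ (3 * s) = L ^ 3 := by rw [hLdef, ← pow_mul, mul_comm]
    rw [h2] at h1
    linarith
  have hD : (((2 ^ (4 * s - 2) : ℕ) : ℝ)) = L ^ 4 / 4 := by
    push_cast
    have h1 : (2 : ℝ) ^ (4 * s - 2) * 2 ^ 2 = 2 ^ (4 * s) := by
      rw [← pow_add]; congr 1; omega
    have h2 : (2 : ℝ) ^ (4 * s) = L ^ 4 := by rw [hLdef, ← pow_mul, mul_comm]
    rw [h2] at h1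
    linarith
  have hK : (2 : ℝ) ^ (4 * s) = L ^ 4 := by rw [hLdef, ← pow_mul, mul_comm]
  have h12 : ((1 : ℝ) / 2) ^ s = 1 / L := by
    rw [hLdef, one_div, one_div, inv_pow]
  rw [hLc, hD, hT, h12]
  rw [hK] at hE
  have hsq : Real.sqrt (E * (4 / L * n)) ≤ 2 * n * L ^ 2 := by
    rw [Real.sqrt_le_iff]
    refine ⟨by positivity, ?_⟩
    have h1 : E * (4 / L * n) ≤ L ^ 4 * n * (4 / L * n) :=
      mul_le_mul_of_nonneg_right hE (by positivity)
    have h2 : L ^ 4 * n * (4 / L * n) = 4 * L ^ 3 * n ^ 2 := by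
      field_simp
    have h3 : 4 * L ^ 3 * n ^ 2 ≤ (2 * n * L ^ 2) ^ 2 := by
      have : (2 * n * L ^ 2) ^ 2 = 4 * L ^ 4 * n ^ 2 := by ring
      rw [this]
      have h4 : L ^ 3 ≤ L ^ 4 := pow_le_pow_right₀ hL1 (by norm_num)
      have h5 : 0 ≤ n ^ 2 := by positivity
      nlinarith
    linarith
  have h1 : 4 * (1 / (L ^ 3 / 8)) * Real.sqrt (E * (4 / L * n)) ≤ 64 * n / L := by
    have h2 : 4 * (1 / (L ^ 3 / 8)) = 32 / L ^ 3 := by field_simp; norm_num
    rw [h2]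
    calc 32 / L ^ 3 * Real.sqrt (E * (4 / L * n))
        ≤ 32 / L ^ 3 * (2 * n * L ^ 2) := mul_le_mul_of_nonneg_left hsq (by positivity)
      _ = 64 * n / L := by field_simp; ring
  have h2 : 4 * (1 / (L ^ 3 / 8)) * E / L ^ 2 ≤ 32 * n / L := by
    have h3 : 4 * (1 / (L ^ 3 / 8)) * E / L ^ 2 = 32 / L ^ 5 * E := by field_simp; ring
    rw [h3]
    calc 32 / L ^ 5 * E ≤ 32 / L ^ 5 * (L ^ 4 * n) := mul_le_mul_of_nonneg_left hE (by positivity)
      _ = 32 * n / L := by field_simp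
  have h3 : U * (1 / L + 4 * L / (L ^ 4 / 4)) ≤ 17 * n / L := by
    have h4 : 4 * L / (L ^ 4 / 4) = 16 / L ^ 3 := by field_simp; norm_num
    rw [h4]
    have h5 : 16 / L ^ 3 ≤ 16 / L := by
      apply div_le_div_of_nonneg_left (by norm_num) hL0
      calc L = L ^ 1 := (pow_one L).symm
        _ ≤ L ^ 3 := pow_le_pow_right₀ hL1 (by norm_num)
    calc U * (1 / L + 16 / L ^ 3) ≤ n * (1 / L + 16 / L ^ 3) :=
          mul_le_mul_of_nonneg_right hU (by positivity)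
      _ ≤ n * (1 / L + 16 / L) := mul_le_mul_of_nonneg_left (by linarith) hn
      _ = 17 * n / L := by field_simp; norm_num
  have h4 : n * (113 * (1 / L)) = 64 * n / L + 32 * n / L + 17 * n / L := by
    field_simp; norm_num
  rw [h4]
  linarith

open Classical in
/-- **Slice S1.** -/
theorem level_two (s : ℕ) (hs : 8 ≤ s) (col : V → Bool) (own : V → Finset V)
    (hown : ∀ v, (own v).card ≤ 2 ^ (4 * s)) (hownv : ∀ v, v ∉ own v)
    (A : Finset (Sym2 V)) (hA : ∀ e ∈ A, ∃ v u, u ∈ own v ∧ e = s(v, u))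
    (hcol : ∀ a b, s(a, b) ∈ A → col a ≠ col b) (U : Finset V)
    (hU : ∀ v ∈ U, 2 ^ (4 * s - 2) ≤ (univ.filter (fun u => s(v, u) ∈ A)).card) :
    ∃ R : (V → ZMod (2 ^ s)) → List (V × V),
      (∀ j, ValidArcs col (R j)) ∧ (∀ j, ∀ p ∈ R j, s(p.1, p.2) ∈ A) ∧
      (∀ j v, ((R j).filter (fun p => p.2 = v)).length = ((R j).filter (fun p => p.1 = v)).length) ∧
      ∑ j : V → ZMod (2 ^ s), (2 * (badArcs (nat (2 ^ s) j) (R j) : ℝ)
        + ((U.filter (fun v => ∀ p ∈ R j, p.2 = v → nat (2 ^ s) j p.2 ≠ nat (2 ^ s) j p.1 + 1)).card : ℝ))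
      ≤ Fintype.card (V → ZMod (2 ^ s)) * (Fintype.card V * (113 * (1 / 2) ^ s)) := by
  -- reference arcs
  let E : Finset (V × V) := A.image refArc
  have hEmem : ∀ e ∈ E, s(e.1, e.2) ∈ A := by
    intro e he
    obtain ⟨x, hx, rfl⟩ := Finset.mem_image.1 he
    rw [refArc_spec]; exact hx
  have hEref : ∀ e ∈ E, refArc s(e.1, e.2) = e := by
    intro e he
    obtain ⟨x, hx, rfl⟩ := Finset.mem_image.1 he
    rw [refArc_spec]
  have hEinj : ∀ e ∈ E, ∀ f ∈ E, s(e.1, e.2) = s(f.1, f.2) → e = f := by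
    intro e he f hf h
    rw [← hEref e he, ← hEref f hf, h]
  have hloop : ∀ e ∈ E, e.1 ≠ e.2 := by
    intro e he h
    have h1 := hcol e.1 e.2 (hEmem e he)
    exact h1 (by rw [h])
  have hrev : ∀ e ∈ E, (e.2, e.1) ∉ E := by
    intro e he h
    have h1 := hEinj e he _ h Sym2.eq_swap
    have h2 := congrArg Prod.fst h1
    exact hloop e he h2
  have hEcol : ∀ e ∈ E, col e.1 ≠ col e.2 := fun e he => hcol e.1 e.2 (hEmem e he)
  have hAref : ∀ u v, s(v, u) ∈ A → (u, v) ∈ E ∨ (v, u) ∈ E := by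
    intro u v h
    have h1 : refArc s(v, u) ∈ E := Finset.mem_image_of_mem _ h
    have h2 := refArc_spec s(v, u)
    rcases Sym2.eq_iff.1 h2 with ⟨h3, h4⟩ | ⟨h3, h4⟩
    · right
      have : refArc s(v, u) = (v, u) := Prod.ext h3 h4
      rwa [this] at h1
    · left
      have : refArc s(v, u) = (u, v) := Prod.ext h3 h4
      rwa [this] at h1
  -- span and order
  have hspan := Picks.span_le_of_owned A own (2 ^ (4 * s)) hown hA
  obtain ⟨ord, hord, hback⟩ := Picks.exists_order A (2 ^ (4 * s)) hspan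
  have hμ : ∀ v, (E.filter (fun e => (e.1 = v ∧ ord e.2 < ord v) ∨ (e.2 = v ∧ ord e.1 < ord v))).card
      ≤ 2 * 2 ^ (4 * s) := by
    intro v
    refine le_trans ?_ (hback v)
    refine Finset.card_le_card_of_injOn (fun e => if e.1 = v then e.2 else e.1) ?_ ?_
    · intro e he
      have he' := Finset.mem_filter.1 (Finset.mem_coe.1 he)
      refine Finset.mem_coe.2 (Finset.mem_filter.2 ⟨Finset.mem_univ _, ?_⟩)
      have hm := hEmem e he'.1
      rcases he'.2 with ⟨h1, h2⟩ | ⟨h1, h2⟩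
      · simp only [h1, if_true]
        rw [h1] at hm
        exact ⟨hm, by rw [← h1] at h2 ⊢; exact h2⟩
      · have h3 : e.1 ≠ v := by
          intro h
          exact hloop e he'.1 (h.trans h1.symm)
        simp only [if_neg h3]
        rw [h1] at hm
        exact ⟨by rw [Sym2.eq_swap]; exact hm, h2⟩
    · intro e he f hf hef
      have he' := Finset.mem_filter.1 (Finset.mem_coe.1 he)
      have hf' := Finset.mem_filter.1 (Finset.mem_coe.1 hf)
      apply hEinj e he'.1 f hf'.1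
      simp only at hef
      have hee : s(e.1, e.2) = s(v, if e.1 = v then e.2 else e.1) := by
        rcases he'.2 with ⟨h1, _⟩ | ⟨h1, _⟩
        · simp [h1]
        · have h3 : e.1 ≠ v := fun h => hloop e he'.1 (h.trans h1.symm)
          simp only [if_neg h3]
          rw [h1]
          exact Sym2.eq_swap
      have hff : s(f.1, f.2) = s(v, if f.1 = v then f.2 else f.1) := by
        rcases hf'.2 with ⟨h1, _⟩ | ⟨h1, _⟩
        · simp [h1]
        · have h3 : f.1 ≠ v := fun h => hloop f hf'.1 (h.trans h1.symm)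
          simp only [if_neg h3]
          rw [h1]
          exact Sym2.eq_swap
      rw [hee, hff, hef]
  have hμ2 := FreezeLink.card_etime_le E hloop ord hord (2 * 2 ^ (4 * s)) hμ
  -- numbers
  have hLnat : 3 ≤ 2 ^ s := by
    calc 3 ≤ 2 ^ 8 := by norm_num
      _ ≤ 2 ^ s := Nat.pow_le_pow_right (by norm_num) hs
  have h2s : (1 : ℝ) ≤ 2 ^ (s - 8) := one_le_pow₀ (by norm_num)
  have hT : 2 + 2 * Real.sqrt (2 * ((2 * 2 ^ (4 * s) : ℕ) : ℝ)) ≤ (2 : ℝ) ^ (3 * s - 3) := by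
    have h1 : Real.sqrt (2 * ((2 * 2 ^ (4 * s) : ℕ) : ℝ)) ≤ 2 * 2 ^ (2 * s) := by
      rw [Real.sqrt_le_iff]
      refine ⟨by positivity, ?_⟩
      push_cast
      have : (2 * (2 : ℝ) ^ (2 * s)) ^ 2 = 4 * 2 ^ (4 * s) := by
        rw [mul_pow, ← pow_mul]
        norm_num
        ring_nf
      rw [this]
      linarith
    have h2 : (2 : ℝ) ^ (3 * s - 3) = 2 ^ (2 * s) * 2 ^ (s - 3) := by
      rw [← pow_add]; congr 1; omega
    have h3 : (32 : ℝ) ≤ 2 ^ (s - 3) := by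
      calc (32 : ℝ) = 2 ^ 5 := by norm_num
        _ ≤ 2 ^ (s - 3) := pow_le_pow_right₀ (by norm_num) (by omega)
    have h4 : (1 : ℝ) ≤ 2 ^ (2 * s) := one_le_pow₀ (by norm_num)
    rw [h2]
    nlinarith
  have hD : 0 < 2 ^ (4 * s - 2) := by positivity
  have hTD : 2 * (((2 ^ s : ℕ)) : ℝ) * (2 : ℝ) ^ (3 * s - 3) ≤ ((2 ^ (4 * s - 2) : ℕ) : ℝ) := by
    push_cast
    have : 2 * (2 : ℝ) ^ s * 2 ^ (3 * s - 3) = 2 ^ (1 + s + (3 * s - 3)) := by
      rw [pow_add, pow_add]; norm_num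
    rw [this]
    apply le_of_eq
    congr 1
    omega
  have hU2 : ∀ v ∈ U, ∃ W : Finset V, v ∉ W ∧ 2 ^ (4 * s - 2) ≤ W.card ∧
      ∀ u ∈ W, (u, v) ∈ E ∨ (v, u) ∈ E := by
    intro v hv
    refine ⟨univ.filter (fun u => s(v, u) ∈ A), ?_, hU v hv, ?_⟩
    · intro h
      have h1 := (Finset.mem_filter.1 h).2
      exact hcol v v h1 rfl
    · intro u hu
      exact hAref u v (Finset.mem_filter.1 hu).2
  obtain ⟨R, h1, h2, h3, h4⟩ := level_one (2 ^ s) hLnat col E hloop hrev hEcol ord hord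
    (2 * 2 ^ (4 * s)) hμ2 ((2 : ℝ) ^ (3 * s - 3)) hT (2 ^ (4 * s - 2)) hD hTD U hU2
  refine ⟨R, h1, ?_, h3, ?_⟩
  · intro j p hp
    rcases h2 j p hp with h | h
    · exact hEmem p h
    · have := hEmem _ h
      simp only at this
      rwa [Sym2.eq_swap]
  refine le_trans h4 ?_
  have hΩ : (0 : ℝ) ≤ Fintype.card (V → ZMod (2 ^ s)) := Nat.cast_nonneg _
  apply mul_le_mul_of_nonneg_left _ hΩ
  have hEc : (E.card : ℝ) ≤ 2 ^ (4 * s) * Fintype.card V := by
    have h5 : E.card ≤ A.card := Finset.card_image_le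
    have h6 := hspan Finset.univ
    have h7 : A.filter (fun e => ∀ x ∈ e, x ∈ (Finset.univ : Finset V)) = A := by
      apply Finset.filter_true_of_mem
      intro e _ x _
      exact Finset.mem_univ x
    rw [h7, Finset.card_univ] at h6
    have h8 : E.card ≤ 2 ^ (4 * s) * Fintype.card V := h5.trans h6
    exact_mod_cast h8
  have hUc : (U.card : ℝ) ≤ Fintype.card V := by
    exact_mod_cast Finset.card_le_univ U
  exact level_two_numeric s hs _ _ _ (Nat.cast_nonneg _) (Nat.cast_nonneg _) hEc (Nat.cast_nonneg _) hUc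

end Crest.Agent.Lib.EG.Top
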