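/-
  Row 45 (S0064), helper12.  First moment of one level: Fubini (labels vs later bits) + `level_two`
  + Chebyshev for the role bit.  Final shape of #2455.
-/
import Crest.Agent.Lib.EG.LevelTwo
import Crest.Agent.Lib.EG.SampleSplit

set_option autoImplicit false
set_option linter.unusedSectionVars false

open Finset Crest.Agent.Lib.EG.LevelFlow Crest.Agent.Lib.EG.Winding Crest.Agent.Lib.EG.Skeleton
  Crest.Agent.Lib.EG.SampleSplit

namespace Crest.Agent.Lib.EG.Top

variable {V : Type*} [Fintype V] [DecidableEq V]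

/-- half of the words of later bits have a given bit value -/
lemma sum_bit_ne {r N : ℕ} (ℓ : {i : Fin N // ¬ (i : ℕ) < r}) (x : Rest r N) :
    ∑ x' : Rest r N, (if x ℓ ≠ x' ℓ then (1 : ℝ) else 0) = 1 / 2 * Fintype.card (Rest r N) := by
  have h := Sample.sum_coord (V := {i : Fin N // ¬ (i : ℕ) < r}) (Λ := Bool) ℓ
    (fun t => if x ℓ ≠ t then (1 : ℝ) else 0)
  rw [h]
  have h2 : ∑ t : Bool, (if x ℓ ≠ t then (1 : ℝ) else 0) = 1 := by
    cases h3 : x ℓ <;> simp
  rw [h2]
  simp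

open Classical in
/-- Chebyshev for the role bit at one vertex. -/
lemma card_low_roles {r N : ℕ} (ℓ : {i : Fin N // ¬ (i : ℕ) < r}) (v : V) (W : Finset V) (hv : v ∉ W)
    (K D : ℕ) (hK : 0 < K) (hKW : K ≤ W.card) (hDK : 4 * D ≤ K) :
    ((univ.filter (fun y : V → Rest r N =>
      ((W.filter (fun u => y u ℓ ≠ y v ℓ)).card) < D)).card : ℝ)
      ≤ 8 / K * Fintype.card (V → Rest r N) := by
  have hKpos : (0 : ℝ) < K := by exact_mod_cast hK
  have hWc : (K : ℝ) ≤ W.card := by exact_mod_cast hKW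
  have hWpos : (0 : ℝ) < W.card := lt_of_lt_of_le hKpos hWc
  let yy : V → Rest r N → Rest r N → ℝ := fun _ x x' => if x ℓ ≠ x' ℓ then 1 else 0
  let θ : V → ℝ := fun _ => 1 / 2
  let μ : ℝ := W.card / 2
  have hμ0 : 0 < μ := by positivity
  have h01 : ∀ u x x', 0 ≤ yy u x x' ∧ yy u x x' ≤ 1 := by
    intro u x x'
    simp only [yy]
    split_ifs <;> norm_num
  have hy : ∀ u ∈ W, ∀ x, ∑ x', yy u x x' = θ u * Fintype.card (Rest r N) := by
    intro u _ x
    exact sum_bit_ne ℓ x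
  have hμ : μ = ∑ u ∈ W, θ u := by
    simp only [θ, μ, Finset.sum_const, nsmul_eq_mul]
    ring
  have h := Sample.card_star_lt_half_mean (Λ := Rest r N) v W hv yy θ h01 hy μ hμ hμ0
  have hsub : (univ.filter (fun y : V → Rest r N => ((W.filter (fun u => y u ℓ ≠ y v ℓ)).card) < D))
      ⊆ (univ.filter (fun y : V → Rest r N => ∑ u ∈ W, yy u (y v) (y u) < μ / 2)) := by
    intro y hy'
    rw [Finset.mem_filter] at hy' ⊢
    refine ⟨Finset.mem_univ _, ?_⟩
    have h1 : ∑ u ∈ W, yy u (y v) (y u) = ((W.filter (fun u => y v ℓ ≠ y u ℓ)).card : ℝ) := by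
      simp only [yy]
      rw [Finset.sum_boole]
    rw [h1]
    have h2 : (W.filter (fun u => y v ℓ ≠ y u ℓ)) = (W.filter (fun u => y u ℓ ≠ y v ℓ)) := by
      ext u
      simp [ne_comm]
    rw [h2]
    have h3 : ((W.filter (fun u => y u ℓ ≠ y v ℓ)).card : ℝ) < D := by exact_mod_cast hy'.2
    have h4 : (D : ℝ) ≤ μ / 2 := by
      simp only [μ]
      have : (4 * (D : ℝ)) ≤ K := by exact_mod_cast hDK
      linarith
    linarith
  have h5 : ((univ.filter (fun y : V → Rest r N => ((W.filter (fun u => y u ℓ ≠ y v ℓ)).card) < D)).card : ℝ)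
      ≤ ((univ.filter (fun y : V → Rest r N => ∑ u ∈ W, yy u (y v) (y u) < μ / 2)).card : ℝ) := by
    exact_mod_cast Finset.card_le_card hsub
  refine h5.trans (h.trans ?_)
  have hΩ : (0 : ℝ) ≤ Fintype.card (V → Rest r N) := Nat.cast_nonneg _
  apply mul_le_mul_of_nonneg_right _ hΩ
  simp only [μ]
  rw [div_div_eq_mul_div]
  have : (4 * 2 : ℝ) = 8 := by norm_num
  rw [this]
  exact div_le_div_of_nonneg_left (by norm_num) hKpos hWc


open Classical in
/-- **The first moment of one level.** -/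
theorem level_expect (N l : ℕ) (hl0 : l0 ≤ l) (hl : l < N) (hr : rP l ≤ N) (Z : Finset V)
    (own : V → Finset V) (hc : ∀ v ∈ Z, (own v).card = KP l) (hZ : ∀ v, v ∉ Z → own v = ∅)
    (hv : ∀ v, v ∉ own v) (huniq : ∀ v u, u ∈ own v → v ∉ own u) (hZown : ∀ v, ∀ u ∈ own v, u ∈ Z) :
    ∃ R : (V → Fin N → Bool) → List (V × V),
      (∀ b, ValidArcs (fun v => bitAt (b v) l) (R b)) ∧
      (∀ b, ∀ p ∈ R b, s(p.1, p.2) ∈ flowArcs own b l) ∧
      (∀ b v, ((R b).filter (fun p => p.2 = v)).length = ((R b).filter (fun p => p.1 = v)).length) ∧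
      ∑ b, (2 * (badArcs (fun v => (cellZ l hr b v).val) (R b) : ℝ)
        + ((Z.filter (fun v => ∀ p ∈ R b, p.2 = v →
            (cellZ l hr b p.2).val ≠ (cellZ l hr b p.1).val + 1)).card : ℝ))
      ≤ Fintype.card (V → Fin N → Bool) * (Fintype.card V * (121 * (1 / 2) ^ rP l)) := by
  have hl0' : 64 ≤ l := hl0
  have hs : 8 ≤ rP l := by
    unfold rP
    omega
  have hrl : ¬ (l < rP l) := by
    unfold rP
    omega
  have hKP : KP l = 2 ^ (4 * rP l) := by
    unfold KP
    rw [if_neg (by omega)]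
  have hown : ∀ v, (own v).card ≤ 2 ^ (4 * rP l) := by
    intro v
    by_cases hvZ : v ∈ Z
    · rw [hc v hvZ, hKP]
    · rw [hZ v hvZ]; simp
  let ℓ : {i : Fin N // ¬ (i : ℕ) < rP l} := ⟨⟨l, hl⟩, hrl⟩
  have hbit : ∀ x : Fin N → Bool, bitAt x l = suf x ℓ := by
    intro x
    simp [bitAt, hl, suf, ℓ]
  -- the flow arcs as a function of the later bits
  let Aof : (V → Rest (rP l) N) → Finset (Sym2 V) := fun y =>
    (poolOf own).filter (fun e => ∃ a c, e = s(a, c) ∧ y a ℓ ≠ y c ℓ)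
  let Uof : (V → Rest (rP l) N) → Finset V := fun y =>
    Z.filter (fun v => 2 ^ (4 * rP l - 2) ≤ (univ.filter (fun u => s(v, u) ∈ Aof y)).card)
  have hlev := fun y : V → Rest (rP l) N => level_two (rP l) hs (fun v => y v ℓ) own hown hv (Aof y)
    (fun e he => mem_poolOf.1 (Finset.mem_filter.1 he).1)
    (by
      intro a c h
      obtain ⟨_, a', c', h1, h2⟩ := Finset.mem_filter.1 h
      rcases Sym2.eq_iff.1 h1 with ⟨h3, h4⟩ | ⟨h3, h4⟩
      · rw [h3, h4]; exact h2
      · rw [h3, h4]; exact h2.symm)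
    (Uof y)
    (fun v hv' => (Finset.mem_filter.1 hv').2)
  choose Ry hR1 hR2 hR3 hR4 using hlev
  let R : (V → Fin N → Bool) → List (V × V) := fun b =>
    Ry (fun v => suf (b v)) (fun v => cellOf hr (b v))
  refine ⟨R, ?_, ?_, ?_, ?_⟩
  · intro b
    have h1 := hR1 (fun v => suf (b v)) (fun v => cellOf hr (b v))
    have h2 : (fun v => bitAt (b v) l) = (fun v => suf (b v) ℓ) := funext fun v => hbit (b v)
    rw [h2]
    exact h1
  · intro b p hp
    have h1 := hR2 (fun v => suf (b v)) (fun v => cellOf hr (b v)) p hp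
    obtain ⟨h2, a, c, h3, h4⟩ := Finset.mem_filter.1 h1
    refine Finset.mem_filter.2 ⟨h2, a, c, h3, ?_⟩
    rw [hbit, hbit]
    exact h4
  · intro b v
    exact hR3 (fun v => suf (b v)) (fun v => cellOf hr (b v)) v
  -- the sum
  rw [sum_pos_split (r := rP l) hr]
  have hJ : (0 : ℝ) ≤ Fintype.card (V → ZMod (2 ^ rP l)) := Nat.cast_nonneg _
  have hY : (0 : ℝ) ≤ Fintype.card (V → Rest (rP l) N) := Nat.cast_nonneg _
  have hcom : ∀ (j : V → ZMod (2 ^ rP l)) (y : V → Rest (rP l) N),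
      (fun v => suf (combine j y v)) = y ∧ (fun v => cellOf hr (combine j y v)) = j := by
    intro j y
    constructor
    · funext v
      exact suf_glue _ _
    · funext v
      exact cellOf_combine hr j y v
  -- one term
  have hterm : ∀ (y : V → Rest (rP l) N) (j : V → ZMod (2 ^ rP l)),
      2 * (badArcs (fun v => (cellZ l hr (combine j y) v).val) (R (combine j y)) : ℝ)
        + ((Z.filter (fun v => ∀ p ∈ R (combine j y), p.2 = v →
            (cellZ l hr (combine j y) p.2).val ≠ (cellZ l hr (combine j y) p.1).val + 1)).card : ℝ)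
      ≤ (2 * (badArcs (nat (2 ^ rP l) j) (Ry y j) : ℝ)
        + (((Uof y).filter (fun v => ∀ p ∈ Ry y j, p.2 = v →
            nat (2 ^ rP l) j p.2 ≠ nat (2 ^ rP l) j p.1 + 1)).card : ℝ))
        + ((Z.filter (fun v => v ∉ Uof y)).card : ℝ) := by
    intro y j
    have h1 : R (combine j y) = Ry y j := by
      simp only [R]
      rw [(hcom j y).1, (hcom j y).2]
    have h2 : ∀ v, (cellZ l hr (combine j y) v).val = nat (2 ^ rP l) j v := by
      intro v
      simp only [cellZ, nat]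
      rw [cellOf_combine]
    have h3 : (fun v => (cellZ l hr (combine j y) v).val) = nat (2 ^ rP l) j := funext h2
    rw [h1, h3]
    simp only [h2]
    have h4 : ((Z.filter (fun v => ∀ p ∈ Ry y j, p.2 = v →
        nat (2 ^ rP l) j p.2 ≠ nat (2 ^ rP l) j p.1 + 1)).card : ℝ)
        ≤ (((Uof y).filter (fun v => ∀ p ∈ Ry y j, p.2 = v →
            nat (2 ^ rP l) j p.2 ≠ nat (2 ^ rP l) j p.1 + 1)).card : ℝ)
          + ((Z.filter (fun v => v ∉ Uof y)).card : ℝ) := by
      have h5 : (Z.filter (fun v => ∀ p ∈ Ry y j, p.2 = v →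
          nat (2 ^ rP l) j p.2 ≠ nat (2 ^ rP l) j p.1 + 1))
          ⊆ ((Uof y).filter (fun v => ∀ p ∈ Ry y j, p.2 = v →
            nat (2 ^ rP l) j p.2 ≠ nat (2 ^ rP l) j p.1 + 1)) ∪ (Z.filter (fun v => v ∉ Uof y)) := by
        intro v hv'
        obtain ⟨h6, h7⟩ := Finset.mem_filter.1 hv'
        by_cases h8 : v ∈ Uof y
        · exact Finset.mem_union_left _ (Finset.mem_filter.2 ⟨h8, h7⟩)
        · exact Finset.mem_union_right _ (Finset.mem_filter.2 ⟨h6, h8⟩)
      have h6 := (Finset.card_le_card h5).trans (Finset.card_union_le _ _)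
      exact_mod_cast h6
    have h7 : (2 * (badArcs (nat (2 ^ rP l) j) (Ry y j) : ℝ)
        + ((Z.filter (fun v => ∀ p ∈ Ry y j, p.2 = v →
            nat (2 ^ rP l) j p.2 ≠ nat (2 ^ rP l) j p.1 + 1)).card : ℝ))
        ≤ 2 * (badArcs (nat (2 ^ rP l) j) (Ry y j) : ℝ)
        + (((Uof y).filter (fun v => ∀ p ∈ Ry y j, p.2 = v →
            nat (2 ^ rP l) j p.2 ≠ nat (2 ^ rP l) j p.1 + 1)).card : ℝ)
          + ((Z.filter (fun v => v ∉ Uof y)).card : ℝ) := by
      linarith
    exact h7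
  -- the low vertices
  have hlow : ∑ y : V → Rest (rP l) N, ((Z.filter (fun v => v ∉ Uof y)).card : ℝ)
      ≤ (Z.card : ℝ) * ((8 : ℝ) / ((2 ^ (4 * rP l) : ℕ) : ℝ) * (Fintype.card (V → Rest (rP l) N) : ℝ)) := by
    have h1 : ∀ y : V → Rest (rP l) N, ((Z.filter (fun v => v ∉ Uof y)).card : ℝ)
        = ∑ v ∈ Z, (if v ∉ Uof y then (1 : ℝ) else 0) := by
      intro y
      rw [Finset.sum_boole]
    simp_rw [h1]
    rw [Finset.sum_comm]
    have h2 : ∀ v ∈ Z, ∑ y : V → Rest (rP l) N, (if v ∉ Uof y then (1 : ℝ) else 0)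
        ≤ (8 : ℝ) / ((2 ^ (4 * rP l) : ℕ) : ℝ) * (Fintype.card (V → Rest (rP l) N) : ℝ) := by
      intro v hvZ
      rw [Finset.sum_boole]
      have h3 := card_low_roles (V := V) (N := N) (r := rP l) ℓ v (own v) (hv v) (2 ^ (4 * rP l))
        (2 ^ (4 * rP l - 2)) (by positivity)
        (by rw [hc v hvZ, hKP])
        (by
          have : 4 * rP l = (4 * rP l - 2) + 2 := by omega
          rw [this, pow_add]
          simp
          ring_nf
          omega)
      refine le_trans ?_ h3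
      have h4 : (univ.filter (fun y : V → Rest (rP l) N => v ∉ Uof y))
          ⊆ (univ.filter (fun y : V → Rest (rP l) N =>
              ((own v).filter (fun u => y u ℓ ≠ y v ℓ)).card < 2 ^ (4 * rP l - 2))) := by
        intro y hy
        rw [Finset.mem_filter] at hy ⊢
        refine ⟨Finset.mem_univ _, ?_⟩
        have h5 : ¬ (2 ^ (4 * rP l - 2) ≤ (univ.filter (fun u => s(v, u) ∈ Aof y)).card) := by
          intro h6
          exact hy.2 (Finset.mem_filter.2 ⟨hvZ, h6⟩)
        rw [not_le] at h5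
        refine lt_of_le_of_lt (Finset.card_le_card ?_) h5
        intro u hu
        obtain ⟨h6, h7⟩ := Finset.mem_filter.1 hu
        refine Finset.mem_filter.2 ⟨Finset.mem_univ _, Finset.mem_filter.2 ⟨?_, v, u, rfl, h7.symm⟩⟩
        exact mem_poolOf.2 ⟨v, u, h6, rfl⟩
      exact_mod_cast Finset.card_le_card h4
    calc ∑ v ∈ Z, ∑ y : V → Rest (rP l) N, (if v ∉ Uof y then (1 : ℝ) else 0)
        ≤ ∑ _v ∈ Z, (8 : ℝ) / ((2 ^ (4 * rP l) : ℕ) : ℝ) * (Fintype.card (V → Rest (rP l) N) : ℝ) :=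
          Finset.sum_le_sum h2
      _ = (Z.card : ℝ) * ((8 : ℝ) / ((2 ^ (4 * rP l) : ℕ) : ℝ) * (Fintype.card (V → Rest (rP l) N) : ℝ)) := by
          rw [Finset.sum_const, nsmul_eq_mul]
  have hPos : (Fintype.card (V → Fin N → Bool) : ℝ)
      = Fintype.card (V → Rest (rP l) N) * Fintype.card (V → ZMod (2 ^ rP l)) := by
    have := Fintype.card_congr (posEquiv (V := V) hr)
    rw [Fintype.card_prod] at this
    exact_mod_cast this
  set x : ℝ := (1 / 2) ^ rP l with hx
  have hx0 : 0 ≤ x := by positivity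
  have hKx : (8 : ℝ) / ((2 ^ (4 * rP l) : ℕ) : ℝ) ≤ 8 * x := by
    have h1 : (8 : ℝ) / ((2 ^ (4 * rP l) : ℕ) : ℝ) = 8 * (1 / 2) ^ (4 * rP l) := by
      push_cast
      rw [one_div, inv_pow]
      rfl
    rw [h1]
    have h2 : ((1 : ℝ) / 2) ^ (4 * rP l) ≤ (1 / 2) ^ rP l :=
      pow_le_pow_of_le_one (by norm_num) (by norm_num) (by omega)
    linarith
  have hZc : (Z.card : ℝ) ≤ Fintype.card V := by exact_mod_cast Finset.card_le_univ Z
  have hn : (0 : ℝ) ≤ Fintype.card V := Nat.cast_nonneg _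
  calc ∑ y : V → Rest (rP l) N, ∑ j : V → ZMod (2 ^ rP l),
        (2 * (badArcs (fun v => (cellZ l hr (combine j y) v).val) (R (combine j y)) : ℝ)
        + ((Z.filter (fun v => ∀ p ∈ R (combine j y), p.2 = v →
            (cellZ l hr (combine j y) p.2).val ≠ (cellZ l hr (combine j y) p.1).val + 1)).card : ℝ))
      ≤ ∑ y : V → Rest (rP l) N, (Fintype.card (V → ZMod (2 ^ rP l)) * (Fintype.card V * (113 * x))
          + Fintype.card (V → ZMod (2 ^ rP l)) * ((Z.filter (fun v => v ∉ Uof y)).card : ℝ)) := by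
        refine Finset.sum_le_sum fun y _ => ?_
        calc ∑ j : V → ZMod (2 ^ rP l), _
            ≤ ∑ j : V → ZMod (2 ^ rP l), ((2 * (badArcs (nat (2 ^ rP l) j) (Ry y j) : ℝ)
                + (((Uof y).filter (fun v => ∀ p ∈ Ry y j, p.2 = v →
                  nat (2 ^ rP l) j p.2 ≠ nat (2 ^ rP l) j p.1 + 1)).card : ℝ))
                + ((Z.filter (fun v => v ∉ Uof y)).card : ℝ)) :=
              Finset.sum_le_sum fun j _ => hterm y j
          _ = (∑ j : V → ZMod (2 ^ rP l), (2 * (badArcs (nat (2 ^ rP l) j) (Ry y j) : ℝ)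
                + (((Uof y).filter (fun v => ∀ p ∈ Ry y j, p.2 = v →
                  nat (2 ^ rP l) j p.2 ≠ nat (2 ^ rP l) j p.1 + 1)).card : ℝ)))
                + Fintype.card (V → ZMod (2 ^ rP l)) * ((Z.filter (fun v => v ∉ Uof y)).card : ℝ) := by
              rw [Finset.sum_add_distrib, Finset.sum_const, Finset.card_univ, nsmul_eq_mul]
          _ ≤ _ := by
              have := hR4 y
              linarith
    _ = Fintype.card (V → Rest (rP l) N) * (Fintype.card (V → ZMod (2 ^ rP l)) * (Fintype.card V * (113 * x)))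
          + Fintype.card (V → ZMod (2 ^ rP l)) * ∑ y : V → Rest (rP l) N,
              ((Z.filter (fun v => v ∉ Uof y)).card : ℝ) := by
        rw [Finset.sum_add_distrib, Finset.sum_const, Finset.card_univ, nsmul_eq_mul, Finset.mul_sum]
    _ ≤ Fintype.card (V → Rest (rP l) N) * (Fintype.card (V → ZMod (2 ^ rP l)) * (Fintype.card V * (113 * x)))
          + Fintype.card (V → ZMod (2 ^ rP l)) * ((Z.card : ℝ) * ((8 : ℝ) / ((2 ^ (4 * rP l) : ℕ) : ℝ)
              * (Fintype.card (V → Rest (rP l) N) : ℝ))) := by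
        have := mul_le_mul_of_nonneg_left hlow hJ
        linarith
    _ ≤ Fintype.card (V → Fin N → Bool) * (Fintype.card V * (121 * x)) := by
        rw [hPos]
        have h1 : (Z.card : ℝ) * (8 / ((2 ^ (4 * rP l) : ℕ) : ℝ)) ≤ Fintype.card V * (8 * x) :=
          mul_le_mul hZc hKx (by positivity) hn
        have hYJ : (0 : ℝ) ≤ Fintype.card (V → Rest (rP l) N) * Fintype.card (V → ZMod (2 ^ rP l)) :=
          mul_nonneg hY hJ
        have h2 := mul_le_mul_of_nonneg_left h1 hYJ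
        nlinarith

end Crest.Agent.Lib.EG.Top
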