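import Crest.Agent.Lib.EG.TopNum
import Crest.Agent.Lib.EG.LevelBits

/-!
# Top level chain of S0064 (fallback form, slices as hypotheses)
-/

set_option linter.unusedSectionVars false

namespace Crest.Agent.Lib.EG.TopHedge

open Finset Crest.Agent.Lib.EG.Top Crest.Agent.Lib.EG.Sample Crest.Agent.Lib.EG.SampleSplit
  Crest.Agent.Lib.EG.LevelAsm Crest.Agent.Lib.EG.Winding Crest.Agent.Lib.EG.Core
  Crest.Agent.Lib.EG.LevelBits

variable {V : Type} [Fintype V] [DecidableEq V]

/-- The one-level statement. -/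
def LevelExpectStmt (V : Type) [Fintype V] [DecidableEq V] (C : ℝ) : Prop :=
  ∀ (N l : ℕ) (_ : l0 ≤ l) (_ : l < N) (hr : rP l ≤ N) (Z : Finset V) (own : V → Finset V)
    (_ : ∀ v ∈ Z, (own v).card = KP l) (_ : ∀ v, v ∉ Z → own v = ∅) (_ : ∀ v, v ∉ own v)
    (_ : ∀ v u, u ∈ own v → v ∉ own u) (_ : ∀ v, ∀ u ∈ own v, u ∈ Z),
    ∃ R : (V → Fin N → Bool) → List (V × V),
      (∀ b, ValidArcs (fun v => bitAt (b v) l) (R b)) ∧
      (∀ b, ∀ p ∈ R b, s(p.1, p.2) ∈ flowArcs own b l) ∧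
      (∀ b v, ((R b).filter (fun p => p.2 = v)).length = ((R b).filter (fun p => p.1 = v)).length) ∧
      ∑ b : V → Fin N → Bool, (2 * (Skeleton.badArcs (fun v => (cellZ l hr b v).val) (R b) : ℝ)
        + ((Z.filter (fun v => ∀ p ∈ R b, p.2 = v →
            (cellZ l hr b p.2).val ≠ (cellZ l hr b p.1).val + 1)).card : ℝ))
      ≤ (Fintype.card (V → Fin N → Bool) : ℝ) * ((Fintype.card V : ℝ) * (C * (1 / 2) ^ rP l))

/-- The expected number of parity singles of one level. -/
def ExpectParStmt (V : Type) [Fintype V] [DecidableEq V] : Prop :=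
  ∀ (N l : ℕ) (_ : rP l < l) (_ : l < N) (Z : Finset V) (own : V → Finset V) (K : ℕ) (_ : 0 < K)
    (_ : ∀ v ∈ Z, (own v).card = K) (_ : ∀ v, v ∉ own v),
    ∑ pos : V → Fin N → Bool, ∑ v ∈ Z, 1 / ((edeg (parArcs own pos l) v : ℝ) + 1)
      ≤ (Z.card : ℝ) * (6 / ((K : ℝ) * (1 / 2) ^ (rP l + 2))) * (Fintype.card (V → Fin N → Bool) : ℝ)

lemma bitAt_ne_of_native {N l : ℕ} (hl : l < N) {x y : Fin N → Bool} (h : Native l x y) :
    bitAt x l ≠ bitAt y l := by
  unfold bitAt
  rw [dif_pos hl, dif_pos hl]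
  exact h.2 ⟨l, hl⟩ rfl

lemma cellOf_eq {r N : ℕ} (h : r ≤ N) {x y : Fin N → Bool} (hxy : AgreeUpTo r x y) :
    cellOf h x = cellOf h y := by
  unfold cellOf pre
  congr 1
  funext i
  exact hxy _ i.isLt

/-- The linear cell. -/
noncomputable def jc {N : ℕ} (l : ℕ) (pos : V → Fin N → Bool) (v : V) : ℕ :=
  if h : rP l ≤ N then (cellZ l h pos v).val else 0

lemma jc_eq {N : ℕ} (l : ℕ) (pos : V → Fin N → Bool) {x y : V}
    (h : AgreeUpTo (rP l) (pos x) (pos y)) : jc l pos x = jc l pos y := by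
  unfold jc
  split_ifs with hr
  · unfold cellZ
    rw [cellOf_eq hr h]
  · rfl

lemma jc_of_le {N l : ℕ} (hr : rP l ≤ N) (pos : V → Fin N → Bool) :
    jc l pos = fun v => (cellZ l hr pos v).val := by
  funext v
  unfold jc
  rw [dif_pos hr]

lemma mem_parArcs {N l : ℕ} {own : V → Finset V} {pos : V → Fin N → Bool} {e : Sym2 V} :
    e ∈ parArcs own pos l ↔ e ∈ poolOf own ∧ IsPar pos l e := by
  classical
  simp [parArcs]

lemma mem_flowArcs {N l : ℕ} {own : V → Finset V} {pos : V → Fin N → Bool} {e : Sym2 V} :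
    e ∈ flowArcs own pos l ↔ e ∈ poolOf own ∧ BitNe pos l e := by
  classical
  simp [flowArcs]

lemma mem_natS {G : SimpleGraph V} [DecidableRel G.Adj] {N l : ℕ} {pos : V → Fin N → Bool} {e : Sym2 V} :
    e ∈ natS G pos l ↔ e ∈ G.edgeFinset ∧ IsNat pos l e := by
  classical
  simp [natS]

lemma isNat_mk {N l : ℕ} {pos : V → Fin N → Bool} {x y : V} (h : IsNat pos l s(x, y)) :
    l < N ∧ Native l (pos x) (pos y) := by
  obtain ⟨h1, a, b, hab, h2⟩ := h
  refine ⟨h1, ?_⟩
  rcases Sym2.eq_iff.1 hab with ⟨rfl, rfl⟩ | ⟨rfl, rfl⟩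
  · exact h2
  · exact native_symm h2

lemma isPar_mk {N l : ℕ} {pos : V → Fin N → Bool} {x y : V} (h : IsPar pos l s(x, y)) :
    Native (rP l) (pos x) (pos y) ∧ bitAt (pos x) l ≠ bitAt (pos y) l := by
  obtain ⟨a, b, hab, h1, h2⟩ := h
  rcases Sym2.eq_iff.1 hab with ⟨rfl, rfl⟩ | ⟨rfl, rfl⟩
  · exact ⟨h1, h2⟩
  · exact ⟨native_symm h1, fun h => h2 h.symm⟩

/-- The reservation. -/
structure Pk (G : SimpleGraph V) [DecidableRel G.Adj] (own : Bool → ℕ → V → Finset V) (M : ℕ) : Prop where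
  sub : ∀ b l v, own b l v ⊆ nbrIn G (core G (TP l)) v
  card : ∀ b, ∀ l < M, ∀ v ∈ core G (TP l), (own b l v).card = KP l
  emp : ∀ b l v, M ≤ l ∨ v ∉ core G (TP l) → own b l v = ∅
  uniq : ∀ b l v u b' l' v' u', u ∈ own b l v → u' ∈ own b' l' v' → s(v, u) = s(v', u') →
    b = b' ∧ l = l' ∧ v = v'

lemma exists_pk (G : SimpleGraph V) [DecidableRel G.Adj] (M : ℕ) :
    ∃ own, Pk G own M := by
  obtain ⟨own, h1, h2, h3, h4⟩ := Picks.exists_picks_levels G M (fun l => core G (TP l)) TP KP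
    (fun l v hv => dense_core G (TP l) v hv) four_sum_KP_le
  exact ⟨own, ⟨h1, h2, h3, h4⟩⟩

section Pk

variable {G : SimpleGraph V} [DecidableRel G.Adj] {own : Bool → ℕ → V → Finset V} {M : ℕ}

lemma Pk.adj (h : Pk G own M) {b l v u} (hu : u ∈ own b l v) : G.Adj v u :=
  ((mem_nbrIn G).1 (h.sub b l v hu)).2

lemma Pk.mem_Z2 (h : Pk G own M) {b l v u} (hu : u ∈ own b l v) : u ∈ core G (TP l) :=
  ((mem_nbrIn G).1 (h.sub b l v hu)).1

lemma Pk.mem_Z1 (h : Pk G own M) {b l v u} (hu : u ∈ own b l v) : v ∈ core G (TP l) := by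
  by_contra hv
  rw [h.emp b l v (Or.inr hv)] at hu
  simp at hu

lemma Pk.low_empty (h : Pk G own M) {b l} (hl : l < l0) (v : V) : own b l v = ∅ := by
  by_cases hM : l < M
  · by_cases hv : v ∈ core G (TP l)
    · have := h.card b l hM v hv
      rw [KP_of_lt hl] at this
      exact Finset.card_eq_zero.1 this
    · exact h.emp b l v (Or.inr hv)
  · exact h.emp b l v (Or.inl (by omega))

lemma Pk.pool_edge (h : Pk G own M) {b l} {e : Sym2 V} (he : e ∈ poolOf (own b l)) :
    e ∈ G.edgeFinset := by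
  obtain ⟨v, u, hu, rfl⟩ := mem_poolOf.1 he
  exact SimpleGraph.mem_edgeFinset.2 (h.adj hu)

lemma Pk.pool_inside (h : Pk G own M) {b l} {e : Sym2 V} (he : e ∈ poolOf (own b l)) :
    Inside (core G (TP l)) e := by
  obtain ⟨v, u, hu, rfl⟩ := mem_poolOf.1 he
  intro w hw
  rcases Sym2.mem_iff.1 hw with rfl | rfl
  · exact h.mem_Z1 hu
  · exact h.mem_Z2 hu

lemma Pk.pool_disj (h : Pk G own M) {b b' l l'} (hne : ¬ (b = b' ∧ l = l')) :
    Disjoint (poolOf (own b l)) (poolOf (own b' l')) := by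
  rw [Finset.disjoint_left]
  intro e he he'
  obtain ⟨v, u, hu, rfl⟩ := mem_poolOf.1 he
  obtain ⟨v', u', hu', hh⟩ := mem_poolOf.1 he'
  obtain ⟨h1, h2, -⟩ := h.uniq b l v u b' l' v' u' hu hu' hh
  exact hne ⟨h1, h2⟩

lemma Pk.not_self (h : Pk G own M) {b l} (v : V) : v ∉ own b l v :=
  fun hv => (h.adj hv).ne rfl

lemma Pk.not_rev (h : Pk G own M) {b l} (v u : V) (hu : u ∈ own b l v) : v ∉ own b l u := by
  intro hv
  have := h.uniq b l v u b l u v hu hv Sym2.eq_swap
  exact (h.adj hu).ne this.2.2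

/-- The skeletons of all levels, for all positions. -/
lemma exists_skeletons {C : ℝ} (hLE : LevelExpectStmt V C) (h : Pk G own M) :
    ∃ R : ℕ → (V → Fin M → Bool) → List (V × V),
      (∀ l b, ValidArcs (fun v => bitAt (b v) l) (R l b)) ∧
      (∀ l b, ∀ p ∈ R l b, s(p.1, p.2) ∈ poolOf (own true l)) ∧
      (∀ l b v, ((R l b).filter (fun p => p.2 = v)).length = ((R l b).filter (fun p => p.1 = v)).length) ∧
      (∀ l, l0 ≤ l → l < M → ∑ b : V → Fin M → Bool, (2 * (Skeleton.badArcs (jc l b) (R l b) : ℝ)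
        + (((core G (TP l)).filter (fun v => ∀ p ∈ R l b, p.2 = v →
            jc l b p.2 ≠ jc l b p.1 + 1)).card : ℝ))
        ≤ (Fintype.card (V → Fin M → Bool) : ℝ) * ((Fintype.card V : ℝ) * (C * (1 / 2) ^ rP l))) ∧
      (∀ l, ¬ (l0 ≤ l ∧ l < M) → ∀ b, R l b = []) := by
  have hex : ∀ l, ∃ R : (V → Fin M → Bool) → List (V × V),
      (∀ b, ValidArcs (fun v => bitAt (b v) l) (R b)) ∧
      (∀ b, ∀ p ∈ R b, s(p.1, p.2) ∈ poolOf (own true l)) ∧
      (∀ b v, ((R b).filter (fun p => p.2 = v)).length = ((R b).filter (fun p => p.1 = v)).length) ∧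
      (l0 ≤ l → l < M → ∑ b : V → Fin M → Bool, (2 * (Skeleton.badArcs (jc l b) (R b) : ℝ)
        + (((core G (TP l)).filter (fun v => ∀ p ∈ R b, p.2 = v →
            jc l b p.2 ≠ jc l b p.1 + 1)).card : ℝ))
        ≤ (Fintype.card (V → Fin M → Bool) : ℝ) * ((Fintype.card V : ℝ) * (C * (1 / 2) ^ rP l))) ∧
      (¬ (l0 ≤ l ∧ l < M) → ∀ b, R b = []) := by
    intro l
    by_cases hl : l0 ≤ l ∧ l < M
    · have hr : rP l ≤ M := (Nat.div_le_self l 8).trans hl.2.le
      obtain ⟨R, h1, h2, h3, h4⟩ := hLE M l hl.1 hl.2 hr (core G (TP l)) (own true l)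
        (fun v hv => h.card true l hl.2 v hv) (fun v hv => h.emp true l v (Or.inr hv))
        (fun v => h.not_self v) (fun v u hu => h.not_rev v u hu)
        (fun v u hu => h.mem_Z2 hu)
      refine ⟨R, h1, fun b p hp => (mem_flowArcs.1 (h2 b p hp)).1, h3, ?_, fun h5 => absurd hl h5⟩
      intro _ _
      convert h4 using 3 with b
      · rw [jc_of_le hr]
      · rw [jc_of_le hr]
    · refine ⟨fun _ => [], ?_, ?_, ?_, fun h1 h2 => absurd ⟨h1, h2⟩ hl, fun _ _ => rfl⟩
      · intro b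
        exact ⟨List.nodup_nil, by simp, by simp⟩
      · intro b p hp
        simp at hp
      · intro b v
        simp
  choose R h1 h2 h3 h4 h5 using hex
  exact ⟨R, h1, h2, h3, h4, h5⟩

/-- The assembly for fixed positions. -/
lemma assemble_at (h : Pk G own M) (R : ℕ → (V → Fin M → Bool) → List (V × V))
    (h1 : ∀ l b, ValidArcs (fun v => bitAt (b v) l) (R l b))
    (h2 : ∀ l b, ∀ p ∈ R l b, s(p.1, p.2) ∈ poolOf (own true l))
    (h3 : ∀ l b v, ((R l b).filter (fun p => p.2 = v)).length = ((R l b).filter (fun p => p.1 = v)).length)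
    (b : V → Fin M → Bool) :
    ∃ (cl : List (EGClass V)) (Ss : List (Sym2 V)),
      (∀ p ∈ cl.flatMap EGClass.A, G.Adj p.1 p.2) ∧
      (cl.flatMap EGClass.A).Nodup ∧
      (∀ p ∈ cl.flatMap EGClass.A, (p.2, p.1) ∉ cl.flatMap EGClass.A) ∧
      (∀ e ∈ Ss, e ∈ G.edgeSet) ∧ Ss.Nodup ∧
      (∀ p ∈ cl.flatMap EGClass.A, s(p.1, p.2) ∉ Ss) ∧
      (∀ e ∈ G.edgeSet, e ∈ Ss ∨ ∃ p ∈ cl.flatMap EGClass.A, s(p.1, p.2) = e) ∧
      (((cl.map EGClass.cost).sum + Ss.length : ℕ) : ℝ) ≤
        ∑ l ∈ range M, (2 * (Skeleton.badArcs (jc l b) (R l b) : ℝ)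
          + (((core G (TP l)).filter (fun v => ∀ p ∈ R l b, p.2 = v →
              jc l b p.2 ≠ jc l b p.1 + 1)).card : ℝ))
        + ∑ l ∈ range M, ((outs (core G (TP l)) (natS G b l)).card : ℝ)
        + ∑ l ∈ range M, ∑ v ∈ core G (TP l), 1 / ((edeg (parArcs (own false l) b l) v : ℝ) + 1)
        + ((G.edgeFinset.filter (fun e => ∀ l ∈ range M, e ∉ natS G b l)).card : ℝ) := by
  have hRp : ∀ l, edgesOf (R l b) ⊆ poolOf (own true l) := by
    intro l e he
    obtain ⟨p, hp, rfl⟩ := (mem_edgesOf _ _).1 he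
    exact h2 l b p hp
  have hQp : ∀ l, parArcs (own false l) b l ⊆ poolOf (own false l) := fun l e he =>
    (mem_parArcs.1 he).1
  refine assemble_nat G M (fun l => core G (TP l)) (natS G b)
    (fun l => parArcs (own false l) b l) (fun l v => bitAt (b v) l) (fun l => jc l b)
    (fun l => R l b) ?_ ?_ ?_ ?_ ?_ ?_ ?_ ?_ ?_ ?_ ?_
  · -- hnatG
    intro l e he
    exact (mem_natS.1 he).1
  · -- hnatD
    intro l l' hne
    rw [Finset.disjoint_left]
    intro e he he'
    have h4 := (mem_natS.1 he).2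
    have h5 := (mem_natS.1 he').2
    induction e using Sym2.ind with
    | _ x y =>
      obtain ⟨h6, h7⟩ := isNat_mk h4
      obtain ⟨h8, h9⟩ := isNat_mk h5
      exact hne (native_unique h6 h8 h7 h9)
  · -- hQG
    intro l e he
    exact h.pool_edge (hQp l he)
  · -- hQZ
    intro l e he
    exact h.pool_inside (hQp l he)
  · -- hQD
    intro l l' hne
    exact Finset.disjoint_of_subset_left (hQp l) (Finset.disjoint_of_subset_right (hQp l')
      (h.pool_disj (fun h' => hne h'.2)))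
  · -- hQn
    intro l l' hll
    rw [Finset.disjoint_left]
    intro e he he'
    have h4 := (mem_parArcs.1 he)
    have h5 := (mem_natS.1 he').2
    induction e using Sym2.ind with
    | _ x y =>
      obtain ⟨h6, h7⟩ := isNat_mk h5
      obtain ⟨h8, -⟩ := isPar_mk h4.2
      -- the level is not low
      obtain ⟨v, u, hu, -⟩ := mem_poolOf.1 h4.1
      have hl0 : l0 ≤ l := by
        by_contra hlow
        rw [h.low_empty (by omega) v] at hu
        simp at hu
      have hrl : rP l < l := by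
        unfold rP
        unfold l0 at hl0
        omega
      have := native_unique (lt_of_lt_of_le (hrl.trans_le hll) h6.le) h6 h8 h7
      omega
  · -- hQR
    intro l l'
    exact Finset.disjoint_of_subset_left (hQp l) (Finset.disjoint_of_subset_right (hRp l')
      (h.pool_disj (fun h' => by simpa using h'.1)))
  · -- hRD
    intro l l' hne
    exact Finset.disjoint_of_subset_left (hRp l) (Finset.disjoint_of_subset_right (hRp l')
      (h.pool_disj (fun h' => hne h'.2)))
  · -- hR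
    intro l _
    refine ⟨?_, h1 l b, h3 l b⟩
    intro p hp
    exact SimpleGraph.mem_edgeFinset.1 (h.pool_edge (h2 l b p hp))
  · -- hnatC
    intro l hl x y hxy
    obtain ⟨h6, h7⟩ := isNat_mk (mem_natS.1 hxy).2
    refine ⟨jc_eq l b (fun i hi => h7.1 i (lt_of_lt_of_le hi (Nat.div_le_self l 8))),
      bitAt_ne_of_native hl h7⟩
  · -- hQC
    intro l _ x y hxy
    obtain ⟨h8, h9⟩ := isPar_mk (mem_parArcs.1 hxy).2
    exact ⟨jc_eq l b h8.1, h9⟩

lemma sum_low_le (M : ℕ) : ∑ l ∈ range M, (if l < l0 then (1 : ℝ) else 0) ≤ 64 := by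
  have h1 : ∑ l ∈ range M, (if l < l0 then (1 : ℝ) else 0) = (((range M).filter (fun l => l < l0)).card : ℝ) := by
    rw [Finset.card_filter]
    push_cast
    rfl
  rw [h1]
  have h2 : (range M).filter (fun l => l < l0) ⊆ range 64 := by
    intro l hl
    exact Finset.mem_range.2 (Finset.mem_filter.1 hl).2
  have h3 := Finset.card_le_card h2
  rw [Finset.card_range] at h3
  exact_mod_cast h3

lemma sum_half_rP (M : ℕ) : ∑ l ∈ range M, ((1 : ℝ) / 2) ^ rP l ≤ 16 := by
  have := Numerics.sum_half_div 8 (by norm_num) M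
  unfold rP
  norm_num at this ⊢
  linarith

/-- The first moment of the level terms. -/
lemma moment_levels {C : ℝ} (hC : 0 ≤ C) (h : Pk G own M)
    (R : ℕ → (V → Fin M → Bool) → List (V × V))
    (h4 : ∀ l, l0 ≤ l → l < M → ∑ b : V → Fin M → Bool, (2 * (Skeleton.badArcs (jc l b) (R l b) : ℝ)
        + (((core G (TP l)).filter (fun v => ∀ p ∈ R l b, p.2 = v →
            jc l b p.2 ≠ jc l b p.1 + 1)).card : ℝ))
        ≤ (Fintype.card (V → Fin M → Bool) : ℝ) * ((Fintype.card V : ℝ) * (C * (1 / 2) ^ rP l)))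
    (h5 : ∀ l, ¬ (l0 ≤ l ∧ l < M) → ∀ b, R l b = []) :
    ∑ b : V → Fin M → Bool, ∑ l ∈ range M, (2 * (Skeleton.badArcs (jc l b) (R l b) : ℝ)
        + (((core G (TP l)).filter (fun v => ∀ p ∈ R l b, p.2 = v →
            jc l b p.2 ≠ jc l b p.1 + 1)).card : ℝ))
      ≤ (64 + 16 * C) * (Fintype.card V : ℝ) * (Fintype.card (V → Fin M → Bool) : ℝ) := by
  rw [Finset.sum_comm]
  set W := (Fintype.card (V → Fin M → Bool) : ℝ) with hW
  set n := (Fintype.card V : ℝ) with hn
  have hW0 : 0 ≤ W := by positivity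
  have hn0 : 0 ≤ n := by positivity
  have hterm : ∀ l ∈ range M, ∑ b : V → Fin M → Bool, (2 * (Skeleton.badArcs (jc l b) (R l b) : ℝ)
        + (((core G (TP l)).filter (fun v => ∀ p ∈ R l b, p.2 = v →
            jc l b p.2 ≠ jc l b p.1 + 1)).card : ℝ))
      ≤ W * n * ((if l < l0 then (1 : ℝ) else 0) + C * (1 / 2) ^ rP l) := by
    intro l hl
    have hlM := Finset.mem_range.1 hl
    by_cases hl0 : l < l0
    · have hR : ∀ b, R l b = [] := h5 l (fun h' => by omega)
      have hb : ∀ b : V → Fin M → Bool, (2 * (Skeleton.badArcs (jc l b) (R l b) : ℝ)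
          + (((core G (TP l)).filter (fun v => ∀ p ∈ R l b, p.2 = v →
            jc l b p.2 ≠ jc l b p.1 + 1)).card : ℝ)) ≤ n := by
        intro b
        rw [hR b]
        have h1 : Skeleton.badArcs (jc l b) ([] : List (V × V)) = 0 := by
          simp [Skeleton.badArcs]
        rw [h1]
        have h2 := Finset.card_le_univ ((core G (TP l)).filter (fun v => ∀ p ∈ ([] : List (V × V)),
          p.2 = v → jc l b p.2 ≠ jc l b p.1 + 1))
        have h3 : (((core G (TP l)).filter (fun v => ∀ p ∈ ([] : List (V × V)),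
          p.2 = v → jc l b p.2 ≠ jc l b p.1 + 1)).card : ℝ) ≤ n := by
          rw [hn]
          exact_mod_cast h2
        simpa using h3
      calc _ ≤ ∑ _b : V → Fin M → Bool, n := Finset.sum_le_sum (fun b _ => hb b)
        _ = W * n := by
          rw [Finset.sum_const, Finset.card_univ, nsmul_eq_mul]
        _ ≤ _ := by
          rw [if_pos hl0]
          have h6 : 0 ≤ C * ((1 : ℝ) / 2) ^ rP l := by positivity
          have h7 : 0 ≤ W * n := by positivity
          nlinarith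
    · have h6 := h4 l (by omega) hlM
      refine h6.trans (le_of_eq ?_)
      rw [if_neg hl0]
      ring
  refine (Finset.sum_le_sum hterm).trans ?_
  rw [← Finset.mul_sum, Finset.sum_add_distrib, ← Finset.mul_sum]
  have h7 := sum_low_le M
  have h8 := sum_half_rP M
  have h9 : (∑ l ∈ range M, (if l < l0 then (1 : ℝ) else 0)) + C * ∑ l ∈ range M, ((1 : ℝ) / 2) ^ rP l
      ≤ 64 + 16 * C := by
    nlinarith
  have h10 : 0 ≤ W * n := by positivity
  calc _ ≤ W * n * (64 + 16 * C) := mul_le_mul_of_nonneg_left h9 h10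
    _ = _ := by ring

/-- The first moment of the parity terms. -/
lemma moment_par (hEP : ExpectParStmt V) (h : Pk G own M) :
    ∑ b : V → Fin M → Bool, ∑ l ∈ range M, ∑ v ∈ core G (TP l),
        1 / ((edeg (parArcs (own false l) b l) v : ℝ) + 1)
      ≤ (64 + 16 * 6) * (Fintype.card V : ℝ) * (Fintype.card (V → Fin M → Bool) : ℝ) := by
  rw [Finset.sum_comm]
  set W := (Fintype.card (V → Fin M → Bool) : ℝ) with hW
  set n := (Fintype.card V : ℝ) with hn
  have hW0 : 0 ≤ W := by positivity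
  have hn0 : 0 ≤ n := by positivity
  have hterm : ∀ l ∈ range M, ∑ b : V → Fin M → Bool, ∑ v ∈ core G (TP l),
        1 / ((edeg (parArcs (own false l) b l) v : ℝ) + 1)
      ≤ W * n * ((if l < l0 then (1 : ℝ) else 0) + 6 * (1 / 2) ^ rP l) := by
    intro l hl
    have hlM := Finset.mem_range.1 hl
    have hZn : ((core G (TP l)).card : ℝ) ≤ n := by
      rw [hn]
      exact_mod_cast Finset.card_le_univ (core G (TP l))
    by_cases hl0 : l < l0
    · have hb : ∀ b : V → Fin M → Bool, ∑ v ∈ core G (TP l),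
          1 / ((edeg (parArcs (own false l) b l) v : ℝ) + 1) ≤ n := by
        intro b
        calc _ ≤ ∑ _v ∈ core G (TP l), (1 : ℝ) := by
              refine Finset.sum_le_sum (fun v _ => ?_)
              rw [div_le_one (by positivity)]
              have : (0 : ℝ) ≤ (edeg (parArcs (own false l) b l) v : ℝ) := by positivity
              linarith
          _ = ((core G (TP l)).card : ℝ) := by simp
          _ ≤ n := hZn
      calc _ ≤ ∑ _b : V → Fin M → Bool, n := Finset.sum_le_sum (fun b _ => hb b)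
        _ = W * n := by
          rw [Finset.sum_const, Finset.card_univ, nsmul_eq_mul]
        _ ≤ _ := by
          rw [if_pos hl0]
          have h6 : 0 ≤ 6 * ((1 : ℝ) / 2) ^ rP l := by positivity
          have h7 : 0 ≤ W * n := by positivity
          nlinarith
    · have hl0' : l0 ≤ l := by omega
      have hrl : rP l < l := by
        unfold rP
        unfold l0 at hl0'
        omega
      have hK := KP_pos hl0'
      have h6 := hEP M l hrl hlM (core G (TP l)) (own false l) (KP l) hK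
        (fun v hv => h.card false l hlM v hv) (fun v => h.not_self v)
      refine h6.trans ?_
      rw [if_neg hl0, zero_add]
      have hr8 := eight_le_rP hl0'
      have hkey : 6 / ((KP l : ℝ) * (1 / 2) ^ (rP l + 2)) ≤ 6 * (1 / 2) ^ rP l := by
        rw [KP_of_ge hl0']
        have hpos : (0 : ℝ) < ((2 ^ (4 * rP l) : ℕ) : ℝ) * (1 / 2) ^ (rP l + 2) := by positivity
        rw [div_le_iff₀ hpos]
        have h7 : ((2 ^ (4 * rP l) : ℕ) : ℝ) * (1 / 2) ^ (rP l + 2) * (1 / 2) ^ rP l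
            = 2 ^ (2 * rP l - 2) := by
          push_cast
          have e : 4 * rP l = (2 * rP l - 2) + (rP l + 2) + rP l := by omega
          have a1 : (2 : ℝ) ^ (rP l + 2) * (1 / 2) ^ (rP l + 2) = 1 := by
            rw [← mul_pow]
            norm_num
          have a2 : (2 : ℝ) ^ (rP l) * (1 / 2) ^ (rP l) = 1 := by
            rw [← mul_pow]
            norm_num
          calc (2 : ℝ) ^ (4 * rP l) * (1 / 2) ^ (rP l + 2) * (1 / 2) ^ rP l
              = 2 ^ ((2 * rP l - 2) + (rP l + 2) + rP l) * (1 / 2) ^ (rP l + 2) * (1 / 2) ^ rP l := by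
                rw [← e]
            _ = 2 ^ (2 * rP l - 2) * ((2 : ℝ) ^ (rP l + 2) * (1 / 2) ^ (rP l + 2))
                  * ((2 : ℝ) ^ (rP l) * (1 / 2) ^ (rP l)) := by
                rw [pow_add, pow_add]
                ring
            _ = _ := by
                rw [a1, a2]
                ring
        have h8 : (1 : ℝ) ≤ 2 ^ (2 * rP l - 2) := one_le_pow₀ (by norm_num)
        calc (6 : ℝ) = 6 * 1 := by ring
          _ ≤ 6 * 2 ^ (2 * rP l - 2) := by linarith
          _ = _ := by rw [← h7]; ring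
      have h9 : (0 : ℝ) ≤ 6 / ((KP l : ℝ) * (1 / 2) ^ (rP l + 2)) := by positivity
      calc ((core G (TP l)).card : ℝ) * (6 / ((KP l : ℝ) * (1 / 2) ^ (rP l + 2))) * W
          ≤ n * (6 * (1 / 2) ^ rP l) * W := by
            apply mul_le_mul_of_nonneg_right _ hW0
            apply mul_le_mul hZn hkey h9 hn0
        _ = _ := by ring
  refine (Finset.sum_le_sum hterm).trans ?_
  rw [← Finset.mul_sum, Finset.sum_add_distrib, ← Finset.mul_sum]
  have h7 := sum_low_le M
  have h8 := sum_half_rP M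
  have h9 : (∑ l ∈ range M, (if l < l0 then (1 : ℝ) else 0)) + 6 * ∑ l ∈ range M, ((1 : ℝ) / 2) ^ rP l
      ≤ 64 + 16 * 6 := by
    nlinarith
  have h10 : 0 ≤ W * n := by positivity
  calc _ ≤ W * n * (64 + 16 * 6) := mul_le_mul_of_nonneg_left h9 h10
    _ = _ := by ring

/-- The first moment of the pruned edges. -/
lemma moment_pruned (hM : 0 < M) :
    ∑ b : V → Fin M → Bool, ∑ l ∈ range M, ((outs (core G (TP l)) (natS G b l)).card : ℝ)
      ≤ (Fintype.card V : ℝ) * (Fintype.card (V → Fin M → Bool) : ℝ) := by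
  classical
  have hnat : Pruned.NativeAt G (fun (pos : V → Fin M → Bool) l e => IsNat pos l e) := by
    intro a b _ pos l h
    exact (isNat_mk h).2
  have h1 := Pruned.expect_pruned G TP TP_mono TP_le_two_pow
    (fun (pos : V → Fin M → Bool) l e => IsNat pos l e) hnat 0 (M - 1) (by omega)
  refine le_trans (Finset.sum_le_sum (fun b _ => ?_)) h1
  have hsub : range M ⊆ Finset.Icc 0 (M - 1) := by
    intro l hl
    have := Finset.mem_range.1 hl
    exact Finset.mem_Icc.2 ⟨Nat.zero_le _, by omega⟩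
  refine le_trans ?_ (Finset.sum_le_sum_of_subset_of_nonneg hsub (fun _ _ _ => by positivity))
  refine Finset.sum_le_sum (fun l _ => ?_)
  have hs : outs (core G (TP l)) (natS G b l)
      ⊆ (Pruned.outside G (core G (TP l))).filter (fun e => IsNat b l e) := by
    intro e he
    obtain ⟨h2, h3⟩ := mem_outs.1 he
    obtain ⟨h4, h5⟩ := mem_natS.1 h2
    exact Finset.mem_filter.2 ⟨(Pruned.mem_outside G).2 ⟨h4, h3⟩, h5⟩
  exact_mod_cast Finset.card_le_card hs

/-- The first moment of the edges on which all bits agree. -/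
lemma moment_nobit (hM : M = Fintype.card V + 1) :
    ∑ b : V → Fin M → Bool, ((G.edgeFinset.filter (fun e => ∀ l ∈ range M, e ∉ natS G b l)).card : ℝ)
      ≤ (Fintype.card V : ℝ) * (Fintype.card (V → Fin M → Bool) : ℝ) := by
  classical
  have h1 := Pruned.expect_no_bit G (N := M)
    (fun (b : V → Fin M → Bool) e => ∀ l ∈ range M, e ∉ natS G b l) (by
      intro x y hxy pos hh
      rcases exists_native (pos x) (pos y) with h2 | ⟨l, hl, h2⟩
      · exact h2
      · exfalso
        apply hh l (Finset.mem_range.2 hl)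
        exact mem_natS.2 ⟨SimpleGraph.mem_edgeFinset.2 hxy, hl, x, y, rfl, h2⟩)
  refine h1.trans ?_
  apply mul_le_mul_of_nonneg_right _ (by positivity)
  set n := Fintype.card V with hn
  have hE : G.edgeFinset.card ≤ n * n := by
    have h2 := G.card_edgeFinset_le_card_choose_two
    have h3 : n.choose 2 ≤ n * n := by
      rw [Nat.choose_two_right]
      calc n * (n - 1) / 2 ≤ n * (n - 1) := Nat.div_le_self _ _
        _ ≤ n * n := Nat.mul_le_mul_left _ (Nat.sub_le _ _)
    exact h2.trans h3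
  have h2 : n < 2 ^ M := by
    rw [hM]
    exact (Nat.lt_two_pow_self).trans (Nat.pow_lt_pow_right (by norm_num) (by omega))
  have h3 : (G.edgeFinset.card : ℝ) ≤ (n : ℝ) * 2 ^ M := by
    have : G.edgeFinset.card ≤ n * 2 ^ M := hE.trans (Nat.mul_le_mul_left _ h2.le)
    exact_mod_cast this
  have h4 : ((1 : ℝ) / 2) ^ M * 2 ^ M = 1 := by
    rw [← mul_pow]
    norm_num
  calc ((1 : ℝ) / 2) ^ M * (G.edgeFinset.card : ℝ) ≤ ((1 : ℝ) / 2) ^ M * ((n : ℝ) * 2 ^ M) :=
        mul_le_mul_of_nonneg_left h3 (by positivity)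
    _ = (n : ℝ) * (((1 : ℝ) / 2) ^ M * 2 ^ M) := by ring
    _ = (n : ℝ) := by rw [h4, mul_one]

end Pk

/-- **The top level chain**, from the two averaging statements. -/
theorem top_classes {C : ℝ} (hC : 0 ≤ C) (hLE : LevelExpectStmt V C) (hEP : ExpectParStmt V)
    (G : SimpleGraph V) [DecidableRel G.Adj] :
    ∃ (cl : List (EGClass V)) (Ss : List (Sym2 V)),
      (∀ p ∈ cl.flatMap EGClass.A, G.Adj p.1 p.2) ∧
      (cl.flatMap EGClass.A).Nodup ∧
      (∀ p ∈ cl.flatMap EGClass.A, (p.2, p.1) ∉ cl.flatMap EGClass.A) ∧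
      (∀ e ∈ Ss, e ∈ G.edgeSet) ∧ Ss.Nodup ∧
      (∀ p ∈ cl.flatMap EGClass.A, s(p.1, p.2) ∉ Ss) ∧
      (∀ e ∈ G.edgeSet, e ∈ Ss ∨ ∃ p ∈ cl.flatMap EGClass.A, s(p.1, p.2) = e) ∧
      (((cl.map EGClass.cost).sum + Ss.length : ℕ) : ℝ) ≤ (226 + 16 * C) * (Fintype.card V : ℝ) := by
  set M := Fintype.card V + 1 with hM
  obtain ⟨own, h⟩ := exists_pk G M
  obtain ⟨R, h1, h2, h3, h4, h5⟩ := exists_skeletons hLE h
  have hsum : ∑ b : V → Fin M → Bool, (∑ l ∈ range M, (2 * (Skeleton.badArcs (jc l b) (R l b) : ℝ)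
          + (((core G (TP l)).filter (fun v => ∀ p ∈ R l b, p.2 = v →
              jc l b p.2 ≠ jc l b p.1 + 1)).card : ℝ))
        + ∑ l ∈ range M, ((outs (core G (TP l)) (natS G b l)).card : ℝ)
        + ∑ l ∈ range M, ∑ v ∈ core G (TP l), 1 / ((edeg (parArcs (own false l) b l) v : ℝ) + 1)
        + ((G.edgeFinset.filter (fun e => ∀ l ∈ range M, e ∉ natS G b l)).card : ℝ))
      ≤ ((226 + 16 * C) * (Fintype.card V : ℝ)) * (Fintype.card (V → Fin M → Bool) : ℝ) := by
    rw [Finset.sum_add_distrib, Finset.sum_add_distrib, Finset.sum_add_distrib]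
    have a1 := moment_levels hC h R h4 h5
    have a2 := moment_pruned (G := G) (M := M) (by omega)
    have a3 := moment_par hEP h
    have a4 := moment_nobit (G := G) (M := M) hM
    have e : (226 + 16 * C) * (Fintype.card V : ℝ) * (Fintype.card (V → Fin M → Bool) : ℝ)
        = (64 + 16 * C) * (Fintype.card V : ℝ) * (Fintype.card (V → Fin M → Bool) : ℝ)
          + (Fintype.card V : ℝ) * (Fintype.card (V → Fin M → Bool) : ℝ)
          + (64 + 16 * 6) * (Fintype.card V : ℝ) * (Fintype.card (V → Fin M → Bool) : ℝ)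
          + (Fintype.card V : ℝ) * (Fintype.card (V → Fin M → Bool) : ℝ) := by ring
    rw [e]
    linarith
  obtain ⟨b, hb⟩ := Sample.exists_le_of_sum_le _ _ hsum
  obtain ⟨cl, Ss, c1, c2, c3, c4, c5, c6, c7, c8⟩ := assemble_at h R h1 h2 h3 b
  exact ⟨cl, Ss, c1, c2, c3, c4, c5, c6, c7, c8.trans hb⟩

/-- **S0064 from the two averaging statements.** -/
theorem s0064_of_moments (C : ℝ) (hC : 0 ≤ C)
    (hLE : ∀ (V : Type) [Fintype V] [DecidableEq V], LevelExpectStmt V C)
    (hEP : ∀ (V : Type) [Fintype V] [DecidableEq V], ExpectParStmt V) :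
    ∃ C : ℝ, ∀ (V : Type) [Fintype V] (G : SimpleGraph V),
      ∃ (m : ℕ) (f : Sym2 V → Fin m), (m : ℝ) ≤ C * Fintype.card V ∧
        ∀ i : Fin m, G.edgeSet ∩ f ⁻¹' {i} = ∅ ∨
          (∃ e ∈ G.edgeSet, G.edgeSet ∩ f ⁻¹' {i} = {e}) ∨
          (∃ (u : V) (w : G.Walk u u), w.IsCycle ∧ {e | e ∈ w.edges} = G.edgeSet ∩ f ⁻¹' {i}) := by
  refine s0064_of_classes ⌈226 + 16 * C⌉₊ ?_
  intro V _ _ G
  classical
  obtain ⟨cl, Ss, c1, c2, c3, c4, c5, c6, c7, c8⟩ := top_classes hC (hLE V) (hEP V) G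
  refine ⟨cl, Ss, c1, c2, c3, c4, c5, c6, c7, ?_⟩
  have h1 : (226 + 16 * C) * (Fintype.card V : ℝ) ≤ ((⌈226 + 16 * C⌉₊ : ℕ) : ℝ) * (Fintype.card V : ℝ) :=
    mul_le_mul_of_nonneg_right (Nat.le_ceil _) (by positivity)
  have h2 := c8.trans h1
  exact_mod_cast h2

end Crest.Agent.Lib.EG.TopHedge
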