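import Crest.Agent.Lib.EG.TopHedge
import Crest.Agent.Lib.EG.LevelExpect

/-!
# The expected number of parity singles of one level (row 45, S0064)
-/

set_option linter.unusedSectionVars false

namespace Crest.Agent.Lib.EG.TopHedge

open Finset Crest.Agent.Lib.EG.Top Crest.Agent.Lib.EG.Sample Crest.Agent.Lib.EG.LevelAsm

variable {V : Type} [Fintype V] [DecidableEq V]

/-- The number of words with first differing bit `r` from `x`, and differing at bit `l > r`. -/
lemma card_par_fiber {N r l : ℕ} (hrl : r < l) (hl : l < N) (x : Fin N → Bool) :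
    ((univ.filter (fun x' : Fin N → Bool => Native r x x' ∧ bitAt x l ≠ bitAt x' l)).card : ℝ)
      = (1 / 2) ^ (r + 2) * 2 ^ N := by
  classical
  let T : Finset (Fin N) := (univ.filter (fun i : Fin N => i.val < r + 1)) ∪ {⟨l, hl⟩}
  let g : Fin N → Bool := fun i => if i.val < r then x i else !(x i)
  have hT : T.card = r + 2 := by
    have h1 : (univ.filter (fun i : Fin N => i.val < r + 1)).card = r + 1 :=
      card_first (by omega)
    have h2 : Disjoint (univ.filter (fun i : Fin N => i.val < r + 1)) ({⟨l, hl⟩} : Finset (Fin N)) := by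
      rw [Finset.disjoint_singleton_right]
      simp only [Finset.mem_filter, Finset.mem_univ, true_and]
      omega
    simp only [T]
    rw [Finset.card_union_of_disjoint h2, h1, Finset.card_singleton]
  have hset : univ.filter (fun x' : Fin N → Bool => Native r x x' ∧ bitAt x l ≠ bitAt x' l)
      = univ.filter (fun x' : Fin N → Bool => ∀ i ∈ T, x' i = g i) := by
    ext x'
    simp only [Finset.mem_filter, Finset.mem_univ, true_and]
    constructor
    · rintro ⟨⟨h1, h2⟩, h3⟩ i hi
      simp only [T, Finset.mem_union, Finset.mem_filter, Finset.mem_univ, true_and,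
        Finset.mem_singleton] at hi
      rcases hi with hi | rfl
      · by_cases hir : i.val < r
        · simp only [g, if_pos hir]
          exact (h1 i hir).symm
        · have hi' : i.val = r := by omega
          simp only [g, if_neg hir]
          have := h2 i hi'
          cases h4 : x i <;> cases h5 : x' i <;> simp_all
      · have hnot : ¬ l < r := by omega
        simp only [g, if_neg hnot]
        unfold bitAt at h3
        rw [dif_pos hl, dif_pos hl] at h3
        cases h4 : x ⟨l, hl⟩ <;> cases h5 : x' ⟨l, hl⟩ <;> simp_all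
    · intro h
      refine ⟨⟨?_, ?_⟩, ?_⟩
      · intro i hi
        have := h i (by
          simp only [T, Finset.mem_union, Finset.mem_filter, Finset.mem_univ, true_and]
          left
          omega)
        simp only [g, if_pos hi] at this
        exact this.symm
      · intro i hi
        have := h i (by
          simp only [T, Finset.mem_union, Finset.mem_filter, Finset.mem_univ, true_and]
          left
          omega)
        have hnot : ¬ i.val < r := by omega
        simp only [g, if_neg hnot] at this
        rw [this]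
        cases x i <;> simp
      · have := h ⟨l, hl⟩ (by
          simp only [T, Finset.mem_union, Finset.mem_singleton]
          right
          trivial)
        have hnot : ¬ l < r := by omega
        simp only [g, if_neg hnot] at this
        unfold bitAt
        rw [dif_pos hl, dif_pos hl, this]
        cases x ⟨l, hl⟩ <;> simp
  rw [hset]
  have h := card_pattern T g
  rw [hT] at h
  have h' : ((univ.filter (fun x' : Fin N → Bool => ∀ i ∈ T, x' i = g i)).card : ℝ) * 2 ^ (r + 2) = 2 ^ N := by
    exact_mod_cast h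
  have e : ((1 : ℝ) / 2) ^ (r + 2) * 2 ^ (r + 2) = 1 := by
    rw [← mul_pow]
    norm_num
  rw [← h']
  calc ((univ.filter (fun x' : Fin N → Bool => ∀ i ∈ T, x' i = g i)).card : ℝ)
      = ((univ.filter (fun x' : Fin N → Bool => ∀ i ∈ T, x' i = g i)).card : ℝ)
        * (((1 : ℝ) / 2) ^ (r + 2) * 2 ^ (r + 2)) := by rw [e, mul_one]
    _ = _ := by ring

theorem expect_par' : ExpectParStmt V := by
  intro N l hrl hl Z own K hK hc hv
  classical
  rw [Finset.sum_comm]
  set c : ℝ := 6 / ((K : ℝ) * (1 / 2) ^ (rP l + 2)) * (Fintype.card (V → Fin N → Bool) : ℝ) with hc'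
  have key : ∀ v ∈ Z, ∑ pos : V → Fin N → Bool, 1 / ((edeg (parArcs own pos l) v : ℝ) + 1) ≤ c := by
    intro v hvZ
    let y : V → (Fin N → Bool) → (Fin N → Bool) → ℝ := fun _ x x' =>
      if Native (rP l) x x' ∧ bitAt x l ≠ bitAt x' l then 1 else 0
    have h01 : ∀ u x x', 0 ≤ y u x x' ∧ y u x x' ≤ 1 := by
      intro u x x'
      simp only [y]
      split_ifs <;> norm_num
    have hy : ∀ u ∈ own v, ∀ x, ∑ x', y u x x'
        = (fun _ : V => ((1 : ℝ) / 2) ^ (rP l + 2)) u * (Fintype.card (Fin N → Bool) : ℝ) := by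
      intro u _ x
      simp only [y]
      rw [Finset.sum_boole, card_par_fiber hrl hl x]
      simp
    have hμ : (K : ℝ) * (1 / 2) ^ (rP l + 2)
        = ∑ u ∈ own v, (fun _ : V => ((1 : ℝ) / 2) ^ (rP l + 2)) u := by
      rw [Finset.sum_const, hc v hvZ, nsmul_eq_mul]
    have hμ0 : (0 : ℝ) < (K : ℝ) * (1 / 2) ^ (rP l + 2) := by
      have : (0 : ℝ) < K := by exact_mod_cast hK
      positivity
    have h1 := Pruned.sum_inv_star_le v (own v) (hv v) y _ h01 hy _ hμ hμ0
    refine le_trans (Finset.sum_le_sum (fun pos _ => ?_)) h1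
    -- the degree is at least the sum
    apply one_div_le_one_div_of_le
    · have : (0 : ℝ) ≤ ∑ u ∈ own v, y u (pos v) (pos u) :=
        Finset.sum_nonneg (fun u _ => (h01 u _ _).1)
      linarith
    · have h2 : ∑ u ∈ own v, y u (pos v) (pos u) ≤ (edeg (parArcs own pos l) v : ℝ) := by
        simp only [y]
        rw [Finset.sum_boole]
        have h3 : ((own v).filter (fun u => Native (rP l) (pos v) (pos u) ∧
            bitAt (pos v) l ≠ bitAt (pos u) l)).card ≤ edeg (parArcs own pos l) v := by
          unfold edeg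
          apply Finset.card_le_card_of_injOn (fun u => s(v, u))
          · intro u hu
            obtain ⟨h4, h5, h6⟩ := Finset.mem_filter.1 (Finset.mem_coe.1 hu)
            refine Finset.mem_coe.2 (Finset.mem_filter.2 ⟨mem_parArcs.2 ⟨mem_poolOf.2 ⟨v, u, h4, rfl⟩,
              v, u, rfl, h5, h6⟩, Sym2.mem_mk_left _ _⟩)
          · intro a _ b _ hab
            exact Sym2.congr_right.1 hab
        exact_mod_cast h3
      linarith
  calc ∑ v ∈ Z, ∑ pos : V → Fin N → Bool, 1 / ((edeg (parArcs own pos l) v : ℝ) + 1)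
      ≤ ∑ _v ∈ Z, c := Finset.sum_le_sum key
    _ = (Z.card : ℝ) * c := by rw [Finset.sum_const, nsmul_eq_mul]
    _ = _ := by rw [hc']; ring

theorem level_expect' : LevelExpectStmt V 121 := by
  intro N l h1 h2 hr Z own h3 h4 h5 h6 h7
  obtain ⟨R, r1, r2, r3, r4⟩ := level_expect N l h1 h2 hr Z own h3 h4 h5 h6 h7
  refine ⟨R, r1, r2, r3, ?_⟩
  convert r4 using 2

/-- **S0064.** -/
theorem s0064 :
    ∃ C : ℝ, ∀ (V : Type) [Fintype V] (G : SimpleGraph V),
      ∃ (m : ℕ) (f : Sym2 V → Fin m), (m : ℝ) ≤ C * Fintype.card V ∧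
        ∀ i : Fin m, G.edgeSet ∩ f ⁻¹' {i} = ∅ ∨
          (∃ e ∈ G.edgeSet, G.edgeSet ∩ f ⁻¹' {i} = {e}) ∨
          (∃ (u : V) (w : G.Walk u u), w.IsCycle ∧ {e | e ∈ w.edges} = G.edgeSet ∩ f ⁻¹' {i}) :=
  s0064_of_moments 121 (by norm_num) (fun _ _ _ => level_expect') (fun _ _ _ => expect_par')

end Crest.Agent.Lib.EG.TopHedge
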