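/-
  Row 45 (S0064): numerics of the top level parameters (slice S4 of helper37's chain, #2451).
-/
import Crest.Agent.Lib.EG.TopDefs

set_option autoImplicit false

open Finset

namespace Crest.Agent.Lib.EG.Top

/-- `rP` is monotone. -/
lemma rP_mono : Monotone rP := fun _ _ h => Nat.div_le_div_right h

/-- `rP l ≥ 8` from the first level with a skeleton on. -/
lemma eight_le_rP {l : ℕ} (h : l0 ≤ l) : 8 ≤ rP l := by
  unfold rP l0 at *
  omega

lemma LP_eq (l : ℕ) : LP l = 2 ^ rP l := rfl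

/-- `3 ≤ 2 ^ rP l` for `l ≥ l0`. -/
lemma three_le_two_pow_rP {l : ℕ} (h : l0 ≤ l) : 3 ≤ 2 ^ rP l := by
  have h8 := eight_le_rP h
  calc 3 ≤ 2 ^ 8 := by norm_num
    _ ≤ 2 ^ rP l := Nat.pow_le_pow_right (by norm_num) h8

lemma three_le_LP {l : ℕ} (h : l0 ≤ l) : 3 ≤ LP l := three_le_two_pow_rP h

/-- Formula for `KP` above `l0`. -/
lemma KP_of_ge {l : ℕ} (h : l0 ≤ l) : KP l = 2 ^ (4 * rP l) := by
  unfold KP
  rw [if_neg (not_lt.mpr h)]

/-- `KP` vanishes below `l0`. -/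
lemma KP_of_lt {l : ℕ} (h : l < l0) : KP l = 0 := by
  unfold KP
  rw [if_pos h]

/-- Formula for `TP` above `l0`. -/
lemma TP_of_ge {l : ℕ} (h : l0 ≤ l) : TP l = 2 ^ (7 * rP l) := by
  unfold TP
  rw [if_neg (not_lt.mpr h)]

/-- `TP` vanishes below `l0`. -/
lemma TP_of_lt {l : ℕ} (h : l < l0) : TP l = 0 := by
  unfold TP
  rw [if_pos h]

/-- Formula for `DP` above `l0`. -/
lemma DP_of_ge {l : ℕ} (h : l0 ≤ l) : DP l = 2 ^ (4 * rP l - 2) := by
  have h8 := eight_le_rP h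
  unfold DP
  rw [KP_of_ge h]
  have h2 : 4 * rP l = (4 * rP l - 2) + 2 := by omega
  rw [h2, pow_add]
  simp

/-- `KP` is positive above `l0`. -/
lemma KP_pos {l : ℕ} (h : l0 ≤ l) : 0 < KP l := by
  rw [KP_of_ge h]; positivity

/-- `4 ∣ KP l` above `l0`. -/
lemma four_dvd_KP {l : ℕ} (h : l0 ≤ l) : 4 ∣ KP l := by
  have h8 := eight_le_rP h
  rw [KP_of_ge h]
  exact ⟨2 ^ (4 * rP l - 2), by
    have h2 : 4 * rP l = (4 * rP l - 2) + 2 := by omega
    conv_lhs => rw [h2, pow_add]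
    ring⟩

/-- `KP` is monotone. -/
lemma KP_mono : Monotone KP := by
  intro a b hab
  by_cases ha : a < l0
  · rw [KP_of_lt ha]; exact Nat.zero_le _
  · have ha' : l0 ≤ a := not_lt.mp ha
    rw [KP_of_ge ha', KP_of_ge (ha'.trans hab)]
    exact Nat.pow_le_pow_right (by norm_num) (Nat.mul_le_mul_left _ (rP_mono hab))

/-- `TP` is monotone. -/
lemma TP_mono : Monotone TP := by
  intro a b hab
  by_cases ha : a < l0
  · rw [TP_of_lt ha]; exact Nat.zero_le _
  · have ha' : l0 ≤ a := not_lt.mp ha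
    rw [TP_of_ge ha', TP_of_ge (ha'.trans hab)]
    exact Nat.pow_le_pow_right (by norm_num) (Nat.mul_le_mul_left _ (rP_mono hab))

/-- `TP l ≤ 2 ^ l`. -/
lemma TP_le_two_pow (l : ℕ) : TP l ≤ 2 ^ l := by
  by_cases ha : l < l0
  · rw [TP_of_lt ha]; exact Nat.zero_le _
  · rw [TP_of_ge (not_lt.mp ha)]
    refine Nat.pow_le_pow_right (by norm_num) ?_
    unfold rP
    omega

/-- `KP l ≤ 2 ^ l`. -/
lemma KP_le_two_pow (l : ℕ) : KP l ≤ 2 ^ l := by
  by_cases ha : l < l0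
  · rw [KP_of_lt ha]; exact Nat.zero_le _
  · rw [KP_of_ge (not_lt.mp ha)]
    refine Nat.pow_le_pow_right (by norm_num) ?_
    unfold rP
    omega

/-- The reservation budget: all pools up to level `m` fit under the core threshold of level `m`. -/
lemma four_sum_KP_le (m : ℕ) : 4 * ∑ l ∈ range (m + 1), KP l ≤ TP m := by
  by_cases hm : m < l0
  · have h0 : ∑ l ∈ range (m + 1), KP l = 0 := by
      refine Finset.sum_eq_zero fun l hl => KP_of_lt ?_
      have := Finset.mem_range.mp hl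
      omega
    rw [h0]; simp
  · have hm' : l0 ≤ m := not_lt.mp hm
    have h8 := eight_le_rP hm'
    have hsum : ∑ l ∈ range (m + 1), KP l ≤ (m + 1) * 2 ^ (4 * rP m) := by
      calc ∑ l ∈ range (m + 1), KP l ≤ ∑ _l ∈ range (m + 1), 2 ^ (4 * rP m) := by
              refine Finset.sum_le_sum fun l hl => ?_
              rw [← KP_of_ge hm']
              exact KP_mono (by have := Finset.mem_range.mp hl; omega)
        _ = (m + 1) * 2 ^ (4 * rP m) := by simp
    have hr : m + 1 ≤ 8 * (rP m + 1) := by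
      unfold rP; omega
    have h1 : rP m + 1 ≤ 2 ^ rP m := Nat.lt_two_pow_self
    have h2 : (32 : ℕ) ≤ 2 ^ (2 * rP m) := by
      calc (32 : ℕ) ≤ 2 ^ 5 := by norm_num
        _ ≤ 2 ^ (2 * rP m) := Nat.pow_le_pow_right (by norm_num) (by omega)
    have h3 : 4 * (m + 1) ≤ 2 ^ (3 * rP m) := by
      have e : 2 ^ (3 * rP m) = 2 ^ (2 * rP m) * 2 ^ rP m := by
        rw [← pow_add]; congr 1; ring
      rw [e]
      calc 4 * (m + 1) ≤ 32 * (rP m + 1) := by omega
        _ ≤ 2 ^ (2 * rP m) * 2 ^ rP m := Nat.mul_le_mul h2 h1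
    rw [TP_of_ge hm']
    have e : 2 ^ (7 * rP m) = 2 ^ (3 * rP m) * 2 ^ (4 * rP m) := by
      rw [← pow_add]; congr 1; ring
    rw [e]
    calc 4 * ∑ l ∈ range (m + 1), KP l ≤ 4 * ((m + 1) * 2 ^ (4 * rP m)) := Nat.mul_le_mul_left _ hsum
      _ = (4 * (m + 1)) * 2 ^ (4 * rP m) := by ring
      _ ≤ 2 ^ (3 * rP m) * 2 ^ (4 * rP m) := Nat.mul_le_mul_right _ h3

end Crest.Agent.Lib.EG.Top
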