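import Mathlib

/-!
# Winding potential, descents form (row 45, S0064; helper2's Theorem B, #2223)

A closed trail is a cyclic list of vertices.  `dl r s` counts the step-2 descents of a linear
sequence, `D r t` the step-2 descents of a closed trail.  Loop erasure: a closed trail that
visits a vertex twice is split at this vertex; `D` grows by at most one and the number of trails
by exactly one.  A simple cycle of a bipartite graph has at least two step-2 descents when `r` is
injective on each colour class.  Hence the number of final cycles is at most the initial total of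
`D`.
-/

namespace Crest.Agent.Lib.EG.Winding

open List

variable {V : Type*}

/-- Consecutive arcs of a linear sequence. -/
def chainArcs : List V → List (V × V)
  | [] => []
  | [_] => []
  | a :: b :: l => (a, b) :: chainArcs (b :: l)

@[simp] theorem chainArcs_nil : chainArcs ([] : List V) = [] := rfl
@[simp] theorem chainArcs_single (a : V) : chainArcs [a] = [] := rfl
@[simp] theorem chainArcs_cons_cons (a b : V) (l : List V) :
    chainArcs (a :: b :: l) = (a, b) :: chainArcs (b :: l) := rfl

theorem chainArcs_append_cons (x : List V) (y : V) (z : List V) :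
    chainArcs (x ++ y :: z) = chainArcs (x ++ [y]) ++ chainArcs (y :: z) := by
  induction x with
  | nil => simp
  | cons a x ih =>
    cases x with
    | nil => simp
    | cons b x =>
      simp only [List.cons_append, chainArcs_cons_cons, List.cons_append] at ih ⊢
      rw [ih]

/-- The term of `dl` at the head `a`: compares `a` with the element two steps later. -/
def dterm (r : V → ℕ) (a : V) : List V → ℕ
  | _ :: c :: _ => if r c < r a then 1 else 0
  | _ => 0

/-- Step-2 descents of a linear sequence. -/
def dl (r : V → ℕ) : List V → ℕ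
  | [] => 0
  | a :: l => dterm r a l + dl r l

@[simp] theorem dl_nil (r : V → ℕ) : dl r [] = 0 := rfl
@[simp] theorem dl_cons (r : V → ℕ) (a : V) (l : List V) : dl r (a :: l) = dterm r a l + dl r l := rfl

theorem dterm_append (r : V → ℕ) (a : V) (x : List V) (y v : V) (w : List V) :
    dterm r a (x ++ y :: v :: w) = dterm r a (x ++ [y, v]) := by
  rcases x with _ | ⟨b, _ | ⟨c, x⟩⟩ <;> simp [dterm]

/-- Cutting a sequence at a vertex `v`: only the pair `(y, z)` straddles `v`. -/
theorem dl_split (r : V → ℕ) (x : List V) (y v z : V) (w : List V) :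
    dl r (x ++ y :: v :: z :: w) = dl r (x ++ [y, v]) + (if r z < r y then 1 else 0) + dl r (v :: z :: w) := by
  induction x with
  | nil => simp [dterm]
  | cons a x ih =>
    simp only [List.cons_append, dl_cons]
    rw [ih, dterm_append]
    simp only [dl_cons]
    omega

/-- The arcs of a closed trail. -/
def arcs (t : List V) : List (V × V) := chainArcs (t ++ t.take 1)

/-- The step-2 descents of a closed trail. -/
def D (r : V → ℕ) (t : List V) : ℕ := dl r (t ++ t.take 2)

theorem arcs_rotate_one (a : V) (m : List V) : (arcs (m ++ [a])).Perm (arcs (a :: m)) := by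
  cases m with
  | nil => simp [arcs]
  | cons b m =>
    have h1 : arcs (a :: b :: m) = (a, b) :: chainArcs (b :: m ++ [a]) := by
      simp [arcs]
    have h2 : arcs (b :: m ++ [a]) = chainArcs (b :: m ++ [a]) ++ [(a, b)] := by
      have : (b :: m ++ [a]) ++ (b :: m ++ [a]).take 1 = (b :: m) ++ a :: [b] := by simp
      unfold arcs
      rw [this, chainArcs_append_cons]
      simp
    rw [h1, h2]
    exact List.perm_append_singleton _ _

theorem D_rotate_one (r : V → ℕ) (a : V) (m : List V) : D r (m ++ [a]) = D r (a :: m) := by
  cases m with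
  | nil => simp [D]
  | cons b m =>
    have key : D r (b :: m ++ [a]) = dl r ((b :: m) ++ [a, b]) + dterm r a ((b :: m) ++ [a, b]) := by
      unfold D
      cases m with
      | nil =>
        have : ([b] ++ [a]) ++ ([b] ++ [a]).take 2 = [b] ++ a :: b :: a :: [] := by simp
        simp only [List.cons_append, List.nil_append, List.take_succ_cons, List.take_zero,
          List.cons_append, List.nil_append]
        have := dl_split r [b] a b a []
        simp only [List.cons_append, List.nil_append] at this
        rw [this]
        simp [dterm]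
      | cons c m =>
        have : (b :: c :: m ++ [a]) ++ (b :: c :: m ++ [a]).take 2 = (b :: c :: m) ++ a :: b :: c :: [] := by
          simp
        rw [this, dl_split]
        simp [dterm]
    rw [key]
    have : D r (a :: b :: m) = dl r (a :: (b :: m) ++ [a, b]) := by
      simp [D]
    rw [this]
    simp only [List.cons_append, dl_cons]
    omega

theorem arcs_rotate (t : List V) (n : ℕ) : (arcs (t.rotate n)).Perm (arcs t) := by
  induction n generalizing t with
  | zero => simp
  | succ n ih =>
    cases t with
    | nil => simp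
    | cons a m =>
      rw [List.rotate_cons_succ]
      exact (ih _).trans (arcs_rotate_one a m)

theorem D_rotate (r : V → ℕ) (t : List V) (n : ℕ) : D r (t.rotate n) = D r t := by
  induction n generalizing t with
  | zero => simp
  | succ n ih =>
    cases t with
    | nil => simp
    | cons a m =>
      rw [List.rotate_cons_succ, ih, D_rotate_one]

/-- Decomposition of a list with a repetition. -/
theorem exists_dup_decomp [DecidableEq V] (t : List V) (h : ¬ t.Nodup) :
    ∃ a v b c, t = a ++ v :: b ++ v :: c := by
  induction t with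
  | nil => simp at h
  | cons x l ih =>
    by_cases hx : x ∈ l
    · obtain ⟨b, c, hl⟩ := List.append_of_mem hx
      exact ⟨[], x, b, c, by simp [hl]⟩
    · have : ¬ l.Nodup := by
        intro hl
        exact h (List.nodup_cons.2 ⟨hx, hl⟩)
      obtain ⟨a, v, b, c, hl⟩ := ih this
      exact ⟨x :: a, v, b, c, by simp [hl]⟩

/-- A rotation of a trail with a repetition starts at a repeated vertex. -/
theorem exists_rotate_dup [DecidableEq V] (t : List V) (h : ¬ t.Nodup) :
    ∃ n v b c, t.rotate n = v :: b ++ v :: c := by
  obtain ⟨a, v, b, c, rfl⟩ := exists_dup_decomp t h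
  refine ⟨a.length, v, b, c ++ a, ?_⟩
  have : a ++ v :: b ++ v :: c = a ++ (v :: b ++ v :: c) := by simp
  rw [this, List.rotate_append_length_eq]
  simp

theorem arcs_split (v : V) (b c : List V) :
    arcs (v :: b ++ v :: c) = arcs (v :: b) ++ arcs (v :: c) := by
  have h1 : (v :: b ++ v :: c) ++ (v :: b ++ v :: c).take 1 = (v :: b) ++ v :: (c ++ [v]) := by simp
  unfold arcs
  rw [h1, chainArcs_append_cons]
  simp

theorem D_split (r : V → ℕ) (v : V) (b c : List V) (hb : b ≠ []) (hc : c ≠ []) :
    D r (v :: b) + D r (v :: c) ≤ D r (v :: b ++ v :: c) + 1 := by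
  obtain ⟨x1, b1, rfl⟩ := List.exists_cons_of_ne_nil hb
  obtain ⟨z1, c1, rfl⟩ := List.exists_cons_of_ne_nil hc
  obtain ⟨u, xr, hu⟩ : ∃ u xr, x1 :: b1 = u ++ [xr] := by
    exact ⟨(x1 :: b1).dropLast, (x1 :: b1).getLast (by simp), (List.dropLast_append_getLast _).symm⟩
  obtain ⟨w, zs, hw⟩ : ∃ w zs, z1 :: c1 = w ++ [zs] := by
    exact ⟨(z1 :: c1).dropLast, (z1 :: c1).getLast (by simp), (List.dropLast_append_getLast _).symm⟩
  have e1 : D r (v :: x1 :: b1) = dl r ((v :: u) ++ [xr, v]) + (if r x1 < r xr then 1 else 0) := by
    have : (v :: x1 :: b1) ++ (v :: x1 :: b1).take 2 = (v :: u) ++ xr :: v :: x1 :: [] := by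
      simp only [List.take_succ_cons, List.take_zero, List.cons_append]
      have : x1 :: b1 ++ [v, x1] = (u ++ [xr]) ++ [v, x1] := by rw [hu]
      simpa using this
    unfold D
    rw [this, dl_split]
    simp [dterm]
  have e2 : D r (v :: z1 :: c1) = dl r ((v :: w) ++ [zs, v]) + (if r z1 < r zs then 1 else 0) := by
    have : (v :: z1 :: c1) ++ (v :: z1 :: c1).take 2 = (v :: w) ++ zs :: v :: z1 :: [] := by
      simp only [List.take_succ_cons, List.take_zero, List.cons_append]
      have : z1 :: c1 ++ [v, z1] = (w ++ [zs]) ++ [v, z1] := by rw [hw]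
      simpa using this
    unfold D
    rw [this, dl_split]
    simp [dterm]
  have e3 : D r (v :: x1 :: b1 ++ v :: z1 :: c1) = dl r ((v :: u) ++ [xr, v])
      + (if r z1 < r xr then 1 else 0) + (dl r ((v :: w) ++ [zs, v]) + (if r x1 < r zs then 1 else 0)) := by
    have h0 : (v :: x1 :: b1 ++ v :: z1 :: c1) ++ (v :: x1 :: b1 ++ v :: z1 :: c1).take 2
        = (v :: u) ++ xr :: v :: z1 :: (c1 ++ [v, x1]) := by
      simp only [List.cons_append, List.take_succ_cons, List.take_zero, List.append_assoc]
      have : x1 :: (b1 ++ v :: z1 :: (c1 ++ [v, x1])) = (x1 :: b1) ++ v :: z1 :: (c1 ++ [v, x1]) := by simp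
      rw [this, hu]
      simp
    unfold D
    rw [h0, dl_split]
    have h1 : v :: z1 :: (c1 ++ [v, x1]) = (v :: w) ++ zs :: v :: x1 :: [] := by
      simp only [List.cons_append]
      have : z1 :: (c1 ++ [v, x1]) = (z1 :: c1) ++ [v, x1] := by simp
      rw [this, hw]
      simp
    rw [h1, dl_split]
    simp [dterm]
  rw [e1, e2, e3]
  split_ifs <;> omega

/-! ### Simple cycles have two descents -/

/-- Elements at even positions. -/
def evens : List V → List V
  | [] => []
  | [a] => [a]
  | a :: _ :: l => a :: evens l

@[simp] theorem evens_nil : evens ([] : List V) = [] := rfl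
@[simp] theorem evens_single (a : V) : evens [a] = [a] := rfl
@[simp] theorem evens_cons_cons (a b : V) (l : List V) : evens (a :: b :: l) = a :: evens l := rfl

/-- Adjacent descents of a linear sequence. -/
def desc (r : V → ℕ) : List V → ℕ
  | [] => 0
  | [_] => 0
  | a :: b :: l => (if r b < r a then 1 else 0) + desc r (b :: l)

theorem desc_cons_evens (r : V → ℕ) (a b : V) (l : List V) :
    desc r (a :: evens l) = dterm r a (b :: l) + desc r (evens l) := by
  rcases l with _ | ⟨c, _ | ⟨d, l⟩⟩ <;> simp [desc, dterm]

theorem dl_eq_desc (r : V → ℕ) (s : List V) : dl r s = desc r (evens s) + desc r (evens s.tail) := by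
  induction s using List.twoStepInduction with
  | nil => simp [desc]
  | singleton a => simp [desc, dterm]
  | cons_cons a b l ih1 ih2 =>
    have h := ih2 b
    simp only [List.tail_cons] at h
    simp only [dl_cons, List.tail_cons, evens_cons_cons] at h ⊢
    rw [desc_cons_evens r a b l, h]
    omega

theorem one_le_desc_of_closed (r : V → ℕ) (p q : V) (l : List V) (hpq : r q ≠ r p)
    (hlast : (q :: l).getLast (by simp) = p) : 1 ≤ desc r (p :: q :: l) := by
  by_contra hcon
  have h0 : desc r (p :: q :: l) = 0 := by omega
  -- no descent means monotone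
  have key : ∀ (w : List V) (a : V), desc r (a :: w) = 0 → ∀ x ∈ w, r a ≤ r x := by
    intro w
    induction w with
    | nil => simp
    | cons b w ih =>
      intro a hd x hx
      simp only [desc, Nat.add_eq_zero_iff, ite_eq_right_iff, one_ne_zero, imp_false, not_lt] at hd
      rcases List.mem_cons.1 hx with rfl | hx
      · exact hd.1
      · exact hd.1.trans (ih b hd.2 x hx)
  have h1 : r p ≤ r q := key (q :: l) p h0 q (by simp)
  have h2 : r q ≤ r p := by
    have hd : desc r (q :: l) = 0 := by
      simp only [desc, Nat.add_eq_zero_iff] at h0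
      exact h0.2
    rcases l with _ | ⟨y, l⟩
    · simp at hlast
      exact (hpq (by rw [hlast])).elim
    · have hm : p ∈ y :: l := by
        have := List.getLast_mem (l := (y :: l)) (by simp)
        rwa [show (y :: l).getLast (by simp) = p by
          rw [← hlast]; simp] at this
      exact key (y :: l) q hd p hm
  exact hpq (le_antisymm h2 h1)

theorem evens_append_even (x y : List V) (hx : x.length % 2 = 0) :
    evens (x ++ y) = evens x ++ evens y := by
  induction x using List.twoStepInduction with
  | nil => simp
  | singleton a => simp at hx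
  | cons_cons a b l ih _ =>
    have : l.length % 2 = 0 := by simp at hx; omega
    simp [ih this]

theorem evens_append_odd (x : List V) (c : V) (y : List V) (hx : x.length % 2 = 1) :
    evens (x ++ c :: y) = evens x ++ evens y := by
  induction x using List.twoStepInduction with
  | nil => simp at hx
  | singleton a => simp
  | cons_cons a b l ih _ =>
    have : l.length % 2 = 1 := by simp at hx; omega
    simp [ih this]

theorem bool_alt (x y z : Bool) (h1 : x ≠ y) (h2 : y ≠ z) : z = x := by
  revert x y z; decide

/-- All even-position entries have the colour of the head in an alternating sequence. -/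
theorem color_evens (col : V → Bool) (a : V) (l : List V)
    (h : ∀ p ∈ chainArcs (a :: l), col p.1 ≠ col p.2) : ∀ x ∈ evens (a :: l), col x = col a := by
  induction l using List.twoStepInduction generalizing a with
  | nil => simp
  | singleton b => simp
  | cons_cons b c l ih _ =>
    intro x hx
    simp only [evens_cons_cons, List.mem_cons] at hx
    rcases hx with rfl | hx
    · rfl
    · have h1 := h (a, b) (by simp)
      have h2 := h (b, c) (by simp)
      have h3 : col c = col a := bool_alt _ _ _ h1 h2
      rw [← h3]
      refine ih c ?_ x hx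
      intro p hp
      exact h p (by simp [hp])

/-- In an alternating closed sequence the number of steps is even. -/
theorem even_of_alternating (col : V → Bool) (a : V) (l : List V)
    (h : ∀ p ∈ chainArcs (a :: l), col p.1 ≠ col p.2) :
    col ((a :: l).getLast (by simp)) = col a ↔ l.length % 2 = 0 := by
  induction l using List.twoStepInduction generalizing a with
  | nil => simp
  | singleton b =>
    have := h (a, b) (by simp)
    simp only [List.getLast_cons_cons, List.getLast_singleton, List.length_singleton]
    simp only at this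
    simp [Ne.symm this]
  | cons_cons b c l ih _ =>
    have h1 := h (a, b) (by simp)
    have h2 := h (b, c) (by simp)
    simp only at h1 h2
    have h3 : col c = col a := bool_alt _ _ _ h1 h2
    have := ih c (fun p hp => h p (by simp [hp]))
    simp only [List.getLast_cons_cons] at this ⊢
    rw [h3] at this
    rw [this]
    simp only [List.length_cons]
    omega

/-- A simple cycle of a bipartite graph has at least two step-2 descents. -/
theorem two_le_D (r : V → ℕ) (col : V → Bool)
    (hr : ∀ x y, col x = col y → r x = r y → x = y) (t : List V) (hnd : t.Nodup) (hne : t ≠ [])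
    (hcol : ∀ p ∈ arcs t, col p.1 ≠ col p.2)
    (hrev : ∀ p ∈ arcs t, (p.2, p.1) ∉ arcs t) : 2 ≤ D r t := by
  rcases t with _ | ⟨a0, _ | ⟨a1, m⟩⟩
  · exact (hne rfl).elim
  · exact absurd rfl (hcol (a0, a0) (by simp [arcs]))
  · have hchain : ∀ p ∈ chainArcs (a0 :: a1 :: m ++ [a0]), col p.1 ≠ col p.2 := by
      intro p hp
      exact hcol p (by simpa [arcs] using hp)
    have heven := (even_of_alternating col a0 (a1 :: m ++ [a0]) hchain).1 (by simp)
    have hm : m.length % 2 = 0 := by simp at heven; omega
    rcases m with _ | ⟨a2, _ | ⟨a3, m⟩⟩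
    · -- length two: the arc and its reverse
      exact absurd (by simp [arcs] : ((a1, a0) : V × V) ∈ arcs [a0, a1])
        (hrev (a0, a1) (by simp [arcs]))
    · simp at hm
    · have hm' : m.length % 2 = 0 := by
        simp only [List.length_cons] at hm
        omega
      have h01 := hchain (a0, a1) (by simp)
      have h12 := hchain (a1, a2) (by simp)
      have h23 := hchain (a2, a3) (by simp)
      simp only at h01 h12 h23
      have c20 : col a2 = col a0 := bool_alt _ _ _ h01 h12
      have c31 : col a3 = col a1 := bool_alt _ _ _ h12 h23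
      have hnd' := hnd
      simp only [List.nodup_cons, List.mem_cons, not_or] at hnd'
      have r20 : r a2 ≠ r a0 := fun h => hnd'.1.2.1 (hr _ _ c20 h).symm
      have r31 : r a3 ≠ r a1 := fun h => hnd'.2.1.2.1 (hr _ _ c31 h).symm
      obtain ⟨z, hz⟩ : ∃ z, evens (a3 :: m) = a3 :: z := by
        rcases m with _ | ⟨x, y⟩
        · exact ⟨[], rfl⟩
        · exact ⟨evens y, rfl⟩
      have e1 : evens (a0 :: a1 :: a2 :: a3 :: m ++ [a0, a1]) = a0 :: a2 :: (evens m ++ [a0]) := by
        simp only [List.cons_append, evens_cons_cons]
        rw [evens_append_even m [a0, a1] hm']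
        simp
      have e2 : evens (a1 :: a2 :: a3 :: m ++ [a0, a1]) = a1 :: a3 :: (z ++ [a1]) := by
        simp only [List.cons_append, evens_cons_cons]
        have h3 : evens (a3 :: (m ++ [a0, a1])) = evens (a3 :: m) ++ evens [a1] := by
          have := evens_append_odd (a3 :: m) a0 [a1] (by simp; omega)
          simpa using this
        rw [h3, hz]
        simp
      have d1 : 1 ≤ desc r (a0 :: a2 :: (evens m ++ [a0])) :=
        one_le_desc_of_closed r a0 a2 _ r20 (by simp)
      have d2 : 1 ≤ desc r (a1 :: a3 :: (z ++ [a1])) :=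
        one_le_desc_of_closed r a1 a3 _ r31 (by simp)
      have hD : D r (a0 :: a1 :: a2 :: a3 :: m)
          = desc r (a0 :: a2 :: (evens m ++ [a0])) + desc r (a1 :: a3 :: (z ++ [a1])) := by
        unfold D
        rw [dl_eq_desc]
        have : (a0 :: a1 :: a2 :: a3 :: m) ++ (a0 :: a1 :: a2 :: a3 :: m).take 2
            = a0 :: a1 :: a2 :: a3 :: m ++ [a0, a1] := by simp
        rw [this, e1]
        have : (a0 :: a1 :: a2 :: a3 :: m ++ [a0, a1]).tail = a1 :: a2 :: a3 :: m ++ [a0, a1] := by simp
        rw [this, e2]
      omega

/-! ### The main induction -/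

/-- All arcs of a list of trails. -/
def allArcs (Ts : List (List V)) : List (V × V) := Ts.flatMap arcs

/-- Validity of an arc list. -/
def ValidArcs (col : V → Bool) (A : List (V × V)) : Prop :=
  A.Nodup ∧ (∀ p ∈ A, (p.2, p.1) ∉ A) ∧ ∀ p ∈ A, col p.1 ≠ col p.2

theorem ValidArcs.perm {col : V → Bool} {A B : List (V × V)} (h : A.Perm B) (hA : ValidArcs col A) :
    ValidArcs col B :=
  ⟨h.nodup_iff.1 hA.1,
   fun p hp hq => hA.2.1 p (h.mem_iff.2 hp) (h.mem_iff.2 hq),
   fun p hp => hA.2.2 p (h.mem_iff.2 hp)⟩

theorem ValidArcs.mono {col : V → Bool} {A B : List (V × V)} (h : A <+ B) (hB : ValidArcs col B) :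
    ValidArcs col A :=
  ⟨hB.1.sublist h,
   fun p hp hq => hB.2.1 p (h.subset hp) (h.subset hq),
   fun p hp => hB.2.2 p (h.subset hp)⟩

/-- Total descents of a list of trails. -/
def sumD (r : V → ℕ) (Ts : List (List V)) : ℕ := (Ts.map (D r)).sum

/-- The measure of the induction. -/
def excess (Ts : List (List V)) : ℕ := (Ts.map (fun t => t.length - 1)).sum

theorem allArcs_perm {Ts Ts' : List (List V)} (h : Ts.Perm Ts') : (allArcs Ts).Perm (allArcs Ts') :=
  List.Perm.flatMap_right _ h

theorem split_step [DecidableEq V] (r : V → ℕ) (col : V → Bool) (Ts : List (List V))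
    (hne : ∀ t ∈ Ts, t ≠ []) (hv : ValidArcs col (allArcs Ts)) (t : List V) (ht : t ∈ Ts)
    (hnd : ¬ t.Nodup) :
    ∃ Ts' : List (List V), excess Ts' + 1 = excess Ts ∧ (∀ t ∈ Ts', t ≠ []) ∧
      (allArcs Ts').Perm (allArcs Ts) ∧ sumD r Ts' ≤ sumD r Ts + 1 ∧ Ts'.length = Ts.length + 1 := by
  obtain ⟨n, v, b, c, hrot⟩ := exists_rotate_dup t hnd
  set R := Ts.erase t with hR
  have hp : Ts.Perm (t :: R) := List.perm_cons_erase ht
  have harcs : (arcs (v :: b ++ v :: c)).Perm (arcs t) := by
    rw [← hrot]; exact arcs_rotate t n
  have hDt : D r (v :: b ++ v :: c) = D r t := by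
    rw [← hrot]; exact D_rotate r t n
  have hlen : (v :: b ++ v :: c).length = t.length := by
    rw [← hrot]; simp
  have hsub : ∀ p ∈ arcs (v :: b ++ v :: c), col p.1 ≠ col p.2 := by
    intro p hp'
    apply hv.2.2
    have h1 : p ∈ arcs t := harcs.mem_iff.1 hp'
    unfold allArcs
    exact List.mem_flatMap.2 ⟨t, ht, h1⟩
  have hb : b ≠ [] := by
    rintro rfl
    have : (v, v) ∈ arcs (v :: [] ++ v :: c) := by
      rw [arcs_split]; simp [arcs]
    exact hsub _ this rfl
  have hc : c ≠ [] := by
    rintro rfl
    have : (v, v) ∈ arcs (v :: b ++ v :: []) := by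
      rw [arcs_split]; simp [arcs]
    exact hsub _ this rfl
  refine ⟨(v :: b) :: (v :: c) :: R, ?_, ?_, ?_, ?_, ?_⟩
  · have h1 : excess Ts = excess (t :: R) := (hp.map _).sum_eq
    rw [h1]
    simp only [excess, List.map_cons, List.sum_cons, List.length_cons]
    have : t.length = b.length + c.length + 2 := by
      rw [← hlen]; simp; omega
    rw [this]
    omega
  · intro s hs
    simp only [List.mem_cons] at hs
    rcases hs with rfl | rfl | hs
    · simp
    · simp
    · exact hne s (List.mem_of_mem_erase hs)
  · refine List.Perm.trans ?_ (allArcs_perm hp).symm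
    simp only [allArcs, List.flatMap_cons]
    rw [← List.append_assoc, ← arcs_split]
    exact harcs.append_right _
  · have h1 : sumD r Ts = sumD r (t :: R) := (hp.map _).sum_eq
    rw [h1]
    simp only [sumD, List.map_cons, List.sum_cons]
    have := D_split r v b c hb hc
    rw [hDt] at this
    omega
  · have h1 := hp.length_eq
    simp only [List.length_cons] at h1 ⊢
    omega

theorem main_induction [DecidableEq V] (r : V → ℕ) (col : V → Bool) :
    ∀ (n : ℕ) (Ts : List (List V)), excess Ts ≤ n → (∀ t ∈ Ts, t ≠ []) →
      ValidArcs col (allArcs Ts) →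
      ∃ Cs : List (List V), (∀ t ∈ Cs, t ≠ [] ∧ t.Nodup) ∧ (allArcs Cs).Perm (allArcs Ts) ∧
        sumD r Cs + Ts.length ≤ sumD r Ts + Cs.length := by
  intro n
  induction n with
  | zero =>
    intro Ts hex hne hv
    by_cases hall : ∀ t ∈ Ts, t.Nodup
    · exact ⟨Ts, fun t ht => ⟨hne t ht, hall t ht⟩, List.Perm.refl _, by omega⟩
    · push Not at hall
      obtain ⟨t, ht, hnd⟩ := hall
      obtain ⟨Ts', h1, -⟩ := split_step r col Ts hne hv t ht hnd
      omega
  | succ n ih =>
    intro Ts hex hne hv
    by_cases hall : ∀ t ∈ Ts, t.Nodup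
    · exact ⟨Ts, fun t ht => ⟨hne t ht, hall t ht⟩, List.Perm.refl _, by omega⟩
    · push Not at hall
      obtain ⟨t, ht, hnd⟩ := hall
      obtain ⟨Ts', h1, h2, h3, h4, h5⟩ := split_step r col Ts hne hv t ht hnd
      obtain ⟨Cs, c1, c2, c3⟩ := ih Ts' (by omega) h2 (hv.perm h3.symm)
      exact ⟨Cs, c1, c2.trans h3, by omega⟩

/-- **Theorem B (winding)**.  Closed trails with distinct arcs, no arc together with its reverse,
arcs between different colours, `r` injective on each colour class.  Then the arcs split into
simple closed trails `Cs` with `Cs.length + Ts.length ≤ ` the total number of step-2 descents. -/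
theorem winding [DecidableEq V] (r : V → ℕ) (col : V → Bool)
    (hr : ∀ x y, col x = col y → r x = r y → x = y) (Ts : List (List V))
    (hne : ∀ t ∈ Ts, t ≠ []) (hv : ValidArcs col (allArcs Ts)) :
    ∃ Cs : List (List V), (∀ t ∈ Cs, t ≠ [] ∧ t.Nodup) ∧ (allArcs Cs).Perm (allArcs Ts) ∧
      Cs.length + Ts.length ≤ sumD r Ts := by
  obtain ⟨Cs, c1, c2, c3⟩ := main_induction r col (excess Ts) Ts le_rfl hne hv
  refine ⟨Cs, c1, c2, ?_⟩
  have hvC := hv.perm c2.symm
  have h2 : 2 * Cs.length ≤ sumD r Cs := by
    have : ∀ (Ds : List (List V)), (∀ t ∈ Ds, t ≠ [] ∧ t.Nodup) → ValidArcs col (allArcs Ds) →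
        2 * Ds.length ≤ sumD r Ds := by
      intro Ds
      induction Ds with
      | nil => simp [sumD]
      | cons t Ds ih =>
        intro h1 h3
        have h4 : 2 ≤ D r t := by
          apply two_le_D r col hr t (h1 t (by simp)).2 (h1 t (by simp)).1
          · intro p hp
            exact h3.2.2 p (by simp [allArcs, hp])
          · intro p hp hq
            exact h3.2.1 p (by simp [allArcs, hp]) (by simp [allArcs, hq])
        have h5 := ih (fun s hs => h1 s (by simp [hs]))
          (ValidArcs.mono (by simp [allArcs]) h3)
        simp only [sumD, List.map_cons, List.sum_cons, List.length_cons] at h5 ⊢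
        omega
    exact this Cs c1 hvC
  omega

end Crest.Agent.Lib.EG.Winding
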